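import Vale.Agent.P027M.FA.Defs
import Vale.Agent.P027M.F.Defs

/-! # P027, route M, block FAITH : characteristic zero, reduction, output -/

set_option linter.all false

open Polynomial NumberField Vale.Agent.P022 Vale.Agent.P019P P025H492 P025H816

noncomputable section

namespace Vale.Agent.P027M.FA

open F

/-- the scalar `1` or `w` -/
def cw (sw : Bool) : O3 := if sw then wO else 1

/-- the element `β0 + β1 i` -/
def co (β : ℤ_[3] × ℤ_[3]) : O3 := algebraMap _ O3 β.1 + algebraMap _ O3 β.2 * iO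

/-- [FA.sym] traces lie in `ℤ₃[i]` on the stabiliser of `i` and in `w ℤ₃[i]` outside -/
def SYM : Prop := ∀ (g : ℚ) (X : Cfg g) ρ emb, Mod X ρ emb → ∀ (σ : GQ) (sw : Bool),
  (sw = true ↔ σ (X.i : Qb) ≠ X.i) → ∃ β, (ρ σ).trace = cw sw * co β

/-- [FA.ch] Cayley-Hamilton on Kummer classes -/
def CH : Prop := ∀ (g : ℚ) (X : Cfg g) ρ emb, Mod X ρ emb → ∀ (σ : GQ) (sw : Bool) (q e n : ℕ)
  (β : ℤ_[3] × ℤ_[3]) (a0 a1 : ℤ), (ρ σ).trace = cw sw * co β → (ρ σ).det = (q : O3) * (iO : O3) ^ e →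
  (3 : ℤ_[3]) ^ n ∣ β.1 - a0 → (3 : ℤ_[3]) ^ n ∣ β.2 - a1 → Kill X.P (X.r σ) sw q e (3 ^ n) a0 a1

/-- `x` is integral with reduction `y` -/
def Rd {k : Type} [Field k] {O : ValuationSubring Qb} (red : O →+* k) (x : Qb) (y : k) : Prop :=
  ∃ h : x ∈ O, red ⟨x, h⟩ = y

/-- the reduction of the family at the prime `Q` over `p`; `φ` is a Frobenius element at `Q` -/
structure RedD {g : ℚ} (X : Cfg g) (p : ℕ) (Q : Ideal (𝓞 Qb)) (φ : GQ) where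
  k : Type
  [fk : Field k]
  [ak : IsAlgClosed k]
  [ck : CharP k p]
  O : ValuationSubring Qb
  red : O →+* k
  int : ∀ x : 𝓞 Qb, ∃ y, Rd red x y ∧ (y = 0 ↔ x ∈ Q)
  P : Par k
  T : Tw P
  f : T.Sig
  hf : ∀ a, (f : RingAut k) a = a ^ p
  rg : Rd red X.P.g P.g
  rg0 : Rd red X.P.g0 P.g0
  ri : Rd red X.P.i P.i
  rg0' : Rd red X.T.g0' T.g0'
  rν : Rd red X.T.ν T.ν
  rx : Rd red X.T.x T.x
  kill : ∀ (j : ℕ) (sw : Bool) (q e n : ℕ) (a0 a1 : ℤ), ¬ p ∣ n →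
    Kill X.P (X.r φ ^ j) sw q e n a0 a1 → Kill P (T.rr f ^ j) sw q e n a0 a1

attribute [instance] RedD.fk RedD.ak RedD.ck

/-- `φ` is a Frobenius element at the prime `Q` over `p` -/
structure FrobAt (p : ℕ) (Q : Ideal (𝓞 Qb)) (φ : GQ) : Prop where
  pr : Q.IsPrime
  mem : (p : 𝓞 Qb) ∈ Q
  fr : ∀ x : 𝓞 Qb, φ • x - x ^ p ∈ Q

/-- the primes at which all the constants of the family are units -/
def Unit {g : ℚ} (X : Cfg g) (p : ℕ) : Prop := ∀ O : ValuationSubring Qb,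
  O.valuation (p : Qb) < 1 → ∀ z ∈ [2, 3, X.P.g, X.P.g + 1, 3 - X.P.g, X.P.g - 1, X.P.g + 3,
    X.P.g0, X.T.g0', X.T.ν, X.T.x], O.valuation z = 1

/-- [FA.tr] good reduction -/
def TR : Prop := ∀ (g : ℚ) (X : Cfg g) (p : ℕ) (Q : Ideal (𝓞 Qb)) (φ : GQ), p.Prime → Unit X p →
  FrobAt p Q φ → Nonempty (RedD X p Q φ)

/-- [FA.unit] almost all primes are good for the model -/
def UNIT : Prop := ∀ (g : ℚ) (X : Cfg g), ∃ B : ℕ, B ≠ 0 ∧ ∀ p : ℕ, p.Prime → ¬ p ∣ B → Unit X p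

/-- the output at the prime `p` : `b` is the trace; the correspondence `V + ε F - b` kills the
differentials and the torsion of `FC` in the reduction -/
def OutP {g : ℚ} (X : Cfg g) (a : O3) (ε b : GaussianInt) (p : ℕ) : Prop :=
  a = cw (p % 4 = 3) * gi iO b ∧ ∀ (Q : Ideal (𝓞 Qb)) (φ : GQ), FrobAt p Q φ →
    ∀ (D : RedD X p Q φ) (e : ℕ), gi (iO : O3) ε = iO ^ e →
      (∀ d : Derivation D.k D.P.FF D.P.FF, DId D.P d p (D.T.rr D.f) (p % 4 = 3) 1 b.re b.im) ∧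
      ∀ n : ℕ, ¬ p ∣ n → ∀ h ∈ divU D.k D.P.FC n, ∃ y : D.P.FF,
        ∏ a, ((gs D.P a * D.T.rr D.f) ((h : D.P.FC) : D.P.FF) *
          (gs D.P a * D.P.iota ^ e * (D.T.rr D.f)⁻¹) ((h : D.P.FC) : D.P.FF) ^ p *
          ∏ c, ((gs D.P a * hs D.P (p % 4 = 3) c) ((h : D.P.FC) : D.P.FF) ^ b.re *
            (gs D.P a * hs D.P (p % 4 = 3) c * D.P.iota) ((h : D.P.FC) : D.P.FF) ^ b.im) ^
              (-cc (p % 4 = 3) c)) ^ cs a = y ^ n

/-- **[FA.out]** from `COREP`, `INTG`, `SYM`, `CH`, `TR` -/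
def OUT : Prop := ∀ (g : ℚ) (X : Cfg g) ρ emb (N : ℕ) (ε : ZMod N →* GaussianInt) M ξ c
  (a : ℕ → O3), Mod X ρ emb → GalA X.i N ε M ξ c a ρ → ∀ p : ℕ, GoodP N p → Unit X p →
    ∃ b : GaussianInt, OutP X (a p) (ε p) b p

end Vale.Agent.P027M.FA
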