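import Vale.Agent.P027M.FA.TrR
import Vale.Agent.P027M.FA.Spec
import Vale.Agent.P027M.R.Fam
import Vale.Agent.P027M.D.Over

/-! # P027, route M, block FAITH : row `TR` -/

set_option linter.all false

open Polynomial NumberField Vale.Agent.P022 Vale.Agent.P019P P025H492 P025H816 IsLocalRing

noncomputable section

namespace Vale.Agent.P027M.FA

open R F

namespace Tq

theorem ac_res {C : Type} [Field C] [IsAlgClosed C] (O : ValuationSubring C) :
    IsAlgClosed (ResidueField O) := by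
  refine IsAlgClosed.of_exists_root _ fun p hp hirr => ?_
  obtain ⟨q, hq, hqd, hqm⟩ := lifts_and_natDegree_eq_and_monic
    ((lifts_iff_coeff_lifts (f := residue O) p).2 fun n => residue_surjective _) hp
  have hd : (q.map (algebraMap O C)).degree ≠ 0 := by
    rw [hqm.degree_map, Polynomial.degree_eq_natDegree hqm.ne_zero, hqd]
    exact_mod_cast hirr.natDegree_pos.ne'
  obtain ⟨a, ha⟩ := IsAlgClosed.exists_root _ hd
  rw [IsRoot, eval_map] at ha
  obtain ⟨b, hb⟩ := (IsIntegrallyClosed.isIntegral_iff (R := O) (K := C)).1 ⟨q, hqm, ha⟩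
  refine ⟨residue _ b, ?_⟩
  have h2 : q.eval b = 0 := FaithfulSMul.algebraMap_injective O C (by
    rw [← eval₂_at_apply, hb, map_zero]; exact ha)
  rw [← hq, eval_map, eval₂_hom, h2, map_zero]

variable {k : Type} [Field k] {O : ValuationSubring Qb} {res : O →+* k} {Q : Ideal (𝓞 Qb)}

theorem int (hQ : Q.IsPrime) (hO : D.Over Q O) (hs : Function.Surjective res) (x : 𝓞 Qb) :
    ∃ y, Cm res (x : Qb) y ∧ (y = 0 ↔ x ∈ Q) := by
  have h1 : (x : Qb) ∈ O := (hO _).2 ⟨1, x, hQ.one_notMem, one_mul _⟩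
  have h2 := Cm.of (res := res) ⟨_, h1⟩
  refine ⟨_, h2, ⟨fun h => ?_, fun h =>
    (h2.val_lt hs).1 (D.Ov.lt_one hQ hO hQ.one_notMem h (one_mul _))⟩⟩
  by_contra h3
  have h4 : (x : Qb) ≠ 0 := fun e => h3 (by rw [show x = 0 from RingOfIntegers.ext e]; exact Q.zero_mem)
  have h5 := h2.mul (Cm.of (res := res) ⟨_, (hO (x : Qb)⁻¹).2 ⟨x, 1, h3, mul_inv_cancel₀ h4⟩⟩)
  rw [h, zero_mul] at h5
  exact one_ne_zero (Cm.one.uniq (mul_inv_cancel₀ h4 ▸ h5))

theorem dec {p : ℕ} [ExpChar k p] [PerfectRing k p] {φ : GQ} (h : FrobAt p Q φ) (hp : p ≠ 0)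
    (hO : D.Over Q O) (hs : Function.Surjective res) :
    Dec res φ.toRingEquiv (frobeniusEquiv k p) := by
  have h1 : ∀ x : 𝓞 Qb, φ • x ∈ Q ↔ x ∈ Q := fun x =>
    ⟨fun e => h.pr.mem_of_pow_mem p (by simpa using Q.sub_mem e (h.fr x)),
      fun e => by simpa using Q.add_mem (h.fr x) (Q.pow_mem_of_mem e p (Nat.pos_of_ne_zero hp))⟩
  have h2 : ∀ (x : 𝓞 Qb) y, Cm res (x : Qb) y → Cm res (φ x) (y ^ p) := fun x y e => by
    obtain ⟨z, h3, h4⟩ := int h.pr hO hs (φ • x - x ^ p)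
    have h5 := h3.add (e.pow p)
    rw [h4.2 (h.fr x), zero_add] at h5
    have h6 : ((φ • x - x ^ p : 𝓞 Qb) : Qb) + (x : Qb) ^ p = φ x := sub_add_cancel (φ (x : Qb)) _
    exact h6 ▸ h5
  refine ⟨fun c => ⟨fun e => ?_, fun e => ?_⟩, fun a b e => ?_⟩
  · obtain ⟨s, t, h3, h4⟩ := (hO _).1 e
    refine (hO _).2 ⟨φ⁻¹ • s, φ⁻¹ • t, fun e => h3 (by simpa using (h1 _).2 e), φ.injective ?_⟩
    rw [map_mul]
    exact (congrArg₂ (· * ·) (φ.apply_symm_apply _) rfl).trans (h4.trans (φ.apply_symm_apply _).symm)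
  · obtain ⟨s, t, h3, h4⟩ := (hO _).1 e
    exact (hO _).2 ⟨φ • s, φ • t, fun e => h3 ((h1 _).1 e), (map_mul φ _ _).symm.trans (congrArg φ h4)⟩
  · obtain ⟨s, t, h3, h4⟩ := (hO _).1 e.1
    obtain ⟨y, h5, h6⟩ := int h.pr hO hs s
    have h7 : y ≠ 0 := fun e => h3 (h6.1 e)
    have h8 := (h2 t _ (h4 ▸ h5.mul e)).div hs (h2 s y h5) (pow_ne_zero p h7)
    rw [← h4, map_mul, mul_div_cancel_left₀ _ ((map_ne_zero φ).2 (h5.ne h7)), mul_pow,
      mul_div_cancel_left₀ _ (pow_ne_zero p h7)] at h8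
    exact h8

end Tq

/-- **good reduction**, with the reduction of the function fields -/
theorem tr2 {g : ℚ} (X : Cfg g) {p : ℕ} {Q : Ideal (𝓞 Qb)} {φ : GQ} (hp : p.Prime) (hU : Unit X p)
    (h : FrobAt p Q φ) : ∃ (D : RedD X p Q φ) (R : RdF D.red X.P D.P),
      R.Lf X.P.tau D.P.tau ∧ R.Lf X.P.rho D.P.rho ∧ R.Lf X.P.iota D.P.iota ∧
        R.Lf (X.r φ) (D.T.rr D.f) := by
  obtain ⟨O, hO, -, hv, -⟩ := D.over_ok p Q hp h.pr h.mem
  have hs : Function.Surjective (residue O) := residue_surjective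
  haveI := Tq.ac_res O
  haveI : Fact p.Prime := ⟨hp⟩
  haveI : CharP (ResidueField O) p :=
    (CharP.charP_iff_prime_eq_zero hp).2 (((Cm.nat p).val_lt hs).1 hv)
  have hu := hU O hv
  obtain ⟨P, hP⟩ := exists_par hs X.P fun z hz => hu z (by
    simp only [List.mem_cons, List.not_mem_nil] at hz ⊢; tauto)
  obtain ⟨T, hT⟩ := exists_tw hs hP X.T (hu _ (by simp)) (hu _ (by simp)) (hu _ (by simp))
  have hd : Dec (residue O) (X.s φ : RingAut Qb) (frobeniusEquiv (ResidueField O) p) := by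
    rw [show (X.s φ : RingAut Qb) = φ.toRingEquiv from RingEquiv.ext (X.hs φ)]
    exact Tq.dec h hp.ne_zero hO hs
  obtain ⟨R⟩ := redF hp hv hs hP
  have hf := R.lf_rr hT (σ := X.s φ) (τ := ⟨_, hd.mem_Sig hP hT (X.s φ).2⟩) hd
  exact ⟨⟨ResidueField O, O, residue O, Tq.int h.pr hO hs, P, T, ⟨_, hd.mem_Sig hP hT (X.s φ).2⟩,
    fun _ => rfl, hP.g, hP.g0, hP.i, hT.g0', hT.ν, hT.x, fun j _ _ _ n _ _ hn hk =>
      Tq.kill R.lf_rho R.lf_iota (hf.pow j) ((hf.pow j).inv hs)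
        (fun e => hn ((CharP.cast_eq_zero_iff _ p n).1 e)) hk⟩,
    R, R.lf_tau, R.lf_rho, R.lf_iota, hf⟩

theorem tr : TR := fun _ X _ _ _ hp hU h => ⟨(tr2 X hp hU h).choose⟩

end Vale.Agent.P027M.FA
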