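import Vale.Agent.P027M.B.AJ
import Vale.Agent.P027M.K.TT
import Vale.Agent.P027M.F.Sub0
import Vale.Agent.P027M.F.Tw

/-! # P027, route M, block FAITH : statements (paper: `notes/P027/B1.md`, owner helper91) -/

set_option linter.all false

open Polynomial Vale.Agent.P019P P025H492 P025H816

noncomputable section

namespace Vale.Agent.P027M.FA

open B

section defs
variable {Om L : Type} [Field Om] [Field L] [Algebra Om L] [CFF Om L]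

open Classical in
/-- the divisor of the point `(μ, s)` -/
def pt (m w : L) (μ s : Om) : Plk Om L →₀ ℤ :=
  if h : ∃ P : Plk Om L, 0 ≤ ord P m ∧ vl P m = μ ∧ vl P w = s then Finsupp.single h.choose 1 else 0

/-- constant places -/
def CstP (k : Type) [Field k] [Algebra k Om] (m : L) (P : Plk Om L) : Prop :=
  ord P m < 0 ∨ ∃ a : k, vl P m = algebraMap k Om a

/-- divisors which are equivalent to a constant divisor -/
def Zc (k : Type) [Field k] [Algebra k Om] (m : L) : AddSubgroup (Plk Om L →₀ ℤ) where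
  carrier := {D | ∃ φ : L, φ ≠ 0 ∧ ∀ P, (D - dv Om φ) P ≠ 0 → CstP k m P}
  zero_mem' := ⟨1, one_ne_zero, fun P h => absurd (by simp [dv_apply, ord_one]) h⟩
  add_mem' := by
    rintro D E ⟨φ, h0, h⟩ ⟨ψ, k0, k⟩
    refine ⟨φ * ψ, mul_ne_zero h0 k0, fun P hP => ?_⟩
    by_contra c
    have a := not_not.1 (mt (h P) c)
    have b := not_not.1 (mt (k P) c)
    rw [dv_mul h0 k0] at hP
    simp only [Finsupp.sub_apply, Finsupp.add_apply] at a b hP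
    omega
  neg_mem' := by
    rintro D ⟨φ, h0, h⟩
    refine ⟨φ⁻¹, inv_ne_zero h0, fun P hP => h P ?_⟩
    rw [dv_inv] at hP
    simp only [Finsupp.sub_apply, Finsupp.neg_apply] at hP ⊢
    omega

/-- divisors whose class is invariant under the automorphisms of `Om` over `K` -/
def Inv (K : Type) [Field K] [Algebra K Om] (m w : L) : AddSubgroup (Plk Om L →₀ ℤ) where
  carrier := {D | ∀ (s : L ≃+* L) (s₀ : Om ≃+* Om)
    (hs : ∀ a, s (algebraMap Om L a) = algebraMap Om L (s₀ a)),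
    (∀ a : K, s₀ (algebraMap K Om a) = algebraMap K Om a) → s m = m → s w = w →
      ∃ φ : L, φ ≠ 0 ∧ D.mapDomain (plEquiv s s₀ hs) = D + dv Om φ}
  zero_mem' := fun s s₀ hs _ _ _ => ⟨1, one_ne_zero, by ext P; simp [dv_apply, ord_one]⟩
  add_mem' := by
    intro D E hD hE s s₀ hs a b c
    obtain ⟨φ, h0, h⟩ := hD s s₀ hs a b c
    obtain ⟨ψ, k0, k⟩ := hE s s₀ hs a b c
    exact ⟨φ * ψ, mul_ne_zero h0 k0, by rw [Finsupp.mapDomain_add, h, k, dv_mul h0 k0]; abel⟩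
  neg_mem' := by
    intro D hD s s₀ hs a b c
    obtain ⟨φ, h0, h⟩ := hD s s₀ hs a b c
    refine ⟨φ⁻¹, inv_ne_zero h0, ?_⟩
    rw [dv_inv, ← neg_add, ← h]
    exact map_neg (Finsupp.mapDomain.addMonoidHom _) D

/-- fixed by the automorphisms of `Om` over `K` -/
def Fx (K : Type) [Field K] [Algebra K Om] (y : Om) : Prop := ∀ s₀ : Om ≃ₐ[K] Om, s₀ y = y

end defs

/-- the setting : constants `k`, base `K`, its algebraic closure `Om`, the curve `L` over `Om` -/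
def AllS (p : ∀ (k K Om L : Type) [Field k] [Field K] [Field Om] [Field L] [Algebra k K]
    [Algebra K Om] [Algebra k Om] [IsScalarTower k K Om] [Algebra Om L] [CFF k K]
    [IsAlgClosure K Om] [CFF Om L] (_ : k[X]) (_ _ : L), Prop) : Prop :=
  ∀ (k K Om L : Type) [Field k] [Field K] [Field Om] [Field L] [Algebra k K]
    [Algebra K Om] [Algebra k Om] [IsScalarTower k K Om] [Algebra Om L] [CFF k K]
    [IsAlgClosure K Om] [CFF Om L] (F : k[X]) (m w : L),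
    Hyp (F.map (algebraMap k Om)) m w → p k K Om L F m w

/-- [FA.be] the height pairing -/
def BE : Prop := AllS fun k K Om L _ _ _ _ _ _ _ _ _ _ _ _ _ m w => ∀ p : ℕ, p.Prime → CharP k p →
  ∃ (be : (Plk Om L →₀ ℤ) →+ (Plk Om L →₀ ℤ) →+ ℚ) (c0 : ℕ), 0 < c0 ∧
    (∀ D E, be D E = be E D) ∧ (∀ D ∈ Zc k m, ∀ E, be D E = 0) ∧
    (∀ D, be D D = 0 → D ∈ Zc k m) ∧
    ∀ D ∈ Inv K m w, ∀ E ∈ Inv K m w, ∃ (a : ℕ) (z : ℤ), (c0 : ℚ) * p ^ a * be D E = z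

/-- [FA.pti] fixed points and classes of constant divisors are invariant -/
def PTI : Prop := AllS fun k K Om L _ _ _ _ _ _ _ _ _ _ _ _ _ m w =>
  (∀ μ s : Om, Fx K μ → Fx K s → pt m w μ s ∈ Inv K m w) ∧
    ∀ D : Plk Om L →₀ ℤ, D ∈ Zc k m → D ∈ Inv K m w

/-- [FA.kum] a correspondence which kills the `n`-torsion is divisible by `n` -/
def KUM : Prop := AllS fun k K Om L _ _ _ _ _ _ _ _ _ _ _ _ F m w =>
  ∀ (C : Type) [Field C] [Algebra k C] [CFF k C] (m0 w0 : C), Hyp F m0 w0 →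
  ∀ (n : ℕ) (ι : Type) [Fintype ι] (α : ι → C →ₐ[k] Om) (c : ι → ℤ), (n : k) ≠ 0 →
    ∑ a, c a = 0 → (∀ a z, Fx K (α a z)) →
    (∀ h ∈ divU k C n, ∃ y : Om, Fx K y ∧ ∏ a, α a (h : C) ^ c a = y ^ n) →
    ∃ ψ ∈ Inv K m w, ∃ φ : L, φ ≠ 0 ∧
      ∑ a, c a • pt m w (α a m0) (α a w0) = n • ψ + dv Om φ

/-- [FA.kum2] a constant correspondence kills the torsion -/
def KUM2 : Prop := AllS fun k K Om L _ _ _ _ _ _ _ _ _ _ _ _ F m w =>
  ∀ (C : Type) [Field C] [Algebra k C] [CFF k C] (m0 w0 : C), Hyp F m0 w0 →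
  ∀ (n : ℕ) (ι : Type) [Fintype ι] (α : ι → C →ₐ[k] Om) (c : ι → ℤ), (n : k) ≠ 0 →
    (∀ a z, Fx K (α a z)) → ∑ a, c a • pt m w (α a m0) (α a w0) ∈ Zc k m →
    ∀ h ∈ divU k C n, ∃ y : Om, Fx K y ∧ ∏ a, α a (h : C) ^ c a = y ^ n

/-- [FA.diff] a constant correspondence kills the differentials -/
def DIFF : Prop := AllS fun k K Om L _ _ _ _ _ _ _ _ _ _ _ _ F m w =>
  ∀ (p : ℕ), p.Prime → CharP k p → ∀ (d : Derivation k K K) (ι κ : Type) [Fintype ι] [Fintype κ]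
    (μ s : ι → K) (n : ι → ℤ) (ν t : κ → K) (ν' t' : κ → Om) (r : κ → ℤ),
    (∀ a, s a ^ 2 = aeval (μ a) F ∧ Transcendental k (μ a)) →
    (∀ b, t' b ^ 2 = aeval (ν' b) F ∧ Transcendental k (ν' b) ∧
      ν' b ^ p = algebraMap K Om (ν b) ∧ t' b ^ p = algebraMap K Om (t b)) →
    ∑ a, n a • pt m w (algebraMap K Om (μ a)) (algebraMap K Om (s a)) +
      ∑ b, (p * r b) • pt m w (ν' b) (t' b) ∈ Zc k m →
    ∀ j < 3, ∑ a, n a * (μ a ^ j * d (μ a) / s a) +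
      ∑ b, r b * ((∑ i ∈ Finset.range 3, algebraMap k K (cm F p j i) * ν b ^ i) * d (ν b) / t b) = 0

/-- [FA.exh] the curve exists over every algebraically closed field -/
def EXH : Prop := ∀ (k : Type) [Field k] [IsAlgClosed k] (F : k[X]), (2 : k) ≠ 0 →
  F.natDegree = 7 → F.Separable →
  ∃ (L : Type) (_ : Field L) (_ : Algebra k L) (_ : CFF k L) (m w : L), Hyp F m w

/-- [FA.mum] a `3`-adic limit of lattice points is rational -/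
def MUM : Prop := ∀ (A : Type) [AddCommGroup A] (be : A →+ A →+ ℚ) (Z I : AddSubgroup A)
  (c0 p : ℕ) (x0 x1 : A), 0 < c0 → p.Prime → p ≠ 3 → (∀ x y, be x y = be y x) →
  (∀ x ∈ Z, ∀ y, be x y = 0) → (∀ x, be x x = 0 → x ∈ Z) →
  (∀ x ∈ I, ∀ y ∈ I, ∃ (a : ℕ) (z : ℤ), (c0 : ℚ) * p ^ a * be x y = z) → x0 ∈ I → x1 ∈ I →
  (∀ a b : ℤ, a • x0 + b • x1 ∈ Z → a = 0 ∧ b = 0) →
  ∃ N : ℕ, 0 < N ∧ ∀ y ∈ I, ∀ β0 β1 : ℤ_[3],
    (∀ n : ℕ, ∃ (a0 a1 : ℤ), ∃ ψ ∈ I, (3 : ℤ_[3]) ^ n ∣ β0 - a0 ∧ (3 : ℤ_[3]) ^ n ∣ β1 - a1 ∧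
      y - a0 • x0 - a1 • x1 - 3 ^ n • ψ ∈ Z) →
    ∃ (e : ℕ) (u0 u1 : ℤ), (N * p ^ e : ℤ_[3]) * β0 = u0 ∧ (N * p ^ e : ℤ_[3]) * β1 = u1 ∧
      (N * p ^ e) • y - u0 • x0 - u1 • x1 ∈ Z

/-- [FA.intg] bounded denominators in the recurrence of the traces of the odd powers; `γ = 1, 3` -/
def INTG : Prop := ∀ (R : Type) [CommRing R] [IsDomain R] [Algebra ℤ_[3] R] (i : R) (p γ e N : ℕ)
  (β : ℕ → ℤ_[3] × ℤ_[3]) (σ : ℕ → R), i ^ 2 = -1 → p.Prime → p ≠ 3 → (γ = 1 ∨ γ = 3) → 0 < N →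
  (∀ a b : ℤ_[3], algebraMap _ R a + algebraMap _ R b * i = 0 → a = 0 ∧ b = 0) →
  (∀ j, σ j = algebraMap _ R (β j).1 + algebraMap _ R (β j).2 * i) →
  σ 1 = σ 0 * (γ * σ 0 ^ 2 - 3 * (i ^ e * p)) →
  (∀ j, σ (j + 2) = (γ * σ 0 ^ 2 - 2 * (i ^ e * p)) * σ (j + 1) - (i ^ e * p) ^ 2 * σ j) →
  (∀ j, ∃ (a : ℕ) (u0 u1 : ℤ), (N * p ^ a : ℤ_[3]) * (β j).1 = u0 ∧
    (N * p ^ a : ℤ_[3]) * (β j).2 = u1) →
  ∃ (a : ℕ) (u0 u1 : ℤ), (p ^ a : ℤ_[3]) * (β 0).1 = u0 ∧ (p ^ a : ℤ_[3]) * (β 0).2 = u1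

/-! ### the field `FF` -/

section FF
variable {k : Type} [Field k] [IsAlgClosed k] (P : F.Par k)

/-- the projector `(1 - ι ^ 2) (2 - ρ - ρ ^ 2)` : automorphisms -/
def gs : Fin 6 → RingAut P.FF :=
  ![1, P.rho, P.rho * P.rho, P.iota * P.iota, P.iota * P.iota * P.rho,
    P.iota * P.iota * (P.rho * P.rho)]

/-- the projector : coefficients -/
def cs : Fin 6 → ℤ := ![2, -1, -1, -2, 1, 1]

/-- the scalar `1`, resp. `w = ι (ρ - ρ ^ 2)` : automorphisms -/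
def hs (sw : Bool) : Fin 2 → RingAut P.FF :=
  if sw then ![P.iota * P.rho, P.iota * (P.rho * P.rho)] else ![1, 1]

/-- the scalar : coefficients -/
def cc (sw : Bool) : Fin 2 → ℤ := if sw then ![1, -1] else ![1, 0]

/-- `e' (r + q ι ^ e r⁻¹ - c (a0 + a1 ι))` kills the `n`-torsion -/
def Kill (r : RingAut P.FF) (sw : Bool) (q e n : ℕ) (a0 a1 : ℤ) : Prop :=
  ∀ h ∈ divU k P.FF n, ∃ y : P.FF,
    ∏ a, ((gs P a * r) (h : P.FF) * (gs P a * P.iota ^ e * r⁻¹) (h : P.FF) ^ q *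
      ∏ b, ((gs P a * hs P sw b) (h : P.FF) ^ a0 *
        (gs P a * hs P sw b * P.iota) (h : P.FF) ^ a1) ^ (-cc sw b)) ^ cs a = y ^ n

/-- the differential `m ^ j d m / w` at the point `(g M, g W)` -/
def om (d : Derivation k P.FF P.FF) (j : ℕ) (g : RingAut P.FF) : P.FF :=
  g P.M1 ^ j * d (g P.M1) / g P.W

/-- the identity between differentials : `u e' V = e' c (b0 + b1 ι)` on `ω j` -/
def DId (d : Derivation k P.FF P.FF) (p : ℕ) (r : RingAut P.FF) (sw : Bool) (u b0 b1 : ℤ) : Prop :=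
  ∀ j < 3, (u : P.FF) * ∑ a, (cs a : P.FF) *
      ∑ i ∈ Finset.range 3, P.ι (cm P.fP p j i) * om P d i (gs P a * r) =
    ∑ a, (cs a : P.FF) * ∑ b, (cc sw b : P.FF) * (b0 * om P d j (gs P a * hs P sw b) +
      b1 * om P d j (gs P a * hs P sw b * P.iota))

end FF

/-- [FA.ind] a derivation which sees the two differentials -/
def IND : Prop := ∀ (k : Type) [Field k] [IsAlgClosed k] (P : F.Par k),
  ∃ d : Derivation k P.FF P.FF, d P.M1 = 1 ∧ ∀ (p : ℕ) (r : RingAut P.FF) (sw : Bool) (b0 b1 : ℤ),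
    DId P d p r sw 0 b0 b1 → (b0 : k) = 0 ∧ (b1 : k) = 0

/-- [FA.hypc] the curve `FC` -/
def HYPC : Prop := ∀ (k : Type) [Field k] [IsAlgClosed k] (P : F.Par k), Hyp P.fP P.mC P.wC

/-- **[FA.corep]** characteristic `p` : `β j` are the coordinates of the trace of `r ^ (2 j + 1)`
divided by the scalar; the first one is integral, the correspondence kills the differentials and
the torsion of `FC` -/
def COREP : Prop := ∀ (k : Type) [Field k] [IsAlgClosed k] (P : F.Par k) (p e : ℕ) [CharP k p]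
  (r : RingAut P.FF) (sw : Bool) (β : ℕ → ℤ_[3] × ℤ_[3]), p.Prime →
  (∀ a, r (P.ι a) = P.ι (a ^ p)) →
  (∀ (j n : ℕ) (a0 a1 : ℤ), (3 : ℤ_[3]) ^ n ∣ (β j).1 - a0 → (3 : ℤ_[3]) ^ n ∣ (β j).2 - a1 →
    Kill P (r ^ (2 * j + 1)) sw (p ^ (2 * j + 1)) (e * (2 * j + 1)) (3 ^ n) a0 a1) →
  ((∃ N : ℕ, 0 < N ∧ ∀ j, ∃ (a : ℕ) (u0 u1 : ℤ), (N * p ^ a : ℤ_[3]) * (β j).1 = u0 ∧
      (N * p ^ a : ℤ_[3]) * (β j).2 = u1) →
    ∃ (a : ℕ) (u0 u1 : ℤ), (p ^ a : ℤ_[3]) * (β 0).1 = u0 ∧ (p ^ a : ℤ_[3]) * (β 0).2 = u1) →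
  ∃ b0 b1 : ℤ, (β 0).1 = b0 ∧ (β 0).2 = b1 ∧
    (∀ d : Derivation k P.FF P.FF, DId P d p r sw 1 b0 b1) ∧
    ∀ n : ℕ, ¬ p ∣ n → ∀ h ∈ divU k P.FC n, ∃ y : P.FF,
      ∏ a, ((gs P a * r) ((h : P.FC) : P.FF) * (gs P a * P.iota ^ e * r⁻¹) ((h : P.FC) : P.FF) ^ p *
        ∏ b, ((gs P a * hs P sw b) ((h : P.FC) : P.FF) ^ b0 *
          (gs P a * hs P sw b * P.iota) ((h : P.FC) : P.FF) ^ b1) ^ (-cc sw b)) ^ cs a = y ^ n

end Vale.Agent.P027M.FA
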