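import Vale.Agent.P027M.FA.Spec

/-! # P027, route M, block FAITH : almost all primes are good for the model -/

set_option linter.all false

open Polynomial NumberField Vale.Agent.P022

noncomputable section

namespace Vale.Agent.P027M.FA

open F

namespace UnitP

theorem val_nat (O : ValuationSubring Qb) {p B : ℕ} (hp : p.Prime) (hv : O.valuation (p : Qb) < 1)
    (hB : ¬ p ∣ B) : O.valuation (B : Qb) = 1 := by
  have h1 : O.valuation (B : Qb) ≤ 1 := (O.valuation_le_one_iff _).2 (natCast_mem O B)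
  refine le_antisymm h1 (not_lt.1 fun h2 => ?_)
  obtain ⟨a, b, hab⟩ : IsCoprime (p : ℤ) (B : ℤ) :=
    Nat.isCoprime_iff_coprime.2 ((Nat.Prime.coprime_iff_not_dvd hp).2 hB)
  have h3 : (a : Qb) * p + b * B = 1 := by exact_mod_cast hab
  have ha : O.valuation (a : Qb) ≤ 1 := (O.valuation_le_one_iff _).2 (intCast_mem O a)
  have hb : O.valuation (b : Qb) ≤ 1 := (O.valuation_le_one_iff _).2 (intCast_mem O b)
  have h4 : O.valuation ((a : Qb) * p + b * B) < 1 := by
    refine Valuation.map_add_lt _ ?_ ?_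
    · rw [map_mul]
      exact mul_lt_one_of_nonneg_of_lt_one_right ha zero_le hv
    · rw [map_mul]
      exact mul_lt_one_of_nonneg_of_lt_one_right hb zero_le h2
  rw [h3, map_one] at h4
  exact lt_irrefl _ h4

theorem exists_le (z : Qb) : ∃ B : ℕ, B ≠ 0 ∧ ∀ (O : ValuationSubring Qb),
    O.valuation (B : Qb) = 1 → O.valuation z ≤ 1 := by
  haveI : Algebra.IsAlgebraic ℚ Qb := AlgebraicClosure.isAlgebraic ℚ
  have h1 : IsAlgebraic ℤ z :=
    (IsFractionRing.isAlgebraic_iff ℤ ℚ Qb).2 (Algebra.IsAlgebraic.isAlgebraic z)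
  obtain ⟨y, hy, h2⟩ := h1.exists_integral_multiple
  refine ⟨y.natAbs, Int.natAbs_ne_zero.2 hy, fun O hO => ?_⟩
  have h3 : y • z ∈ O := P025H492.mem_of_integral O (algebraMap ℤ Qb) (fun n => intCast_mem O n) h2
  have h4 : O.valuation (y : Qb) = 1 := by
    rcases Int.natAbs_eq y with e | e
    · rw [e, Int.cast_natCast, hO]
    · rw [e, Int.cast_neg, Int.cast_natCast, Valuation.map_neg, hO]
  have h5 := (O.valuation_le_one_iff _).2 h3
  rwa [zsmul_eq_mul, map_mul, h4, one_mul] at h5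

theorem exists_eq {z : Qb} (hz : z ≠ 0) : ∃ B : ℕ, B ≠ 0 ∧ ∀ (O : ValuationSubring Qb) (p : ℕ),
    p.Prime → ¬ p ∣ B → O.valuation (p : Qb) < 1 → O.valuation z = 1 := by
  obtain ⟨A, hA, h1⟩ := exists_le z
  obtain ⟨B, hB, h2⟩ := exists_le z⁻¹
  refine ⟨A * B, mul_ne_zero hA hB, fun O p hp hd hv => ?_⟩
  have h3 := h1 O (val_nat O hp hv fun h => hd (h.mul_right _))
  have h4 := h2 O (val_nat O hp hv fun h => hd (h.mul_left _))
  rw [map_inv₀] at h4
  exact le_antisymm h3 ((inv_le_one₀ ((Valuation.pos_iff _).2 hz)).1 h4)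

theorem exists_list (l : List Qb) (hl : ∀ z ∈ l, z ≠ 0) : ∃ B : ℕ, B ≠ 0 ∧
    ∀ (O : ValuationSubring Qb) (p : ℕ), p.Prime → ¬ p ∣ B → O.valuation (p : Qb) < 1 →
      ∀ z ∈ l, O.valuation z = 1 := by
  induction l with
  | nil => exact ⟨1, one_ne_zero, fun _ _ _ _ _ z hz => absurd hz List.not_mem_nil⟩
  | cons a l ih =>
    obtain ⟨A, hA, h1⟩ := exists_eq (hl a List.mem_cons_self)
    obtain ⟨B, hB, h2⟩ := ih fun z hz => hl z (List.mem_cons_of_mem _ hz)
    refine ⟨A * B, mul_ne_zero hA hB, fun O p hp hd hv z hz => ?_⟩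
    rcases List.mem_cons.1 hz with rfl | hz
    · exact h1 O p hp (fun h => hd (h.mul_right _)) hv
    · exact h2 O p hp (fun h => hd (h.mul_left _)) hv z hz

end UnitP

theorem unit : UNIT := by
  intro g X
  obtain ⟨B, hB, h⟩ := UnitP.exists_list [2, 3, X.P.g, X.P.g + 1, 3 - X.P.g, X.P.g - 1, X.P.g + 3,
    X.P.g0, X.T.g0', X.T.ν, X.T.x] (by
      simp only [List.forall_mem_cons, List.not_mem_nil, false_imp_iff, implies_true, and_true]
      exact ⟨X.P.h2, X.P.h3, X.P.hg, X.P.hp1, X.P.hm3, X.P.hm1, X.P.hp3, X.P.hg0, X.T.hg0',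
        X.T.ν_ne, X.T.x_ne⟩)
  exact ⟨B, hB, fun p hp hd O hv => h O p hp hd hv⟩

end Vale.Agent.P027M.FA
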