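import Vale.Agent.P027M.FA.BeDef

/-! # P027, route M, block FAITH : the properties of the normalised pairing -/

open Polynomial Vale.Agent.P019P P025H492 Vale.Agent.P027M.B

noncomputable section

namespace Vale.Agent.P027M.FA.Be

open scoped Classical

namespace Bt

section down

variable {L M : Type*} [Field L] [Field M] (φ : L →+* M)

/-- the image of a point -/
def up : L × L ↪ M × M :=
  ⟨fun p => (φ p.1, φ p.2), fun _ _ h =>
    Prod.ext (φ.injective (congrArg Prod.fst h)) (φ.injective (congrArg Prod.snd h))⟩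

theorem up_apply (p : L × L) : up φ p = (φ p.1, φ p.2) := rfl

theorem ex_set {s : Finset (M × M)} (h : ∀ p ∈ s, ∃ q, up φ q = p) :
    ∃ s' : Finset (L × L), s'.map (up φ) = s :=
  ⟨s.preimage (up φ) (up φ).injective.injOn, by
    ext p
    simp only [Finset.mem_map, Finset.mem_preimage]
    exact ⟨by rintro ⟨q, hq, rfl⟩; exact hq, fun hp => by
      obtain ⟨q, rfl⟩ := h p hp
      exact ⟨q, hp, rfl⟩⟩⟩

theorem nrm_down {N : L[X]} {c : M} {s : Finset (L × L)} {n : M × M → ℕ}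
    (h : N.map φ = C c * ∏ p ∈ s.map (up φ), (X - C p.1) ^ n p) :
    ∃ c' : L, φ c' = c ∧ N = C c' * ∏ p ∈ s, (X - C p.1) ^ n (up φ p) := by
  have e : φ N.leadingCoeff = c := by
    rw [← leadingCoeff_map, h, leadingCoeff_mul_monic
      (monic_prod_of_monic _ _ fun p _ => (monic_X_sub_C _).pow _), leadingCoeff_C]
  refine ⟨_, e, map_injective φ φ.injective ?_⟩
  rw [h, Finset.prod_map]
  simp [Polynomial.map_prod, e, up_apply]

variable {F A B : L[X]} {p : L × L} {n : ℕ}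

theorem va_down (h : Va (F.map φ) (A.map φ) (B.map φ) (up φ p) n) : Va F A B p n := by
  intro V h1 h2
  have := h (V.map φ) (by simpa [up_apply] using Polynomial.map_dvd φ h1)
    (by rw [up_apply, eval_map_apply, h2])
  rw [← map_dvd_map' φ]
  simpa [up_apply] using this

theorem vb_down (h : Vb (F.map φ) (A.map φ) (B.map φ) (up φ p) n) : Vb F A B p n := by
  intro V h1 h2
  have := h (V.map φ) (by simpa [up_apply, map_comp] using Polynomial.map_dvd φ h1)
    (by rw [up_apply, eval_map_apply, h2])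
  rw [← map_dvd_map' φ]
  simpa [up_apply, map_comp] using this

theorem zer_down {s : Finset (L × L)} {n : M × M → ℕ}
    (h : Zer (F.map φ) (A.map φ) (B.map φ) (s.map (up φ)) n) :
    Zer F A B s fun p => n (up φ p) := by
  have m : ∀ p ∈ s, up φ p ∈ s.map (up φ) := fun p hp => Finset.mem_map_of_mem _ hp
  refine ⟨fun p hp => φ.injective ?_, fun p hp => φ.injective ?_, ?_,
    fun p hp h0 => va_down φ (h.va _ (m p hp) ((map_ne_zero φ).2 h0)),
    fun p hp h0 => vb_down φ (h.vb _ (m p hp) ?_), ?_⟩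
  · simpa [up_apply, eval_map_apply] using h.on _ (m p hp)
  · simpa [up_apply, eval_map_apply] using h.val _ (m p hp)
  · obtain ⟨c, c0, hc⟩ := h.nrm
    obtain ⟨c', rfl, e⟩ := nrm_down φ (N := A ^ 2 - B ^ 2 * F) (by simpa using hc)
    exact ⟨c', (map_ne_zero φ).1 c0, e⟩
  · rw [derivative_map, up_apply, eval_map_apply]
    exact (map_ne_zero φ).2 h0
  · obtain ⟨d, e, h1, h2, h3, h4, h5⟩ := h.vc
    rw [natDegree_map] at h1 h2
    rw [Finset.sum_map] at h3
    simp only [reflect_map] at h4 h5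
    refine ⟨d, e, h1, h2, h3, vb_down φ (by simpa [up_apply] using h4),
      fun p hp a b => vb_down φ ?_⟩
    have := h5 _ (m p hp) ((map_ne_zero φ).2 a) (by
      rw [derivative_map, up_apply, ← map_inv₀, eval_map_apply]
      exact (map_ne_zero φ).2 b)
    simpa [up_apply] using this

end down

theorem lev (K : Type*) {Om : Type*} [Field K] [Field Om] [Algebra K Om]
    [Algebra.IsAlgebraic K Om] (A B : Om[X]) (s : Finset (Om × Om)) :
    ∃ L : IntermediateField K Om, FiniteDimensional K L ∧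
      (∃ A' : L[X], A'.map (algebraMap L Om) = A) ∧ (∃ B' : L[X], B'.map (algebraMap L Om) = B) ∧
      ∀ p ∈ s, ∃ q, up (algebraMap L Om) q = p := by
  obtain ⟨t, h1, h2, h3⟩ : ∃ t : Finset Om, A.coeffs ⊆ t ∧ B.coeffs ⊆ t ∧
      ∀ p ∈ s, p.1 ∈ t ∧ p.2 ∈ t :=
    ⟨A.coeffs ∪ B.coeffs ∪ s.image Prod.fst ∪ s.image Prod.snd, by grind, by grind,
      fun p hp => by grind⟩
  have m : ∀ x ∈ t, x ∈ IntermediateField.adjoin K (t : Set Om) := fun x hx =>
    IntermediateField.subset_adjoin K _ hx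
  exact ⟨IntermediateField.adjoin K (t : Set Om),
    IntermediateField.finiteDimensional_adjoin fun x _ => Algebra.IsIntegral.isIntegral x,
    (mem_lifts _).1 ((lifts_iff_coeffs_subset_range _).2 fun x hx => ⟨⟨x, m x (h1 hx)⟩, rfl⟩),
    (mem_lifts _).1 ((lifts_iff_coeffs_subset_range _).2 fun x hx => ⟨⟨x, m x (h2 hx)⟩, rfl⟩),
    fun p hp => ⟨(⟨p.1, m _ (h3 p hp).1⟩, ⟨p.2, m _ (h3 p hp).2⟩), rfl⟩⟩

theorem on_up {k L M : Type*} [Field k] [Field L] [Field M] [Algebra k L] [Algebra k M]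
    [Algebra L M] [IsScalarTower k L M] {F : k[X]} {p : L × L} :
    On F (up (algebraMap L M) p) ↔ On F p := by
  rw [On, On, up_apply, aeval_algebraMap_apply, ← map_pow, (algebraMap L M).injective.eq_iff]

theorem on_zer {k L : Type*} [Field k] [Field L] [Algebra k L] {F : k[X]} {A B : L[X]}
    {s : Finset (L × L)} {n : L × L → ℕ} (h : Zer (F.map (algebraMap k L)) A B s n) :
    ∀ p ∈ s, On F p := fun p hp => by rw [On, h.on p hp, eval_map_algebraMap]

end Bt

open Bt in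
theorem beta (hB : BL) (hG : GLOC) : BETA := by
  intro k K Om _ _ _ _ _ _ _ _ _ F β η gf H
  have tw : ∀ L : IntermediateField K Om, IsScalarTower k L Om := fun L =>
    IsScalarTower.of_algebraMap_eq fun _ => rfl
  have key : ∀ (A B : Om[X]) (s : Finset (Om × Om)), ∃ (L : IntermediateField K Om) (_ : CFF k L)
      (r : ℚ), 0 < r ∧ (∃ A' : L[X], A'.map (algebraMap L Om) = A) ∧
      (∃ B' : L[X], B'.map (algebraMap L Om) = B) ∧ (∀ p ∈ s, ∃ q, up (algebraMap L Om) q = p) ∧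
      (∀ x : L, η (algebraMap L Om x) * r = ht k x) ∧ ∀ P Q : L × L, On F P → On F Q →
        β (up (algebraMap L Om) P) (up (algebraMap L Om) Q) * r = bL k P Q := fun A B s => by
    obtain ⟨L, fd, h1, h2, h3⟩ := lev K A B s
    have : CFF k L := cff_of_finite (K := K)
    exact ⟨L, this, Module.finrank K L, Nat.cast_pos.2 Module.finrank_pos, h1, h2, h3,
      (H L).1, (H L).2⟩
  have two : ∀ P Q : Om × Om, On F P → On F Q → ∃ (L : IntermediateField K Om) (_ : CFF k L)
      (r : ℚ) (P' Q' : L × L), 0 < r ∧ up (algebraMap L Om) P' = P ∧ up (algebraMap L Om) Q' = Q ∧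
      On F P' ∧ On F Q' ∧ (∀ x : L, η (algebraMap L Om x) * r = ht k x) ∧
      ∀ P Q : L × L, On F P → On F Q →
        β (up (algebraMap L Om) P) (up (algebraMap L Om) Q) * r = bL k P Q := fun P Q hP hQ => by
    obtain ⟨L, _, r, r0, -, -, h3, h4, h5⟩ := key 0 0 {P, Q}
    obtain ⟨P', rfl⟩ := h3 P (by simp)
    obtain ⟨Q', rfl⟩ := h3 Q (by simp)
    exact ⟨L, inferInstance, r, P', Q', r0, rfl, rfl, on_up.1 hP, on_up.1 hQ, h4, h5⟩
  have one : ∀ x : Om, 0 ≤ η x ∧ (η x = 0 ↔ ∃ a : k, algebraMap k Om a = x) := fun x => by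
    obtain ⟨L, _, r, r0, -, -, h3, h4, -⟩ := key 0 0 {(x, x)}
    obtain ⟨q, hq⟩ := h3 (x, x) (by simp)
    obtain rfl : algebraMap L Om q.1 = x := congrArg Prod.fst hq
    obtain ⟨a1, a2⟩ := (hB k L F gf).1 q.1
    refine ⟨nonneg_of_mul_nonneg_left (by rw [h4]; exact_mod_cast a1) r0, ?_⟩
    rw [← mul_eq_zero_iff_right r0.ne', h4, Int.cast_eq_zero, a2]
    exact exists_congr fun a => by
      rw [IsScalarTower.algebraMap_apply k L Om, (algebraMap L Om).injective.eq_iff]
  have sum : ∀ {L : IntermediateField K Om} [CFF k L] {r : ℚ} {s : Finset (L × L)}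
      {n : Om × Om → ℕ} {R : L × L}, 0 < r → (∀ P Q : L × L, On F P → On F Q →
        β (up (algebraMap L Om) P) (up (algebraMap L Om) Q) * r = bL k P Q) → On F R →
      (∀ p ∈ s, On F p) → ∑ p ∈ s, n (up (algebraMap L Om) p) * bL k p R = 0 →
      ∑ p ∈ s.map (up (algebraMap L Om)), n p * β p (up (algebraMap L Om) R) = 0 :=
    fun {L} _ r s n R r0 h hR hs e => by
      rw [← mul_eq_zero_iff_right r0.ne', Finset.sum_map, Finset.sum_mul,
        Finset.sum_congr rfl fun p hp => by rw [mul_assoc, h p R (hs p hp) hR]]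
      exact_mod_cast e
  refine ⟨fun x => (one x).1, fun x => (one x).2, fun P Q hP hQ => ?_, fun P Q hP hQ => ?_,
    fun P hP => ?_, fun P Q hP hQ hne => ?_, fun L _ P Q hP hQ a b c d => ?_,
    fun A B s n R hZ hR hne => ?_, fun s n c R hR hs hc => ?_⟩
  · obtain ⟨L, _, r, P, Q, r0, rfl, rfl, hP, hQ, -, h⟩ := two P Q hP hQ
    refine mul_right_cancel₀ r0.ne' ?_
    rw [h P Q hP hQ, h Q P hQ hP, ((hB k L F gf).2.1 P Q hP hQ).1]
  · obtain ⟨L, _, r, P, Q, r0, rfl, rfl, hP, hQ, -, h⟩ := two P Q hP hQ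
    refine mul_right_cancel₀ r0.ne' ?_
    have e : ng (up (algebraMap L Om) Q) = up (algebraMap L Om) (ng Q) := by simp [ng, up_apply]
    rw [e, neg_mul, h P Q hP hQ, h P (ng Q) hP (by simpa [On, ng] using hQ),
      ((hB k L F gf).2.1 P Q hP hQ).2.1, Int.cast_neg]
  · obtain ⟨L, _, r, P, Q, r0, rfl, -, hP, -, h1, h⟩ := two P P hP hP
    refine mul_right_cancel₀ r0.ne' ?_
    rw [h P P hP hP, mul_assoc, up_apply, h1]
    simp [bL]
  · obtain ⟨L, _, r, P, Q, r0, rfl, rfl, hP, hQ, h1, h⟩ := two P Q hP hQ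
    obtain ⟨a, b⟩ := ((hB k L F gf).2.1 P Q hP hQ).2.2 fun e => hne (congrArg (algebraMap L Om) e)
    constructor <;> refine le_of_mul_le_mul_right ?_ r0
    · rw [h P Q hP hQ, neg_mul, add_mul, up_apply, up_apply, h1, h1]
      exact_mod_cast a
    · rw [h P Q hP hQ, add_mul, up_apply, up_apply, h1, h1]
      exact_mod_cast b
  · have : CFF k L := cff_of_finite (K := K)
    exact ⟨_, (H L).2 (⟨P.1, a⟩, ⟨P.2, b⟩) (⟨Q.1, c⟩, ⟨Q.2, d⟩)
      ((on_up (M := Om)).1 hP) ((on_up (M := Om)).1 hQ)⟩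
  · obtain ⟨L, _, r, r0, ⟨A, rfl⟩, ⟨B, rfl⟩, h3, -, h⟩ := key A B (insert R s)
    obtain ⟨R, rfl⟩ := h3 R (Finset.mem_insert_self _ _)
    obtain ⟨s, rfl⟩ := ex_set _ fun p hp => h3 p (Finset.mem_insert_of_mem hp)
    rw [IsScalarTower.algebraMap_eq k L Om, ← map_map] at hZ
    have z := zer_down _ hZ
    exact sum r0 h (on_up.1 hR) (on_zer z) ((hB k L F gf).2.2 A B s _ R z (on_up.1 hR)
      fun p hp e => hne _ (Finset.mem_map_of_mem _ hp) (congrArg (algebraMap L Om) e))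
  · obtain ⟨L, _, r, r0, -, -, h3, -, h⟩ := key 0 0 (insert R s)
    obtain ⟨R, rfl⟩ := h3 R (Finset.mem_insert_self _ _)
    obtain ⟨s, rfl⟩ := ex_set _ fun p hp => h3 p (Finset.mem_insert_of_mem hp)
    obtain ⟨c', -, e⟩ := nrm_down (algebraMap L Om) (N := F.map (algebraMap k L) - C (R.2 ^ 2))
      (by rw [← hc, Polynomial.map_sub, map_map, ← IsScalarTower.algebraMap_eq, map_C, map_pow]; rfl)
    have hs' : ∀ p ∈ s, On F p ∧ p.2 = R.2 := fun p hp =>
      ⟨on_up.1 (hs _ (Finset.mem_map_of_mem _ hp)).1,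
        (algebraMap L Om).injective (hs _ (Finset.mem_map_of_mem _ hp)).2⟩
    exact sum r0 h (on_up.1 hR) (fun p hp => (hs' p hp).1)
      (hG k L F s _ c' R gf (on_up.1 hR) hs' e)

end Vale.Agent.P027M.FA.Be
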