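import Vale.Agent.P027M.FA.BeDef

/-! # P027, route M, row FA.be.bl : the pairing of points at one level -/

open Polynomial Vale.Agent.P019P P025H492 Vale.Agent.P027M.B

noncomputable section

namespace Vale.Agent.P027M.FA.Be

namespace BlAux

theorem dg_finsum {P : Type*} (D : P →₀ ℤ) : dg D = ∑ᶠ v, D v := by
  rw [dg_apply, finsum_eq_sum_of_support_subset (s := D.support) _ (by simp)]
  rfl

theorem dg_nn {P : Type*} {D : P →₀ ℤ} (h : 0 ≤ D) : 0 ≤ dg D := by
  simpa using dg_mono h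

variable {k L : Type} [Field k] [Field L] [Algebra k L] [CFF k L]

theorem ht_const (a : k) : ht k (algebraMap k L a) = 0 := by
  have e : pol k (algebraMap k L a) = 0 := by
    ext P; simp [pol_apply, ord_const]
  rw [ht, e, map_zero]

theorem ht_iff (x : L) : ht k x = 0 ↔ ∃ a : k, algebraMap k L a = x := by
  refine ⟨fun h => ?_, fun ⟨a, ha⟩ => ha ▸ ht_const a⟩
  by_contra c
  obtain ⟨P, hP⟩ := exists_pole (k := k) (z := x) fun a e => c ⟨a, e.symm⟩
  have e := eq_of_le_of_dg_le (pol_nonneg (k := k) x) (by rw [map_zero]; exact h.le)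
  have e1 := DFunLike.congr_fun e P
  rw [pol_apply, Finsupp.zero_apply] at e1
  omega

omit [CFF k L] in
theorem on_ng {F : k[X]} {P : L × L} (h : On F P) : On F (ng P) := by
  simpa [On, ng] using h

theorem ng_ng (P : L × L) : ng (ng P) = P := by simp [ng]

theorem exI (iloc : ILOC) {F : k[X]} (hF : GF F) {P Q : L × L} (hP : On F P) (hQ : On F Q)
    (h : P.1 ≠ Q.1) : ∃ I J : Plk k L →₀ ℤ, (∀ v, I v = ii v P Q) ∧ (∀ v, J v = ii v P (ng Q)) ∧
      0 ≤ dg I ∧ 0 ≤ dg J ∧ dg I + dg J = ht k P.1 + ht k Q.1 ∧ bL k P Q = dg J - dg I := by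
  have h1 := fun v => iloc k L F v P Q hF hP hQ h
  have h2 := fun v => (iloc k L F v P (ng Q) hF hP (on_ng hQ) h).1
  obtain ⟨T, hT⟩ : ∃ T, T = dv k (P.1 - Q.1) + pol k P.1 + pol k Q.1 := ⟨_, rfl⟩
  have h3 : ∀ v, ii v P Q + ii v P (ng Q) = T v := fun v => by
    rw [(h1 v).2.2.2, hT, Finsupp.add_apply, Finsupp.add_apply, dv_apply, pol_apply, pol_apply]
  obtain ⟨I, hI⟩ : ∃ I : Plk k L →₀ ℤ, ∀ v, I v = ii v P Q :=
    ⟨Finsupp.onFinset T.support (fun v => ii v P Q) fun v e => Finsupp.mem_support_iff.2 (by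
      have := h3 v; have := h2 v; have := (h1 v).1; omega), fun _ => rfl⟩
  have hJ : ∀ v, (T - I) v = ii v P (ng Q) := fun v => by
    rw [Finsupp.sub_apply, hI, ← h3]; ring
  refine ⟨I, T - I, hI, hJ, dg_nn fun v => ?_, dg_nn fun v => ?_, ?_, ?_⟩
  · rw [hI]; exact (h1 v).1
  · rw [hJ]; exact h2 v
  · rw [← map_add, add_sub_cancel, hT, map_add, map_add, dg_dv, zero_add]; rfl
  · rw [bL, if_neg h, ← map_sub, dg_finsum]
    exact finsum_congr fun v => by rw [Finsupp.sub_apply, hI, hJ]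

theorem symm (iloc : ILOC) {F : k[X]} (hF : GF F) {P Q : L × L} (hP : On F P) (hQ : On F Q) :
    bL k P Q = bL k Q P := by
  by_cases h : P.1 = Q.1
  · rw [bL, bL, if_pos h, if_pos h.symm, h]
    by_cases e : P.2 = Q.2
    · rw [if_pos e, if_pos e.symm]
    · rw [if_neg e, if_neg (Ne.symm e)]
  · rw [bL, bL, if_neg h, if_neg (Ne.symm h)]
    refine finsum_congr fun v => ?_
    have e1 := (iloc k L F v P Q hF hP hQ h).2.1
    have e2 := iloc k L F v (ng P) Q hF (on_ng hP) hQ h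
    have e3 := e2.2.2.1
    rw [ng_ng] at e3
    rw [e1, e3, e2.2.1]

theorem odd {F : k[X]} (hF : GF F) {P Q : L × L} (hP : On F P) (hQ : On F Q) :
    bL k P (ng Q) = -bL k P Q := by
  by_cases h : P.1 = Q.1
  · rw [bL, bL, if_pos h, if_pos (show P.1 = (ng Q).1 from h)]
    have e : P.2 ^ 2 = Q.2 ^ 2 := by rw [hP, hQ, h]
    have e0 : (ng Q).2 = -Q.2 := rfl
    rw [e0]
    split_ifs with a b b
    · have h2 : (2 : L) ≠ 0 := by
        have := (map_ne_zero (algebraMap k L)).2 hF.two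
        rwa [map_ofNat] at this
      have e1 : P.2 = 0 := by
        refine (mul_eq_zero.1 (?_ : 2 * P.2 = 0)).resolve_left h2
        linear_combination a + b
      have e2 : aeval P.1 F = 0 := by rw [← hP, e1]; simp
      have := (inferInstance : CFF k L).ac
      have h0 : F ≠ 0 := fun e => by simpa [e] using hF.deg
      have e3 : ht k P.1 = 0 := by
        refine (ht_iff _).2 ?_
        refine (IsAlgClosed.splits F).mem_range_of_isRoot h0 ?_
        rwa [IsRoot.def, eval_map_algebraMap]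
      rw [e3]; simp
    · ring
    · ring
    · exact absurd (sq_eq_sq_iff_eq_or_eq_neg.1 e) (not_or.2 ⟨b, a⟩)
  · rw [bL, bL, if_neg h, if_neg (show ¬ P.1 = (ng Q).1 from h), ng_ng, ← finsum_neg_distrib]
    exact finsum_congr fun v => by ring

end BlAux

open BlAux in
theorem bl (iloc : ILOC) (loc : LOC) : BL := by
  intro k L _ _ _ _ F hF
  refine ⟨fun x => ⟨dg_nn (pol_nonneg x), ht_iff x⟩, fun P Q hP hQ =>
    ⟨symm iloc hF hP hQ, odd hF hP hQ, fun h => ?_⟩, fun A B s n R hZ hR hs => ?_⟩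
  · obtain ⟨I, J, -, -, a, b, c, d⟩ := exI iloc hF hP hQ h
    omega
  · have hon : ∀ p ∈ s, On F p := fun p hp => by
      have := hZ.on p hp
      rwa [eval_map_algebraMap] at this
    choose! I J hI hJ _ _ _ hb using fun p (hp : p ∈ s) => exI iloc hF (hon p hp) hR (hs p hp)
    have e : ∑ p ∈ s, (n p : ℤ) • (J p - I p) =
        dv k (A.eval R.1 - B.eval R.1 * R.2) - dv k (A.eval R.1 + B.eval R.1 * R.2) := by
      ext v
      rw [Finsupp.sub_apply, dv_apply, dv_apply, loc k L F v A B s n R hF hZ hR hs,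
        Finsupp.finsetSum_apply]
      refine Finset.sum_congr rfl fun p hp => ?_
      rw [Finsupp.smul_apply, Finsupp.sub_apply, hI p hp, hJ p hp, smul_eq_mul]
    have e1 := congrArg dg e
    rw [map_sub, dg_dv, dg_dv, sub_zero, map_sum] at e1
    rw [← e1]
    refine Finset.sum_congr rfl fun p hp => ?_
    rw [hb p hp, map_zsmul, map_sub, smul_eq_mul]

end Vale.Agent.P027M.FA.Be
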