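import Vale.Agent.P027M.FA.BeDef

/-! # P027, route M, block FAITH : the lower bounds are equalities (rows `EQa`, `EQb`) -/

set_option linter.all false

open Polynomial Vale.Agent.P019P P025H492 Vale.Agent.P027M.B

noncomputable section

namespace Vale.Agent.P027M.FA.Be

open scoped Classical

namespace EqL

variable {k L : Type*} [Field k] [Field L] [Algebra k L] [CFF k L] {v : Plk k L}

theorem cst {a : k} (h : algebraMap k L a ∈ Mge v 1) : a = 0 := by
  rcases h with h | h
  · exact (map_eq_zero _).1 h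
  · rw [ord_const] at h; omega

theorem cst0 (a : k) : algebraMap k L a ∈ Mge v 0 := Or.inr (ord_const v a).ge

theorem int {x : L} {a : k} (h : x - algebraMap k L a ∈ Mge v 1) : x ∈ Mge v 0 := by
  simpa using (Mge v 0).add_mem (Mge_mono v zero_le_one h) (cst0 a)

theorem or1 {x y : L} (h : x * y ∈ Mge v 1) : x ∈ Mge v 1 ∨ y ∈ Mge v 1 := by
  by_cases hx : x = 0
  · exact Or.inl (Or.inl hx)
  by_cases hy : y = 0
  · exact Or.inr (Or.inl hy)
  have := h.resolve_left (mul_ne_zero hx hy)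
  rw [ord_mul v hx hy] at this
  by_cases e : 1 ≤ ord v x
  · exact Or.inl (Or.inr e)
  · exact Or.inr (Or.inr (by omega))

theorem m10 {x y : L} (hx : x ∈ Mge v 1) (hy : y ∈ Mge v 0) : x * y ∈ Mge v 1 := by
  simpa using mul_mem_Mge hx hy

theorem aev {x : L} {a : k} (h : x - algebraMap k L a ∈ Mge v 1) (G : k[X]) :
    aeval x G - algebraMap k L (G.eval a) ∈ Mge v 1 := by
  obtain ⟨H, hH⟩ := X_sub_C_dvd_sub_C_eval (p := G) (a := a)
  have e := congrArg (aeval x) hH
  rw [map_sub, aeval_C, map_mul, map_sub, aeval_X, aeval_C] at e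
  rw [e]
  refine m10 h (aeval_mem_zero ?_ H)
  rcases int h with h | h
  · rw [h, ord_zero]
  · exact h

theorem quo {x y : L} {a : k} (hx : x - algebraMap k L a ∈ Mge v 1)
    (hy : y - algebraMap k L a ∈ Mge v 1) (G : k[X]) : ∃ q : L,
    aeval x G - aeval y G = (x - y) * q ∧ q - algebraMap k L (G.derivative.eval a) ∈ Mge v 1 := by
  induction G using Polynomial.induction_on with
  | C c => exact ⟨0, by simp, by simp⟩
  | add p q hp hq =>
    obtain ⟨r, e, h⟩ := hp
    obtain ⟨r', e', h'⟩ := hq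
    refine ⟨r + r', by rw [map_add, map_add]; linear_combination e + e', ?_⟩
    rw [derivative_add, eval_add, map_add, add_sub_add_comm]
    exact add_mem h h'
  | monomial n c ih =>
    rw [pow_succ, ← mul_assoc]
    generalize C c * X ^ n = G at ih ⊢
    obtain ⟨r, e, h⟩ := ih
    refine ⟨r * x + aeval y G, by simp only [map_mul, aeval_X]; linear_combination x * e, ?_⟩
    have := add_mem (add_mem (m10 h (int hx)) (m10 hx (cst0 (G.derivative.eval a)))) (aev hy G)
    convert this using 1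
    simp only [derivative_mul, derivative_X, eval_add, eval_mul, eval_X, eval_one, map_add,
      map_mul, map_one]
    ring

theorem ord_diff {F : k[X]} {e : k} (he : F.derivative.eval e ≠ 0) {R p : L × L} (hR : On F R)
    (hp : On F p) (h1 : R.1 - algebraMap k L e ∈ Mge v 1) (h2 : p.1 - algebraMap k L e ∈ Mge v 1)
    (h : p.1 ≠ R.1) : ord v (R.1 - p.1) = ord v (R.2 - p.2) + ord v (R.2 + p.2) := by
  obtain ⟨q, e1, e2⟩ := quo h1 h2 F
  have q0 := ord_add_of_lt (P := v) ((map_ne_zero (algebraMap k L)).2 he)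
    (by rw [ord_const]; exact e2)
  rw [add_sub_cancel, ord_const] at q0
  have n := sub_ne_zero.2 h.symm
  have e3 : (R.2 - p.2) * (R.2 + p.2) = (R.1 - p.1) * q := by
    rw [← e1, ← hR, ← hp]; ring
  have n' := mul_ne_zero_iff.1 (e3 ▸ mul_ne_zero n q0.1)
  rw [← ord_mul v n'.1 n'.2, e3, ord_mul v n q0.1, q0.2, add_zero]

theorem core {F : k[X]} {A B : L[X]} {s : Finset (L × L)} {n : L × L → ℕ} {c u : L} {R : L × L}
    (hc : c ≠ 0) (hu : u ≠ 0)
    (hN : A ^ 2 - B ^ 2 * F.map (algebraMap k L) = C c * ∏ p ∈ s, (X - C p.1) ^ n p)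
    (hR : On F R) (hs : ∀ p ∈ s, p.1 ≠ R.1) {α β : ℤ}
    (h1 : (C u * A).eval R.1 + (C u * B).eval R.1 * R.2 ∈ Mge v α)
    (h2 : (C u * A).eval R.1 + (C u * B).eval R.1 * -R.2 ∈ Mge v β)
    (h3 : ord v (u ^ 2 * (c * ∏ p ∈ s, (R.1 - p.1) ^ n p)) = α + β) :
    ord v (A.eval R.1 - B.eval R.1 * R.2) - ord v (A.eval R.1 + B.eval R.1 * R.2) = β - α := by
  have e := congrArg (eval R.1) hN
  simp only [eval_sub, eval_mul, eval_pow, eval_map_algebraMap, eval_C, eval_prod, eval_X] at e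
  rw [← hR] at e
  have n0 : c * ∏ p ∈ s, (R.1 - p.1) ^ n p ≠ 0 := mul_ne_zero hc
    (Finset.prod_ne_zero_iff.2 fun p hp => pow_ne_zero _ (sub_ne_zero.2 (hs p hp).symm))
  generalize c * ∏ p ∈ s, (R.1 - p.1) ^ n p = N at *
  simp only [eval_mul, eval_C] at h1 h2
  generalize A.eval R.1 = a at *
  generalize B.eval R.1 = b at *
  have e1 : (a + b * R.2) * (a - b * R.2) = N := by linear_combination e
  have n1 := mul_ne_zero_iff.1 (e1 ▸ n0)
  rw [show u * a + u * b * R.2 = u * (a + b * R.2) by ring] at h1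
  rw [show u * a + u * b * -R.2 = u * (a - b * R.2) by ring] at h2
  have k1 := h1.resolve_left (mul_ne_zero hu n1.1)
  have k2 := h2.resolve_left (mul_ne_zero hu n1.2)
  rw [ord_mul v hu n1.1] at k1
  rw [ord_mul v hu n1.2] at k2
  rw [ord_mul v (pow_ne_zero 2 hu) n0, ord_pow, ← e1, ord_mul v n1.1 n1.2] at h3
  omega

theorem va {F A B : L[X]} {p : L × L} {n : ℕ} (h : Va F A B p n) (u : L) :
    Va F (C u * A) (C u * B) p n := fun V a b => by
  rw [mul_assoc, ← mul_add]
  exact (h V a b).mul_left _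

theorem vb {F A B : L[X]} {p : L × L} {n : ℕ} (h : Vb F A B p n) (u : L) :
    Vb F (C u * A) (C u * B) p n := fun V a b => by
  rw [mul_comp, mul_comp, C_comp, mul_assoc, ← mul_add]
  exact (h V a b).mul_left _

omit [CFF k L] in
theorem on_ng {F : k[X]} {R : L × L} (h : On F R) : On F (ng R) := (neg_sq R.2).trans h

theorem dsc_ng {a b : k} {R : L × L} (h : Dsc v a b R) : Dsc v a (-b) (ng R) :=
  ⟨h.1, by simpa [ng, add_comm, sub_eq_add_neg] using (Mge v 1).neg_mem h.2⟩

end EqL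

open EqL

theorem eqa (lb : LBa) (ga : GAUSS) : EQa := by
  intro k L _ _ _ _ F v A B s n c e a b R h0 h1 hc hN h2 hb hR hD hs
  obtain ⟨u, hu, iA, iB, hg⟩ := ga k L F v A B s n c e h0 h1 hc hN
  have key : ∀ (b : k) (R' : L × L), b ≠ 0 → R'.1 = R.1 → On F R' → Dsc v a b R' →
      (C u * A).eval R'.1 + (C u * B).eval R'.1 * R'.2 ∈
        Mge v (∑ p ∈ s with Dsc v a b p, n p * ord v (R'.1 - p.1)) := fun b R' hb e1 o d =>
    lb k L F v _ _ _ n a b R' h2 hb iA iB o d fun p hp => by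
      obtain ⟨p1, p2⟩ := Finset.mem_filter.1 hp
      refine ⟨(hs p p1).1, p2, e1 ▸ (hs p p1).2.1, va ((hs p p1).2.2 fun z => hb (cst (v := v) ?_)) u⟩
      simpa [z] using p2.2
  refine core hc hu hN hR (fun p hp => (hs p hp).2.1) (key b R hb rfl hR hD)
    (key (-b) (ng R) (neg_ne_zero.2 hb) rfl (on_ng hR) (dsc_ng hD)) ?_
  rw [hg R.1 a hD.1 fun p hp => (hs p hp).2.1, Finset.sum_filter, Finset.sum_filter,
    Finset.sum_filter, ← Finset.sum_add_distrib]
  refine Finset.sum_congr rfl fun p hp => ?_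
  by_cases d : p.1 - algebraMap k L a ∈ Mge v 1
  · have q : (p.2 - algebraMap k L b) * (p.2 - algebraMap k L (-b)) ∈ Mge v 1 := by
      have := add_mem (sub_mem (aev d F) (aev hD.1 F))
        (m10 hD.2 (add_mem (int hD.2) (cst0 b)))
      convert this using 1
      rw [← hR, ← (hs p hp).1, map_neg]
      ring
    have x : ¬ (Dsc v a b p ∧ Dsc v a (-b) p) := fun h => mul_ne_zero h2 hb (cst (v := v) (by
      convert sub_mem h.2.2 h.1.2 using 1
      rw [map_neg, map_mul, map_ofNat]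
      ring))
    rcases or1 q with q | q
    · rw [if_pos d, if_pos ⟨d, q⟩, if_neg fun h => x ⟨⟨d, q⟩, h⟩, add_zero]
    · rw [if_pos d, if_neg fun h => x ⟨h, ⟨d, q⟩⟩, if_pos ⟨d, q⟩, zero_add]
  · rw [if_neg d, if_neg fun h => d h.1, if_neg fun h => d h.1, add_zero]

theorem eqb (lb : LBb) (ga : GAUSS) : EQb := by
  intro k L _ _ _ _ F v A B s n c e R h0 h1 hc hN hR hD hs
  obtain ⟨u, hu, iA, iB, hg⟩ := ga k L F v A B s n c e h0 h1 hc hN
  have key : ∀ R' : L × L, R'.1 = R.1 → On F R' → Dsc v e 0 R' →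
      (C u * A).eval R'.1 + (C u * B).eval R'.1 * R'.2 ∈
        Mge v (∑ p ∈ s with Dsc v e 0 p, n p * ord v (R'.2 - p.2)) := fun R' e1 o d =>
    lb k L F v _ _ _ n e 0 R' h1 iA iB o d fun p hp => by
      obtain ⟨p1, p2⟩ := Finset.mem_filter.1 hp
      exact ⟨(hs p p1).1, p2, e1 ▸ (hs p p1).2.1, vb ((hs p p1).2.2 p2) u⟩
  have e2 : ∀ p : L × L, ord v ((ng R).2 - p.2) = ord v (R.2 + p.2) := fun p => by
    rw [← ord_neg]
    congr 1
    simp [ng, add_comm]
  have k2 := key (ng R) rfl (on_ng hR) (by simpa using dsc_ng hD)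
  simp only [e2] at k2
  refine (core hc hu hN hR (fun p hp => (hs p hp).2.1) (key R rfl hR hD) k2 ?_).trans ?_
  · rw [hg R.1 e hD.1 fun p hp => (hs p hp).2.1, ← Finset.sum_add_distrib, Finset.sum_filter,
      Finset.sum_filter]
    refine Finset.sum_congr rfl fun p hp => ?_
    by_cases d : p.1 - algebraMap k L e ∈ Mge v 1
    · have q : p.2 * p.2 ∈ Mge v 1 := by
        have := aev d F
        rwa [h0, map_zero, sub_zero, ← (hs p hp).1, sq] at this
      rw [if_pos d, if_pos ⟨d, by simpa using or1 q⟩,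
        ord_diff h1 hR (hs p hp).1 hD.1 d (hs p hp).2.1, mul_add]
    · rw [if_neg d, if_neg fun h => d h.1]
  · rw [← Finset.sum_sub_distrib]
    exact Finset.sum_congr rfl fun p _ => (mul_sub _ _ _).symm

end Vale.Agent.P027M.FA.Be
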