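import Vale.Agent.P027M.FA.BeDef

/-! # P027, route M, row FA.be.gauss : the order of the norm after scaling -/

open Polynomial Vale.Agent.P019P P025H492 Vale.Agent.P027M.B

noncomputable section

namespace Vale.Agent.P027M.FA.Be

open scoped Classical

namespace GaussP

/-- a polynomial with a simple root is not a square of a rational function -/
theorem parity {k : Type*} [Field k] {F A B : k[X]} {e : k} (h0 : F.eval e = 0)
    (h1 : F.derivative.eval e ≠ 0) (h : A ^ 2 - B ^ 2 * F = 0) : A = 0 ∧ B = 0 := by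
  have hF : F ≠ 0 := by
    rintro rfl
    simp at h1
  rw [sub_eq_zero] at h
  by_cases hB : B = 0
  · rw [hB, zero_pow two_ne_zero, zero_mul] at h
    exact ⟨pow_eq_zero_iff two_ne_zero |>.1 h, hB⟩
  exfalso
  have h2 : B * B * F ≠ 0 := mul_ne_zero (mul_ne_zero hB hB) hF
  rw [sq, sq] at h
  have h3 := rootMultiplicity_mul (x := e) h2
  rw [← h, rootMultiplicity_mul (h ▸ h2), rootMultiplicity_mul (mul_ne_zero hB hB)] at h3
  have h4 : 0 < F.rootMultiplicity e := (rootMultiplicity_pos hF).2 h0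
  have h5 : ¬ 1 < F.rootMultiplicity e := fun k => by
    obtain ⟨G, hG⟩ := (pow_dvd_pow _ k).trans (pow_rootMultiplicity_dvd F e)
    apply h1
    rw [hG]
    simp [derivative_mul, derivative_pow]
  omega

variable {k L : Type*} [Field k] [Field L] [Algebra k L] [CFF k L] {v : Plk k L}

theorem cst (a : k) : algebraMap k L a ∈ Mge v 0 := mem_Mge.2 (Or.inr (ord_const v a).ge)

theorem unit {z : L} {c : k} (h : z - algebraMap k L c ∈ Mge v 1) (hc : c ≠ 0) :
    z ≠ 0 ∧ ord v z = 0 := by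
  have := ord_add_of_lt (P := v) ((_root_.map_ne_zero (algebraMap k L)).2 hc)
    (w := z - algebraMap k L c) (by rwa [ord_const, zero_add])
  rwa [add_sub_cancel, ord_const] at this

theorem red {A : L[X]} (h : Itg v A) :
    ∃ A0 : k[X], ∀ i, A.coeff i - algebraMap k L (A0.coeff i) ∈ Mge v 1 := by
  refine ⟨∑ i ∈ A.support, monomial i (vl v (A.coeff i)), fun i => ?_⟩
  rw [finsetSum_coeff]
  simp only [coeff_monomial, Finset.sum_ite_eq']
  split_ifs with hi
  · exact sub_vl_mem ((h i).resolve_left (mem_support_iff.1 hi))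
  · rw [notMem_support_iff.1 hi, map_zero, sub_zero]
    exact zero_mem _

theorem ev {A : L[X]} {A0 : k[X]} (h : ∀ i, A.coeff i - algebraMap k L (A0.coeff i) ∈ Mge v 1)
    (a : k) : A.eval (algebraMap k L a) - algebraMap k L (A0.eval a) ∈ Mge v 1 := by
  have e : A.eval (algebraMap k L a) - algebraMap k L (A0.eval a) =
      (A - A0.map (algebraMap k L)).eval (algebraMap k L a) := by
    rw [eval_sub, eval_map, eval₂_at_apply]
  rw [e, eval_eq_sum_range]
  refine Submodule.sum_mem _ fun i _ => ?_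
  rw [coeff_sub, coeff_map, ← map_pow]
  exact mul_mem_Mge (h i) (cst _)

theorem sq_sub {z : L} {c : k} (h : z - algebraMap k L c ∈ Mge v 1) :
    z ^ 2 - algebraMap k L (c ^ 2) ∈ Mge v 1 := by
  have e : z ^ 2 - algebraMap k L (c ^ 2) = (z - algebraMap k L c) *
      ((z - algebraMap k L c) + algebraMap k L (2 * c)) := by
    rw [map_mul, map_pow, map_ofNat]
    ring
  rw [e]
  exact mul_mem_Mge h (add_mem (Mge_mono v zero_le_one h) (cst _))

theorem cls {x p : L} {a : k} (hx : x - algebraMap k L a ∈ Mge v 1)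
    (hp : p - algebraMap k L a ∉ Mge v 1) : x - p ≠ 0 ∧ ord v (x - p) = min 0 (ord v p) := by
  rcases lt_or_ge (ord v p) 0 with h | h
  · have h0 : p ≠ 0 := by
      rintro rfl
      rw [ord_zero] at h
      exact lt_irrefl _ h
    have h1 : x ∈ Mge v (ord v (-p) + 1) := by
      rw [ord_neg]
      exact mem_Mge.2 (Or.inr (by have := ord_nonneg_of_sub hx; omega))
    have := ord_add_of_lt (neg_ne_zero.2 h0) h1
    rwa [neg_add_eq_sub, ord_neg, ← min_eq_right h.le] at this
  · have h1 := sub_vl_mem h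
    rw [min_eq_left h]
    refine unit (c := a - vl v p) ?_ fun k => hp (by rwa [sub_eq_zero.1 k])
    have e : x - p - algebraMap k L (a - vl v p) =
        (x - algebraMap k L a) - (p - algebraMap k L (vl v p)) := by
      rw [map_sub]
      ring
    rw [e]
    exact sub_mem hx h1

theorem ord_nrm {s : Finset (L × L)} {n : L × L → ℕ} {u c x : L} (hu : u ≠ 0) (hc : c ≠ 0)
    (hx : ∀ p ∈ s, x - p.1 ≠ 0) : ord v (u ^ 2 * (c * ∏ p ∈ s, (x - p.1) ^ n p)) =
      ord v (u ^ 2 * c) + ∑ p ∈ s, n p * ord v (x - p.1) := by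
  have h : ∀ p ∈ s, (x - p.1) ^ n p ≠ 0 := fun p hp => pow_ne_zero _ (hx p hp)
  rw [← mul_assoc, ord_mul v (mul_ne_zero (pow_ne_zero _ hu) hc) (Finset.prod_ne_zero_iff.2 h),
    ord_prod v _ _ h]
  simp only [ord_pow]

/-- scaling -/
theorem scale {A B : L[X]} (h : ¬ (A = 0 ∧ B = 0)) : ∃ u : L, u ≠ 0 ∧ Itg v (C u * A) ∧
    Itg v (C u * B) ∧ ∃ i, (C u * A).coeff i = 1 ∨ (C u * B).coeff i = 1 := by
  have hne : (A.coeffs ∪ B.coeffs).Nonempty := by
    rw [Finset.union_nonempty, coeffs_nonempty_iff, coeffs_nonempty_iff]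
    exact not_and_or.1 h
  obtain ⟨t, ht, hm⟩ := Finset.exists_min_image _ (ord v) hne
  have ex : ∃ i, t ≠ 0 ∧ (A.coeff i = t ∨ B.coeff i = t) := by
    rcases Finset.mem_union.1 ht with k | k <;> obtain ⟨i, hi, rfl⟩ := mem_coeffs_iff.1 k
    exacts [⟨i, mem_support_iff.1 hi, Or.inl rfl⟩, ⟨i, mem_support_iff.1 hi, Or.inr rfl⟩]
  obtain ⟨i, t0, hi⟩ := ex
  have key : ∀ D : L[X], D.coeffs ⊆ A.coeffs ∪ B.coeffs → Itg v (C t⁻¹ * D) := fun D hD j => by
    rw [coeff_C_mul, mul_mem_Mge_iff (inv_ne_zero t0), ord_inv, zero_sub, neg_neg]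
    by_cases k : D.coeff j = 0
    · exact Or.inl k
    · exact Or.inr (hm _ (hD (coeff_mem_coeffs k)))
  refine ⟨t⁻¹, inv_ne_zero t0, key A Finset.subset_union_left, key B Finset.subset_union_right,
    i, hi.imp (fun k => ?_) fun k => ?_⟩ <;> rw [coeff_C_mul, k, inv_mul_cancel₀ t0]

end GaussP

open GaussP in
/-- [FA.gauss] -/
theorem gauss : GAUSS := by
  intro k L _ _ _ _ F v A B s n c e h0 h1 hc hN
  have := CFF.ac (k := k) (F := L)
  have hAB : ¬ (A = 0 ∧ B = 0) := by
    rintro ⟨rfl, rfl⟩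
    refine mul_ne_zero (C_ne_zero.2 hc) (monic_prod_of_monic s (fun p => (X - C p.1) ^ n p)
      fun p _ => (monic_X_sub_C _).pow _).ne_zero ?_
    rw [← hN]
    simp
  obtain ⟨u, hu, hA, hB, i, hi⟩ := scale (v := v) hAB
  refine ⟨u, hu, hA, hB, fun x a hx hs => ?_⟩
  obtain ⟨A0, hA0⟩ := red hA
  obtain ⟨B0, hB0⟩ := red hB
  have hN0 : A0 ^ 2 - B0 ^ 2 * F ≠ 0 := fun k0 => by
    obtain ⟨rfl, rfl⟩ := parity h0 h1 k0
    have k1 : (1 : L) ∈ Mge v 1 := by
      rcases hi with k1 | k1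
      · simpa [k1] using hA0 i
      · simpa [k1] using hB0 i
    exact one_ne_zero (const_notMem (P := v) (c := 1) (by rwa [map_one]))
  obtain ⟨b, hb⟩ := Infinite.exists_notMem_finset
    ((A0 ^ 2 - B0 ^ 2 * F).roots.toFinset ∪ s.image fun p => vl v p.1)
  rw [Finset.notMem_union, Multiset.mem_toFinset, mem_roots hN0] at hb
  have hbs : ∀ p ∈ s, algebraMap k L b - p.1 ≠ 0 ∧
      ord v (algebraMap k L b - p.1) = min 0 (ord v p.1) := fun p hp =>
    cls (a := b) (by rw [sub_self]; exact zero_mem _) fun k1 =>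
      hb.2 (Finset.mem_image.2 ⟨p, hp, vl_eq k1⟩)
  have e1 : u ^ 2 * (c * ∏ p ∈ s, (algebraMap k L b - p.1) ^ n p) -
      algebraMap k L ((A0 ^ 2 - B0 ^ 2 * F).eval b) =
      ((C u * A).eval (algebraMap k L b) ^ 2 - algebraMap k L (A0.eval b ^ 2)) -
      ((C u * B).eval (algebraMap k L b) ^ 2 - algebraMap k L (B0.eval b ^ 2)) *
        algebraMap k L (F.eval b) := by
    have e2 := congrArg (eval (algebraMap k L b)) hN
    simp only [eval_sub, eval_mul, eval_pow, eval_C, eval_prod, eval_X, eval_map,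
      eval₂_at_apply] at e2
    simp only [← e2, eval_sub, eval_mul, eval_pow, eval_C, map_sub, map_mul]
    ring
  have e3 := (unit (v := v) (e1 ▸ sub_mem (sq_sub (ev hA0 b))
    (mul_mem_Mge (sq_sub (ev hB0 b)) (cst _))) hb.1).2
  rw [ord_nrm hu hc fun p hp => (hbs p hp).1,
    Finset.sum_congr rfl fun p hp => by rw [(hbs p hp).2]] at e3
  rw [ord_nrm hu hc fun p hp => sub_ne_zero.2 (hs p hp).symm, eq_neg_of_add_eq_zero_left e3,
    neg_add_eq_sub, ← Finset.sum_sub_distrib, Finset.sum_filter]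
  refine Finset.sum_congr rfl fun p _ => ?_
  split_ifs with k1
  · rw [min_eq_left (ord_nonneg_of_sub k1), mul_zero, sub_zero]
  · rw [(cls hx k1).2, sub_self]

end Vale.Agent.P027M.FA.Be
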