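import Vale.Agent.P027M.FA.BeDef
import Vale.Agent.P027M.K.Loc

/-! # P027, route M, block FAITH : the function `w - s` (row FA.be.gloc) -/

set_option linter.all false

open Polynomial Vale.Agent.P019P P025H492 Vale.Agent.P027M.B
open _root_.P027M.K (Val val_vl)

noncomputable section

namespace Vale.Agent.P027M.FA.Be

namespace Gloc

variable {k L : Type} [Field k] [Field L] [Algebra k L] [CFF k L]

theorem val_aev {x : L} {a : k} {v : Plk k L} (h : Val v x a) (p : k[X]) :
    Val v (aeval x p) (p.eval a) := by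
  induction p using Polynomial.induction_on' with
  | add p q hp hq => rw [map_add, eval_add]; exact hp.add hq
  | monomial n c =>
    rw [aeval_monomial, eval_monomial]
    exact (Val.const v c).mul (h.pow n)

/-- the value of a polynomial at a pole -/
theorem inf {x : L} {v : Plk k L} (h : ord v x < 0) (F : k[X]) :
    ∃ u : L, Val v u F.leadingCoeff ∧ aeval x F = u * x ^ F.natDegree := by
  have h0 : x ≠ 0 := by
    rintro rfl
    rw [ord_zero] at h
    omega
  have h1 : Val v x⁻¹ 0 := by
    rw [Val.zero_iff]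
    exact mem_Mge.2 (Or.inr (by rw [ord_inv]; omega))
  have h2 := val_aev h1 F.reverse
  rw [← coeff_zero_eq_eval_zero, coeff_zero_reverse] at h2
  refine ⟨_, h2, ?_⟩
  letI : Invertible x := invertibleOfNonzero h0
  have h3 := eval₂_reverse_mul_pow (algebraMap k L) x F
  rw [invOf_eq_inv] at h3
  rw [aeval_def, aeval_def, h3]

/-- the divided difference -/
theorem dd {x y : L} {a : k} {v : Plk k L} (hx : Val v x a) (hy : Val v y a) (F : k[X]) :
    ∃ D : L, aeval x F - aeval y F = (x - y) * D ∧ Val v D (F.derivative.eval a) := by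
  induction F using Polynomial.induction_on with
  | C c =>
    refine ⟨0, by simp, ?_⟩
    rw [derivative_C, eval_zero, Val.zero_iff]
    exact zero_mem _
  | add p q hp hq =>
    obtain ⟨D, h1, h2⟩ := hp
    obtain ⟨E, h3, h4⟩ := hq
    refine ⟨D + E, ?_, ?_⟩
    · rw [map_add, map_add]
      linear_combination h1 + h3
    · rw [derivative_add, eval_add]
      exact h2.add h4
  | monomial n c hp =>
    obtain ⟨D, h1, h2⟩ := hp
    rw [pow_succ, ← mul_assoc]
    generalize C c * X ^ n = P at h1 h2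
    refine ⟨D * x + aeval y P, ?_, ?_⟩
    · rw [map_mul, map_mul, aeval_X, aeval_X]
      linear_combination x * h1
    · rw [derivative_mul, derivative_X, mul_one, eval_add, eval_mul, eval_X]
      exact (h2.mul hx).add (val_aev hy P)

theorem lc_ne {F : k[X]} (hF : GF F) : F.leadingCoeff ≠ 0 := by
  rw [Ne, leadingCoeff_eq_zero]
  rintro rfl
  have := hF.deg
  simp at this

theorem ord_inf {F : k[X]} (hF : GF F) {x : L} {v : Plk k L} (h : ord v x < 0) :
    ord v (aeval x F) = 7 * ord v x := by
  obtain ⟨u, h1, h2⟩ := inf h F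
  have h0 : x ≠ 0 := by
    rintro rfl
    rw [ord_zero] at h
    omega
  obtain ⟨h3, h4⟩ := h1.unit (lc_ne hF)
  rw [h2, ord_mul v h3 (pow_ne_zero _ h0), h4, ord_pow, hF.deg]
  simp

theorem ord_fin {x : L} {v : Plk k L} (h : 0 ≤ ord v x) (F : k[X]) : 0 ≤ ord v (aeval x F) :=
  ord_nonneg_of_sub (val_aev (val_vl h) F)

theorem loc (hI : ILOC) {F : k[X]} (hF : GF F) (v : Plk k L) {p R : L × L} (hp : On F p)
    (hR : On F R) (h2 : p.2 = R.2) (h1 : p.1 ≠ R.1) :
    ii v p (ng R) - ii v p R = -max 0 (-ord v R.1) - ord v (p.1 - R.1) := by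
  have hs := (hI k L F v p R hF hp hR h1).2.2.2
  have hR' : R.2 ^ 2 = aeval R.1 F := hR
  have hE : aeval p.1 F = aeval R.1 F := by rw [← hR', ← h2]; exact hp.symm
  rcases lt_or_ge (ord v R.1) 0 with h | h
  · have e1 := ord_inf hF h
    have h' : ord v p.1 < 0 := by
      by_contra hc
      have := ord_fin (not_lt.1 hc) F
      rw [hE] at this
      omega
    have e2 := ord_inf hF h'
    rw [hE] at e2
    have e3 : 2 * ord v R.2 = 7 * ord v R.1 := by
      rw [← e1, ← hR', ord_pow]
      simp
    have hm : R.1 ≠ 0 := by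
      intro h0
      rw [h0, ord_zero] at h
      omega
    have hq : p.1 ≠ 0 := by
      intro h0
      rw [h0, ord_zero] at h'
      omega
    have hσ : R.2 ≠ 0 := by
      intro h0
      rw [h0, ord_zero] at e3
      omega
    have hρ : 0 ≤ ord v (p.1 / R.1) := by
      rw [div_eq_mul_inv, ord_mul v hq (inv_ne_zero hm), ord_inv]
      omega
    have hv := val_vl hρ
    obtain ⟨u, hu, hu'⟩ := inf h F
    obtain ⟨w, hw, hw'⟩ := inf h' F
    rw [hF.deg] at hu' hw'
    have e4 : w * (p.1 / R.1) ^ 7 = u := by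
      have h3 : w * p.1 ^ 7 = u * R.1 ^ 7 := by rw [← hu', ← hw', hE]
      field_simp
      linear_combination h3
    have e5 := hw.mul (hv.pow 7)
    rw [e4] at e5
    have e6 : vl v (p.1 / R.1) ^ 7 = 1 := by
      have h3 := e5.unique hu
      exact mul_left_cancel₀ (lc_ne hF) (by rw [h3, mul_one])
    have e7 : 1 + vl v (p.1 / R.1) ^ 4 ≠ 0 := by
      intro h3
      generalize vl v (p.1 / R.1) = r at e6 h3
      have h4 : r = 1 := by linear_combination (r ^ 4 - 1) * h3 - r * e6
      rw [h4] at h3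
      exact hF.two (by linear_combination h3)
    obtain ⟨e8, e9⟩ := ((Val.one v).add (hv.pow 4)).unit e7
    have e10 : ii v p (ng R) = ord v R.2 - 4 * ord v p.1 := by
      unfold ii
      rw [if_pos ⟨h', h⟩]
      have h3 : p.2 / p.1 ^ 4 - (ng R).2 / (ng R).1 ^ 4 =
          R.2 * (p.1 ^ 4)⁻¹ * (1 + (p.1 / R.1) ^ 4) := by
        show p.2 / p.1 ^ 4 - -R.2 / R.1 ^ 4 = _
        rw [h2]
        field_simp
        ring
      rw [h3, ord_mul v (mul_ne_zero hσ (inv_ne_zero (pow_ne_zero _ hq))) e8, e9,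
        ord_mul v hσ (inv_ne_zero (pow_ne_zero _ hq)), ord_inv, ord_pow]
      push_cast
      ring
    omega
  · have h' : 0 ≤ ord v p.1 := by
      by_contra hc
      have h3 := ord_inf hF (not_le.1 hc)
      have h4 := ord_fin h F
      rw [hE] at h3
      omega
    have e10 : ii v p (ng R) = 0 := by
      unfold ii
      rw [if_neg (fun hc => by omega), if_neg]
      rintro ⟨-, -, h3, h4⟩
      change vl v p.1 = vl v R.1 at h3
      change vl v p.2 = vl v (-R.2) at h4
      have h5 : 0 ≤ ord v R.2 := by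
        have h6 := ord_fin h F
        rw [← hR', ord_pow] at h6
        push_cast at h6
        omega
      have h6 := val_vl h5
      rw [h2, vl_eq h6.neg] at h4
      have h7 : vl v R.2 = 0 := by
        apply mul_left_cancel₀ hF.two
        linear_combination h4
      rw [h7] at h6
      have h8 := val_vl h
      have h9 := val_vl h'
      rw [h3] at h9
      have h10 := h6.pow 2
      rw [hR'] at h10
      have h11 : F.eval (vl v R.1) = 0 := by
        rw [(val_aev h8 F).unique h10]
        simp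
      have h12 : F.derivative.eval (vl v R.1) ≠ 0 := by
        have := hF.sep.aeval_derivative_ne_zero (x := vl v R.1) (by rwa [coe_aeval_eq_eval])
        rwa [coe_aeval_eq_eval] at this
      obtain ⟨D, hD, hD'⟩ := dd h9 h8 F
      rw [hE, sub_self] at hD
      exact mul_ne_zero (sub_ne_zero.2 h1) (hD'.unit h12).1 hD.symm
    omega

theorem finsum_dg (D : Plk k L →₀ ℤ) : ∑ᶠ v, D v = dg D := by
  rw [dg_apply, Finsupp.sum]
  exact finsum_eq_sum_of_support_subset _ (by rw [Finsupp.fun_support_eq])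

theorem bL_ne (hI : ILOC) {F : k[X]} (hF : GF F) {p R : L × L} (hp : On F p)
    (hR : On F R) (h2 : p.2 = R.2) (h1 : p.1 ≠ R.1) : bL k p R = -ht k R.1 := by
  unfold bL ht
  rw [if_neg h1]
  have h3 : ∀ v : Plk k L, ii v p (ng R) - ii v p R = (-pol k R.1 - dv k (p.1 - R.1)) v := by
    intro v
    rw [loc hI hF v hp hR h2 h1, Finsupp.sub_apply, Finsupp.neg_apply, pol_apply, dv_apply]
  rw [finsum_congr h3, finsum_dg, map_sub, map_neg, dg_dv, sub_zero]

theorem bL_self (R : L × L) : bL k R R = 6 * ht k R.1 := by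
  unfold bL
  rw [if_pos rfl, if_pos rfl]

theorem ht_const (a : k) : ht k (algebraMap k L a) = 0 := by
  have h : pol k (algebraMap k L a) = 0 := by
    ext v
    rw [pol_apply, ord_const]
    simp
  rw [ht, h, map_zero]

end Gloc

open Gloc in
theorem gloc (hI : ILOC) : GLOC := by
  classical
  intro k L _ _ _ _ F s n c R hF hR hs hG
  have hb : ∀ p ∈ s, p ≠ R → bL k p R = -ht k R.1 := fun p hp hne =>
    bL_ne hI hF (hs p hp).1 hR (hs p hp).2 fun h => hne (Prod.ext h (hs p hp).2)
  by_cases hc : ∃ a : k, R.1 = algebraMap k L a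
  · obtain ⟨a, ha⟩ := hc
    have h0 : ht k R.1 = 0 := by rw [ha, ht_const]
    refine Finset.sum_eq_zero fun p hp => ?_
    by_cases h : p = R
    · rw [h, bL_self, h0]; simp
    · rw [hb p hp h, h0]; simp
  have htr := (finite_of_notMem (k := k) (x := R.1) fun a h => hc ⟨a, h⟩).1
  have hd : (F.map (algebraMap k L) - C (R.2 ^ 2)).natDegree = 7 := by
    rw [natDegree_sub_C, natDegree_map, hF.deg]
  have hc0 : c ≠ 0 := by
    rintro rfl
    rw [hG] at hd
    simp at hd
  have hn : ∑ p ∈ s, n p = 7 := by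
    rw [hG, natDegree_C_mul hc0,
      natDegree_prod_of_monic _ _ fun p _ => (monic_X_sub_C p.1).pow _] at hd
    simpa [natDegree_pow] using hd
  have hR' : R.2 ^ 2 = aeval R.1 F := hR
  obtain ⟨hm, hn0⟩ : R ∈ s ∧ n R ≠ 0 := by
    have h := congrArg (eval R.1) hG
    rw [eval_sub, eval_C, eval_map_algebraMap, hR', sub_self, eval_mul, eval_C, eval_prod] at h
    obtain ⟨p, hp, h1⟩ := Finset.prod_eq_zero_iff.1 ((mul_eq_zero.1 h.symm).resolve_left hc0)
    rw [eval_pow, eval_sub, eval_X, eval_C, pow_eq_zero_iff'] at h1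
    have h2 : p = R := Prod.ext (sub_eq_zero.1 h1.1).symm (hs p hp).2
    exact h2 ▸ ⟨hp, h1.2⟩
  have hn1 : n R = 1 := by
    by_contra hne
    have h1 : (X - C R.1) ^ 2 ∣ F.map (algebraMap k L) - C (R.2 ^ 2) := by
      rw [hG]
      exact ((pow_dvd_pow _ (by omega)).trans
        (Finset.dvd_prod_of_mem (fun p : L × L => (X - C p.1) ^ n p) hm)).mul_left _
    have h2 := pow_sub_one_dvd_derivative_of_pow_dvd h1
    rw [derivative_sub, derivative_C, sub_zero, derivative_map] at h2
    simp only [Nat.add_one_sub_one, pow_one] at h2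
    rw [dvd_iff_isRoot, IsRoot.def, eval_map_algebraMap] at h2
    refine htr ⟨F.derivative, fun h0 => ?_, h2⟩
    have h3 : IsCoprime F F.derivative := hF.sep
    rw [h0, isCoprime_zero_right] at h3
    have h4 := natDegree_eq_zero_of_isUnit h3
    rw [hF.deg] at h4
    omega
  rw [← Finset.add_sum_erase _ _ hm] at hn ⊢
  rw [Finset.sum_congr rfl fun p hp => by
    rw [hb p (Finset.mem_of_mem_erase hp) (Finset.ne_of_mem_erase hp)], ← Finset.sum_mul,
    bL_self, hn1, ← Nat.cast_sum]
  have h6 : ∑ p ∈ s.erase R, n p = 6 := by omega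
  rw [h6]
  push_cast
  ring

end Vale.Agent.P027M.FA.Be
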