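import Vale.Agent.P027M.FA.BeDef

/-! # P027, route M, block FAITH : the pairing under change of the level -/

open Polynomial Vale.Agent.P019P P025H492 Vale.Agent.P027M.B

set_option linter.all false

noncomputable section

namespace Vale.Agent.P027M.FA.Be

open scoped Classical

namespace Hom

theorem finsum_dg {α : Type*} (D : α →₀ ℤ) : ∑ᶠ v, D v = dg D := by
  rw [dg_apply, finsum_eq_sum_of_support_subset _ (s := D.support) (by simp)]
  rfl

section

variable {k L L' : Type*} [Field k] [Field L] [Field L'] [Algebra k L] [Algebra k L']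
  [Algebra L L'] [IsScalarTower k L L'] [CFF k L] [CFF k L'] [FiniteDimensional L L'] {F : k[X]}

theorem int2 (v : Plk k L) {P : L × L} (h : On F P) (h1 : 0 ≤ ord v P.1) : 0 ≤ ord v P.2 := by
  have a : ∀ G : k[X], aeval P.1 G ∈ v.1 := fun G => by
    induction G using Polynomial.induction_on' with
    | add a b ha hb => rw [map_add]; exact add_mem ha hb
    | monomial n c =>
      rw [aeval_monomial]
      exact mul_mem (v.2.1 c) (pow_mem ((mem_iff_ord _ _).2 (Or.inr h1)) n)
  have b := ord_nonneg_of_mem v (a F)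
  by_cases e : P.2 = 0
  · rw [e, ord_zero]
  · rw [← h, sq, ord_mul v e e] at b
    omega

theorem neg_up (v : Plk k L') (z : L) :
    ord v (algebraMap L L' z) < 0 ↔ ord (down L v) z < 0 := by
  have := ram_pos (K := L) v
  rw [ord_algebraMap, ← not_le, ← not_le, mul_nonneg_iff_of_pos_left (by omega)]

theorem nn_up (v : Plk k L') (z : L) :
    0 ≤ ord v (algebraMap L L' z) ↔ 0 ≤ ord (down L v) z := by
  rw [← not_lt, ← not_lt, neg_up]

theorem vl_up (v : Plk k L') {z : L} (h : 0 ≤ ord (down L v) z) :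
    vl v (algebraMap L L' z) = vl (down L v) z := by
  refine vl_eq ?_
  rw [IsScalarTower.algebraMap_apply k L L', ← map_sub]
  rcases mem_Mge.1 (sub_vl_mem h) with e | e
  · rw [e, map_zero]
    exact zero_mem _
  · exact Or.inr ((ord_up_pos_iff v _).2 e)

theorem ii_up (v : Plk k L') {P Q : L × L} (hP : On F P) (hQ : On F Q) :
    ii v (algebraMap L L' P.1, algebraMap L L' P.2) (algebraMap L L' Q.1, algebraMap L L' Q.2) =
      ram L v * ii (down L v) P Q := by
  unfold ii
  simp only [neg_up, nn_up]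
  by_cases c : ord (down L v) P.1 < 0 ∧ ord (down L v) Q.1 < 0
  · rw [if_pos c, if_pos c, ← ord_algebraMap]
    simp only [map_sub, map_div₀, map_pow]
  · rw [if_neg c, if_neg c]
    by_cases d : 0 ≤ ord (down L v) P.1 ∧ 0 ≤ ord (down L v) Q.1
    · rw [vl_up v d.1, vl_up v d.2, vl_up v (int2 _ hP d.1), vl_up v (int2 _ hQ d.2), ← map_sub,
        ← map_sub, ord_algebraMap, ord_algebraMap]
      split_ifs <;> simp
    · rw [if_neg fun e => d ⟨e.1, e.2.1⟩, if_neg fun e => d ⟨e.1, e.2.1⟩, mul_zero]

theorem ht_up (x : L) : ht k (algebraMap L L' x) = Module.finrank L L' * ht k x := by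
  unfold ht
  rw [← dg_pull]
  congr 1
  ext v
  rw [pull_apply, pol_apply, pol_apply, ord_algebraMap, mul_max_of_nonneg _ _ (by positivity),
    mul_zero, mul_neg]

theorem On.ng {P : L × L} (h : On F P) : On F (ng P) := (neg_sq _).trans h

end

end Hom

open Hom in
theorem hom (hI : ILOC) : HOM := by
  intro k L L' _ _ _ _ _ _ _ _ _ _ F hF
  refine ⟨ht_up, fun P Q hP hQ => ?_⟩
  unfold bL
  simp only [(algebraMap L L').injective.eq_iff]
  by_cases c : P.1 = Q.1
  · rw [if_pos c, if_pos c, ht_up]
    ring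
  · rw [if_neg c, if_neg c]
    have f : (Function.support fun v : Plk k L => ii v P (ng Q) - ii v P Q).Finite := by
      refine (dv k (P.1 - Q.1) + pol k P.1 + pol k Q.1).finite_support.subset fun v hv e => hv ?_
      obtain ⟨a, -, -, b⟩ := hI k L F v P Q hF hP hQ c
      have d := (hI k L F v P (ng Q) hF hP (On.ng hQ) c).1
      simp only [Finsupp.add_apply, dv_apply, pol_apply] at e
      simp only
      omega
    have e := finsum_dg (Finsupp.ofSupportFinite _ f)
    refine Eq.trans ?_ (congrArg _ e.symm)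
    rw [← dg_pull, ← finsum_dg]
    refine finsum_congr fun v => ?_
    rw [pull_apply, ii_up v hP hQ]
    have e2 := ii_up v hP (On.ng hQ)
    simp only [ng, map_neg] at e2 ⊢
    rw [e2, ← mul_sub]
    rfl

namespace Hom

variable {k K Om : Type} [Field k] [Field K] [Field Om] [Algebra k K] [Algebra k Om]
  [Algebra K Om] [IsScalarTower k K Om] {F : k[X]}

theorem up (h : HOM) (hF : GF F) {L L' : IntermediateField K Om} (e : L ≤ L')
    [FiniteDimensional K L] [FiniteDimensional K L'] [CFF k L] [CFF k L'] :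
    (∀ x : L, (ht k (IntermediateField.inclusion e x) : ℚ) / Module.finrank K L' =
      ht k x / Module.finrank K L) ∧ ∀ P Q : L × L, On F P → On F Q →
      (bL k (IntermediateField.inclusion e P.1, IntermediateField.inclusion e P.2)
        (IntermediateField.inclusion e Q.1, IntermediateField.inclusion e Q.2) : ℚ) /
        Module.finrank K L' = bL k P Q / Module.finrank K L := by
  letI : Algebra L L' := (IntermediateField.inclusion e).toRingHom.toAlgebra
  haveI : IsScalarTower k L L' := IsScalarTower.of_algebraMap_eq fun _ => rfl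
  haveI : IsScalarTower K L L' := IsScalarTower.of_algebraMap_eq fun _ => rfl
  haveI : FiniteDimensional L L' := Module.Finite.of_restrictScalars_finite K L L'
  obtain ⟨h1, h2⟩ := h k L L' F hF
  have d : (Module.finrank L L' : ℚ) ≠ 0 := Nat.cast_ne_zero.2 Module.finrank_pos.ne'
  have t : ∀ a b : ℤ, a = Module.finrank L L' * b →
      (a : ℚ) / Module.finrank K L' = b / Module.finrank K L := fun a b c => by
    rw [c, ← Module.finrank_mul_finrank K L L']
    push_cast
    rw [mul_comm (b := (b : ℚ)), mul_div_mul_right _ _ d]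
  exact ⟨fun x => t _ _ (h1 x), fun P Q a b => t _ _ (h2 P Q a b)⟩

end Hom

open Hom in
theorem lev (h : HOM) : LEV := by
  intro k K Om _ _ _ _ _ _ _ _ _ F hF
  let G : Om × Om → Om × Om → ℚ → Prop := fun P Q r => ∀ (L : IntermediateField K Om)
    [FiniteDimensional K L] [CFF k L] (P' Q' : L × L), On F P' → On F Q' →
    ((P'.1 : Om), (P'.2 : Om)) = P → ((Q'.1 : Om), (Q'.2 : Om)) = Q →
    r = bL k P' Q' / Module.finrank K L
  let H : Om → ℚ → Prop := fun x r => ∀ (L : IntermediateField K Om)
    [FiniteDimensional K L] [CFF k L] (x' : L), (x' : Om) = x → r = ht k x' / Module.finrank K L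
  refine ⟨fun P Q => Classical.epsilon (G P Q), fun x => Classical.epsilon (H x), fun L _ _ => ?_⟩
  have d : (Module.finrank K L : ℚ) ≠ 0 := Nat.cast_ne_zero.2 Module.finrank_pos.ne'
  refine ⟨fun x => (eq_div_iff d).1 (Classical.epsilon_spec (p := H x)
    ⟨ht k x / Module.finrank K L, fun L' _ _ x' e => ?_⟩ L x rfl), fun P Q hP hQ =>
    (eq_div_iff d).1 (Classical.epsilon_spec (p := G _ _)
      ⟨bL k P Q / Module.finrank K L, fun L' _ _ P' Q' hP' hQ' e1 e2 => ?_⟩ L P Q hP hQ rfl rfl)⟩
  · haveI : CFF k (L ⊔ L' : IntermediateField K Om) := cff_of_finite (K := K)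
    rw [← (up h hF (le_sup_left : L ≤ L ⊔ L')).1, ← (up h hF (le_sup_right : L' ≤ L ⊔ L')).1]
    congr 3
    exact Subtype.ext e.symm
  · haveI : CFF k (L ⊔ L' : IntermediateField K Om) := cff_of_finite (K := K)
    rw [← (up h hF (le_sup_left : L ≤ L ⊔ L')).2 P Q hP hQ,
      ← (up h hF (le_sup_right : L' ≤ L ⊔ L')).2 P' Q' hP' hQ']
    obtain ⟨a1, a2⟩ := Prod.mk.inj e1
    obtain ⟨b1, b2⟩ := Prod.mk.inj e2
    congr 3
    · exact Prod.ext (Subtype.ext a1.symm) (Subtype.ext a2.symm)
    · exact Prod.ext (Subtype.ext b1.symm) (Subtype.ext b2.symm)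

end Vale.Agent.P027M.FA.Be
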