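import Vale.Agent.P027M.FA.BeDef
import Vale.Agent.P027M.K.Loc

/-! # P027, route M, block FAITH, row ILOC : the local intersection numbers -/

open Polynomial Vale.Agent.P019P P025H492 Vale.Agent.P027M.B _root_.P027M.K

noncomputable section

namespace Vale.Agent.P027M.FA.Be

namespace Iloc

variable {k L : Type*} [Field k] [Field L] [Algebra k L] [CFF k L] {v : Plk k L}

theorem val_aeval {y : L} {e : k} (h : Val v y e) (G : k[X]) :
    Val v (aeval y G) (G.eval e) := by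
  induction G using Polynomial.induction_on' with
  | add p q hp hq =>
    rw [map_add, eval_add]
    exact hp.add hq
  | monomial n c =>
    rw [aeval_monomial, eval_monomial]
    exact (Val.const v c).mul (h.pow n)

/-- the difference quotient -/
theorem dq {y y' : L} {e : k} (h : Val v y e) (h' : Val v y' e) (G : k[X]) :
    ∃ u, aeval y G - aeval y' G = (y - y') * u ∧ Val v u (G.derivative.eval e) := by
  induction G using Polynomial.induction_on with
  | C c =>
    refine ⟨0, by simp, ?_⟩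
    rw [derivative_C, eval_zero, Val.zero_iff]
    exact zero_mem _
  | add p q hp hq =>
    obtain ⟨u, h1, h2⟩ := hp
    obtain ⟨w, h3, h4⟩ := hq
    refine ⟨u + w, ?_, ?_⟩
    · rw [map_add, map_add]
      linear_combination h1 + h3
    · rw [derivative_add, eval_add]
      exact h2.add h4
  | monomial n c ih =>
    obtain ⟨u, h1, h2⟩ := ih
    rw [pow_succ, ← mul_assoc]
    generalize C c * X ^ n = G at h1 h2
    refine ⟨u * y + aeval y' G, ?_, ?_⟩
    · rw [map_mul, map_mul, aeval_X, aeval_X]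
      linear_combination y * h1
    · rw [derivative_mul, derivative_X, mul_one, eval_add, eval_mul, eval_X]
      exact (h2.mul h).add (val_aeval h' G)

theorem ord_diff {y y' : L} {e : k} (h : Val v y e) (h' : Val v y' e) {G : k[X]}
    (hG : G.derivative.eval e ≠ 0) (hy : y ≠ y') :
    aeval y G - aeval y' G ≠ 0 ∧ ord v (aeval y G - aeval y' G) = ord v (y - y') := by
  obtain ⟨u, h1, h2⟩ := dq h h' G
  have h3 := h2.unit hG
  have h4 := sub_ne_zero.2 hy
  rw [h1, ord_mul v h4 h3.1, h3.2, add_zero]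
  exact ⟨mul_ne_zero h4 h3.1, rfl⟩

/-- the two square roots share the order of the difference -/
theorem split {x x' y y' : L} {e : k} (h : Val v y e) (h' : Val v y' e) {G : k[X]}
    (hG : G.derivative.eval e ≠ 0) (hy : y ≠ y') (hx : x ^ 2 = aeval y G)
    (hx' : x' ^ 2 = aeval y' G) :
    x - x' ≠ 0 ∧ x + x' ≠ 0 ∧ ord v (x - x') + ord v (x + x') = ord v (y - y') := by
  obtain ⟨h1, h2⟩ := ord_diff h h' hG hy
  rw [← hx, ← hx', sq_sub_sq] at h1 h2
  have h3 := mul_ne_zero_iff.1 h1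
  rw [ord_mul v h3.1 h3.2, add_comm] at h2
  exact ⟨h3.2, h3.1, h2⟩

/-- the second coordinate is integral -/
theorem root {x y : L} {e : k} (h : Val v y e) {G : k[X]} (hx : x ^ 2 = aeval y G) :
    Val v x (vl v x) ∧ vl v x ^ 2 = G.eval e := by
  have h1 := val_aeval h G
  rw [← hx] at h1
  have h2 := ord_nonneg_of_sub h1
  rw [ord_pow] at h2
  have h3 : Val v x (vl v x) := val_vl (by omega)
  exact ⟨h3, (h3.pow 2).unique h1⟩

theorem ord_sub_comm (x y : L) : ord v (x - y) = ord v (y - x) := by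
  rw [← ord_neg, neg_sub]

theorem ne_of_ord {x : L} (h : ord v x < 0) : x ≠ 0 := by
  rintro rfl
  rw [ord_zero] at h
  exact lt_irrefl _ h

omit [CFF k L] in
/-- the chart at infinity -/
theorem chart {F : k[X]} (hF : F.natDegree ≤ 8) {P : L × L} (h : On F P) (h0 : P.1 ≠ 0) :
    (P.2 / P.1 ^ 4) ^ 2 = aeval P.1⁻¹ (reflect 8 F) := by
  let _ : Invertible P.1 := invertibleOfNonzero h0
  have h1 := eval₂_reflect_mul_pow (algebraMap k L) P.1 8 F hF
  rw [invOf_eq_inv, ← aeval_def, ← aeval_def, ← show P.2 ^ 2 = _ from h] at h1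
  rw [div_pow, ← h1, ← pow_mul, mul_div_cancel_right₀ _ (pow_ne_zero _ h0)]

theorem val_inv {x : L} (h : ord v x < 0) : Val v x⁻¹ 0 :=
  Val.zero_iff.2 (mem_Mge_one_of_pos (by rw [ord_inv]; omega))

theorem refl_der {F : k[X]} (hF : GF F) : (reflect 8 F).derivative.eval 0 ≠ 0 := by
  rw [← coeff_zero_eq_eval_zero, coeff_derivative, coeff_reflect, revAt_le (by norm_num),
    show 8 - (0 + 1) = F.natDegree from hF.deg.symm, Nat.cast_zero, zero_add, mul_one]
  exact leadingCoeff_ne_zero.2 hF.sep.ne_zero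

theorem sep_der {F : k[X]} (hF : GF F) {a : k} (h : F.eval a = 0) : F.derivative.eval a ≠ 0 := by
  obtain ⟨p, q, e⟩ := hF.sep
  intro h1
  have h2 := congrArg (eval a) e
  rw [eval_add, eval_mul, eval_mul, h, h1, mul_zero, mul_zero, add_zero, eval_one] at h2
  exact zero_ne_one h2

theorem ii_inf {P Q : L × L} (h : ord v P.1 < 0) (h' : ord v Q.1 < 0) :
    ii v P Q = ord v (P.2 / P.1 ^ 4 - Q.2 / Q.1 ^ 4) := if_pos ⟨h, h'⟩

theorem ii_mix {P Q : L × L} (h : ord v P.1 < 0 ∧ 0 ≤ ord v Q.1 ∨ 0 ≤ ord v P.1 ∧ ord v Q.1 < 0) :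
    ii v P Q = 0 := by
  rw [ii, if_neg (by omega), if_neg fun e => by omega]

theorem ii_ne {P Q : L × L} (h : 0 ≤ ord v P.1)
    (h' : vl v P.1 ≠ vl v Q.1 ∨ vl v P.2 ≠ vl v Q.2) : ii v P Q = 0 := by
  rw [ii, if_neg (by omega), if_neg fun e => h'.elim (fun a => a e.2.2.1) fun a => a e.2.2.2]

theorem ii_bra {P Q : L × L} (h : 0 ≤ ord v P.1) (h' : 0 ≤ ord v Q.1) (e : vl v P.1 = vl v Q.1)
    (a : vl v P.2 = 0) (b : vl v Q.2 = 0) : ii v P Q = ord v (P.2 - Q.2) := by
  rw [ii, if_neg (by omega), if_pos ⟨h, h', e, a.trans b.symm⟩, if_pos a]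

theorem ii_eq {P Q : L × L} (h : 0 ≤ ord v P.1) (h' : 0 ≤ ord v Q.1) (e : vl v P.1 = vl v Q.1)
    (a : vl v P.2 ≠ 0) (b : vl v P.2 = vl v Q.2) : ii v P Q = ord v (P.1 - Q.1) := by
  rw [ii, if_neg (by omega), if_pos ⟨h, h', e, b⟩, if_neg a]

end Iloc

open Iloc in
/-- [FA.iloc] -/
theorem iloc : ILOC := by
  intro k L _ _ _ _ F v P Q hF hP hQ hne
  have n1 : (ng P).1 = P.1 := rfl
  have n2 : (ng Q).1 = Q.1 := rfl
  have n3 : (ng P).2 = -P.2 := rfl
  have n4 : (ng Q).2 = -Q.2 := rfl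
  rcases lt_or_ge (ord v P.1) 0 with h | h <;> rcases lt_or_ge (ord v Q.1) 0 with h' | h'
  · have p0 := ne_of_ord h
    have q0 := ne_of_ord h'
    have c1 := chart (by rw [hF.deg]; norm_num) hP p0
    have c2 := chart (by rw [hF.deg]; norm_num) hQ q0
    have s := (split (val_inv h) (val_inv h') (refl_der hF) (fun e => hne (inv_injective e))
      c1 c2).2.2
    have e : P.1⁻¹ - Q.1⁻¹ = (Q.1 - P.1) * (P.1⁻¹ * Q.1⁻¹) := by field_simp
    rw [e, ord_mul v (sub_ne_zero.2 hne.symm) (mul_ne_zero (inv_ne_zero p0) (inv_ne_zero q0)),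
      ord_mul v (inv_ne_zero p0) (inv_ne_zero q0), ord_inv, ord_inv, ord_sub_comm Q.1] at s
    rw [ii_inf h h', ii_inf h' h, ii_inf (P := ng P) (Q := ng Q) h h',
      ii_inf (P := P) (Q := ng Q) h h', n1, n2, n3, n4, neg_div, neg_div, sub_neg_eq_add,
      sub_neg_eq_add, neg_add_eq_sub]
    refine ⟨ord_nonneg_of_sub ((root (val_inv h) c1).1.sub (root (val_inv h') c2).1),
      ord_sub_comm _ _, ord_sub_comm _ _, ?_⟩
    omega
  · rw [ii_mix (Or.inl ⟨h, h'⟩), ii_mix (Or.inr ⟨h', h⟩),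
      ii_mix (P := ng P) (Q := ng Q) (Or.inl ⟨h, h'⟩), ii_mix (P := P) (Q := ng Q) (Or.inl ⟨h, h'⟩)]
    have e := (ord_add_of_lt (P := v) (ne_of_ord h) (w := -Q.1)
      (Or.inr (by rw [ord_neg]; omega))).2
    rw [← sub_eq_add_neg] at e
    omega
  · rw [ii_mix (Or.inr ⟨h, h'⟩), ii_mix (Or.inl ⟨h', h⟩),
      ii_mix (P := ng P) (Q := ng Q) (Or.inr ⟨h, h'⟩), ii_mix (P := P) (Q := ng Q) (Or.inr ⟨h, h'⟩)]
    have e := (ord_add_of_lt (P := v) (ne_of_ord h') (w := -P.1)
      (Or.inr (by rw [ord_neg]; omega))).2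
    rw [← sub_eq_add_neg, ord_sub_comm] at e
    omega
  · have a1 := val_vl h
    have a2 := val_vl h'
    obtain ⟨b1, c1⟩ := root a1 hP
    obtain ⟨b2, c2⟩ := root a2 hQ
    have d1 : vl v (ng P).2 = -vl v P.2 := vl_eq b1.neg
    have d2 : vl v (ng Q).2 = -vl v Q.2 := vl_eq b2.neg
    rw [max_eq_left (neg_nonpos.2 h), max_eq_left (neg_nonpos.2 h'), add_zero, add_zero]
    by_cases e : vl v P.1 = vl v Q.1
    · by_cases z : vl v P.2 = 0
      · have z0 : F.eval (vl v P.1) = 0 := by rw [← c1, z, zero_pow two_ne_zero]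
        have z' : vl v Q.2 = 0 := pow_eq_zero_iff two_ne_zero |>.1 (by rw [c2, ← e, z0])
        have s := (split a1 (e ▸ a2) (sep_der hF z0) hne hP hQ).2.2
        rw [ii_bra h h' e z z', ii_bra h' h e.symm z' z,
          ii_bra (P := ng P) (Q := ng Q) h h' e (by rw [d1, z, neg_zero]) (by rw [d2, z', neg_zero]),
          ii_bra (P := P) (Q := ng Q) h h' e z (by rw [d2, z', neg_zero]), n3, n4, sub_neg_eq_add,
          sub_neg_eq_add, neg_add_eq_sub]
        exact ⟨ord_nonneg_of_sub (b1.sub b2), ord_sub_comm _ _, ord_sub_comm _ _, s⟩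
      · have t : vl v P.2 ≠ -vl v P.2 := fun t =>
          z ((mul_eq_zero.1 (by linear_combination t : 2 * vl v P.2 = 0)).resolve_left hF.two)
        rcases sq_eq_sq_iff_eq_or_eq_neg.1 (c1.trans (e ▸ c2.symm)) with w | w
        · rw [ii_eq h h' e z w, ii_eq h' h e.symm (w ▸ z) w.symm,
            ii_eq (P := ng P) (Q := ng Q) h h' e (by rw [d1]; exact neg_ne_zero.2 z)
              (by rw [d1, d2, w]),
            ii_ne (P := P) (Q := ng Q) h (Or.inr (by rw [d2, ← w]; exact t)), add_zero]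
          exact ⟨ord_nonneg_of_sub (a1.sub a2), ord_sub_comm _ _, rfl, rfl⟩
        · have w' : vl v P.2 ≠ vl v Q.2 := fun x => t (by rw [← x] at w; exact w)
          rw [ii_ne h (Or.inr w'), ii_ne h' (Or.inr w'.symm),
            ii_ne (P := ng P) (Q := ng Q) h (Or.inr (by rw [d1, d2]; exact neg_injective.ne w')),
            ii_eq (P := P) (Q := ng Q) h h' e z (by rw [d2]; exact w), zero_add]
          exact ⟨le_rfl, rfl, rfl, rfl⟩
    · rw [ii_ne h (Or.inl e), ii_ne h' (Or.inl (Ne.symm e)),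
        ii_ne (P := ng P) (Q := ng Q) h (Or.inl e), ii_ne (P := P) (Q := ng Q) h (Or.inl e),
        ((a1.sub a2).unit (sub_ne_zero.2 e)).2]
      exact ⟨le_rfl, rfl, rfl, rfl⟩

end Vale.Agent.P027M.FA.Be
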