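import Vale.Agent.P027M.FA.BeDef
import Vale.Agent.P027M.B.Abeld

/-! # P027, route M, row FA.be.inv : principal divisors are in the kernel of the pairing -/

set_option linter.all false

open Polynomial Vale.Agent.P019P P025H492 Vale.Agent.P027M.B

noncomputable section

namespace Vale.Agent.P027M.FA.Be

open scoped Classical

namespace Inv

variable {Om E : Type} [Field Om] [Field E] [Algebra Om E] [CFF Om E] {F : Om[X]} {m w : E}

/-- the sum of `γ` over the affine part of a divisor -/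
def TT (γ : Om × Om → ℚ) (m w : E) : (Plk Om E →₀ ℤ) →+ ℚ :=
  Finsupp.liftAddHom fun P => zmultiplesHom ℚ (if 0 ≤ ord P m then γ (co m w P) else 0)

theorem TT_apply (γ : Om × Om → ℚ) (D : Plk Om E →₀ ℤ) :
    TT γ m w D = ∑ P ∈ D.support with 0 ≤ ord P m, D P * γ (co m w P) := by
  rw [TT, Finsupp.liftAddHom_apply, Finsupp.sum, Finset.sum_filter]
  refine Finset.sum_congr rfl fun P _ => ?_
  split_ifs <;> simp

theorem TT_eq (hP : Pts F m w) (γ : Om × Om → ℚ) {D : Plk Om E →₀ ℤ} {s : Finset (Om × Om)}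
    {n : Om × Om → ℕ} (hs : ∀ p ∈ s, p.2 ^ 2 = F.eval p.1)
    (h : ∀ P : Plk Om E, 0 ≤ ord P m → D P = if co m w P ∈ s then (n (co m w P) : ℤ) else 0) :
    TT γ m w D = ∑ p ∈ s, n p * γ p := by
  rw [TT_apply]
  have hm : ∀ P ∈ D.support.filter fun P => 0 ≤ ord P m, co m w P ∈ s := fun P hP' => by
    obtain ⟨h1, h2⟩ := Finset.mem_filter.1 hP'
    by_contra h3
    exact Finsupp.mem_support_iff.1 h1 (by rw [h P h2, if_neg h3])
  refine Finset.sum_of_injOn (co m w) (fun P h1 Q h2 e => ?_) hm (fun p h1 h2 => ?_)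
    fun P h1 => ?_
  · exact hP.inj P Q (Finset.mem_filter.1 h1).2 (Finset.mem_filter.1 h2).2 (congrArg Prod.fst e)
      (congrArg Prod.snd e)
  · obtain ⟨P, h3, h4, h5⟩ := hP.surj p.1 p.2 (hs p h1)
    have e : co m w P = p := Prod.ext h4 h5
    have h6 : D P = 0 := by
      by_contra h7
      exact h2 ⟨P, Finset.mem_coe.2 (Finset.mem_filter.2 ⟨Finsupp.mem_support_iff.2 h7, h3⟩), e⟩
    rw [h P h3, e, if_pos h1] at h6
    rw [Nat.cast_eq_zero.1 h6, Nat.cast_zero, zero_mul]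
  · rw [h P (Finset.mem_filter.1 h1).2, if_pos (hm P h1), Int.cast_natCast]

theorem TT_congr (hP : Pts F m w) {γ γ' : Om × Om → ℚ} (c : ℚ)
    (h : ∀ p : Om × Om, p.2 ^ 2 = F.eval p.1 → γ p = c * γ' p) (D : Plk Om E →₀ ℤ) :
    TT γ m w D = c * TT γ' m w D := by
  rw [TT_apply, TT_apply, Finset.mul_sum]
  refine Finset.sum_congr rfl fun P h1 => ?_
  rw [h _ (hP.pt P (Finset.mem_filter.1 h1).2).2]
  ring

theorem aeval_sub {P : Plk Om E} (h1 : 0 ≤ ord P m) (c : Om[X]) :
    aeval m c - algebraMap Om E (c.eval (vl P m)) ∈ Mge P 1 := by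
  obtain ⟨q, hq⟩ := X_sub_C_dvd_sub_C_eval (a := vl P m) (p := c)
  have := congrArg (aeval m) hq
  simp only [map_sub, map_mul, aeval_X, aeval_C] at this
  rw [this]
  simpa using mul_mem_Mge (sub_vl_mem h1) (aeval_mem_zero h1 q)

theorem val_sub (hP : Pts F m w) {P : Plk Om E} (h1 : 0 ≤ ord P m) (A B : Om[X]) :
    aeval m A + aeval m B * w -
      algebraMap Om E (A.eval (vl P m) + B.eval (vl P m) * vl P w) ∈ Mge P 1 := by
  have a := mul_mem_Mge (aeval_sub h1 B) (mem_Mge.2 (Or.inr (hP.pt P h1).1))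
  have b := (Mge P 1).smul_mem (B.eval (vl P m)) (sub_vl_mem (hP.pt P h1).1)
  rw [add_zero] at a
  have c := add_mem (add_mem (aeval_sub h1 A) a) b
  rw [Algebra.smul_def] at c
  rw [map_add, map_mul]
  exact (congrArg (· ∈ Mge P 1) (by ring)).mp c

theorem ord_of_val_ne (hP : Pts F m w) {P : Plk Om E} (h1 : 0 ≤ ord P m) {A B : Om[X]}
    (h : A.eval (vl P m) + B.eval (vl P m) * vl P w ≠ 0) :
    ord P (aeval m A + aeval m B * w) = 0 := by
  have := (ord_add_of_lt ((_root_.map_ne_zero (algebraMap Om E)).2 h)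
    (by rw [ord_const]; exact val_sub hP h1 A B)).2
  rwa [add_sub_cancel, ord_const] at this

theorem ord_of_val_eq (hP : Pts F m w) {P : Plk Om E} (h1 : 0 ≤ ord P m) {A B : Om[X]}
    (h0 : aeval m A + aeval m B * w ≠ 0) (h : A.eval (vl P m) + B.eval (vl P m) * vl P w = 0) :
    1 ≤ ord P (aeval m A + aeval m B * w) := by
  have := val_sub hP h1 A B
  rw [h, map_zero, sub_zero] at this
  exact this.resolve_left h0

theorem dv_pow (x : E) (n : ℕ) : dv Om (x ^ n) = n • dv Om x := by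
  ext P
  simp [dv_apply, ord_pow]

/-- the abstract form of the argument -/
theorem main (hH : Hyp F m w) (hP : Pts F m w) (t : (Plk Om E →₀ ℤ) →+ ℚ) {μ s : Om} (hs : s ≠ 0)
    (hr : s ^ 2 = F.eval μ)
    (hz : ∀ A B : Om[X], aeval m A + aeval m B * w ≠ 0 → A.eval μ + B.eval μ * s ≠ 0 →
      A.eval μ + B.eval μ * -s ≠ 0 → t (dv Om (aeval m A + aeval m B * w)) = 0)
    (hg : t (dv Om (aeval m (-C s) + aeval m (1 : Om[X]) * w)) = 0)
    (hg' : t (dv Om (aeval m (-C (-s)) + aeval m (1 : Om[X]) * w)) = 0) {φ : E} (hφ : φ ≠ 0) :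
    t (dv Om φ) = 0 := by
  obtain ⟨R, R1, R2, R3⟩ := hP.surj μ s hr
  obtain ⟨Q, Q1, Q2, Q3⟩ := hP.surj μ (-s) (by rw [neg_sq, hr])
  have h2 : s + s ≠ 0 := by rw [← two_mul]; exact mul_ne_zero hH.two hs
  set g := aeval m (-C s) + aeval m (1 : Om[X]) * w with hgd
  set g' := aeval m (-C (-s)) + aeval m (1 : Om[X]) * w with hgd'
  have g0 : g ≠ 0 := fun h => one_ne_zero (hP.indep _ _ h).2
  have g0' : g' ≠ 0 := fun h => one_ne_zero (hP.indep _ _ h).2
  have gR : 1 ≤ ord R g := ord_of_val_eq hP R1 g0 (by simp [R3])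
  have gQ : ord Q g = 0 := ord_of_val_ne hP Q1 (by
    simpa [Q3] using fun h => h2 (by linear_combination -h))
  have gR' : ord R g' = 0 := ord_of_val_ne hP R1 (by simpa [R3] using h2)
  have hz' : ∀ ψ : E, ψ ≠ 0 → (∀ P : Plk Om E, 0 ≤ ord P m → 0 ≤ ord P ψ) → ord R ψ = 0 →
      ord Q ψ = 0 → t (dv Om ψ) = 0 := by
    intro ψ h0 h1 h3 h4
    obtain ⟨A, B, rfl⟩ := hP.reg ψ h1
    refine hz A B h0 (fun h => ?_) fun h => ?_
    · have := ord_of_val_eq hP R1 h0 (by rwa [R2, R3])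
      omega
    · have := ord_of_val_eq hP Q1 h0 (by rwa [Q2, Q3])
      omega
  have hgg : g * g' = aeval m (F - C (s ^ 2)) := by
    rw [hgd, hgd', map_sub, ← hH.sq]
    simp only [map_neg, aeval_C, map_one, map_pow]
    ring
  have hG : F - C (s ^ 2) ≠ 0 := fun h => mul_ne_zero g0 g0' (by rw [hgg, h, map_zero])
  have eR := Abeld.ord_aeval hH hP R1 (by rwa [R3]) hG
  have eQ := Abeld.ord_aeval hH hP Q1 (by rw [Q3]; exact neg_ne_zero.2 hs) hG
  rw [← hgg, ord_mul _ g0 g0'] at eR eQ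
  rw [R2, gR', add_zero] at eR
  rw [Q2, gQ, zero_add] at eQ
  set e := rootMultiplicity μ (F - C (s ^ 2)) with he
  set u : E := aeval m (X - C μ) with hu
  have u0 : u ≠ 0 := Abeld.aeval_ne hH (X_sub_C_ne_zero μ)
  have uR : ord R u = 1 := by
    rw [hu, Abeld.ord_aeval hH hP R1 (by rwa [R3]) (X_sub_C_ne_zero μ), R2,
      rootMultiplicity_X_sub_C_self, Nat.cast_one]
  have uQ : ord Q u = 1 := by
    rw [hu, Abeld.ord_aeval hH hP Q1 (by rw [Q3]; exact neg_ne_zero.2 hs) (X_sub_C_ne_zero μ), Q2,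
      rootMultiplicity_X_sub_C_self, Nat.cast_one]
  have uP : ∀ P : Plk Om E, 0 ≤ ord P m → P ≠ R → P ≠ Q → ord P u = 0 := fun P h1 h3 h4 =>
    Abeld.ord_of_eval_ne h1 fun h => by
      have h5 : vl P m = μ := by simpa [sub_eq_zero] using h
      have h6 := (hP.pt P h1).2
      rw [h5, ← hr] at h6
      rcases sq_eq_sq_iff_eq_or_eq_neg.1 h6 with h | h
      · exact h3 (hP.inj P R h1 R1 (h5.trans R2.symm) (h.trans R3.symm))
      · exact h4 (hP.inj P Q h1 Q1 (h5.trans Q2.symm) (h.trans Q3.symm))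
  -- division by a power of `u`
  have hdiv : ∀ (ψ : E) (N : ℕ), ψ ≠ 0 → (∀ P : Plk Om E, 0 ≤ ord P m → 0 ≤ ord P ψ) →
      ord R ψ = N → ord Q ψ = N → t (dv Om ψ) = N * t (dv Om u) := by
    intro ψ N h0 h1 h3 h4
    have i0 : (u ^ N)⁻¹ ≠ 0 := inv_ne_zero (pow_ne_zero _ u0)
    have o : ∀ P : Plk Om E, ord P (ψ * (u ^ N)⁻¹) = ord P ψ - N * ord P u := fun P => by
      rw [ord_mul _ h0 i0, ord_inv, ord_pow, sub_eq_add_neg]
    have := hz' (ψ * (u ^ N)⁻¹) (mul_ne_zero h0 i0) (fun P h5 => by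
      rw [o]
      by_cases h6 : P = R
      · rw [h6, h3, uR]; omega
      by_cases h7 : P = Q
      · rw [h7, h4, uQ]; omega
      rw [uP P h5 h6 h7, mul_zero, sub_zero]
      exact h1 P h5) (by rw [o, h3, uR]; omega) (by rw [o, h4, uQ]; omega)
    rw [dv_mul h0 i0, dv_inv, dv_pow, map_add, map_neg, map_nsmul, nsmul_eq_mul] at this
    linarith
  have reg : ∀ A B : Om[X], aeval m A + aeval m B * w ≠ 0 → ∀ P : Plk Om E, 0 ≤ ord P m →
      0 ≤ ord P (aeval m A + aeval m B * w) := fun A B h P h1 =>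
    (Abeld.mem0 hP h1 A B).resolve_left h
  have e0 : (e : ℚ) ≠ 0 := Nat.cast_ne_zero.2 (by omega)
  have tu : t (dv Om u) = 0 := by
    have := hdiv (g * g') e (mul_ne_zero g0 g0') (fun P h1 => by
      rw [ord_mul _ g0 g0']; exact add_nonneg (reg _ _ g0 P h1) (reg _ _ g0' P h1))
      (by rw [ord_mul _ g0 g0', eR, gR', add_zero]) (by rw [ord_mul _ g0 g0', eQ, gQ, zero_add])
    rw [dv_mul g0 g0', map_add, hg, hg', add_zero] at this
    exact (mul_eq_zero.1 this.symm).resolve_left e0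
  have all : ∀ A B : Om[X], aeval m A + aeval m B * w ≠ 0 →
      t (dv Om (aeval m A + aeval m B * w)) = 0 := by
    intro A B h0
    obtain ⟨a, ha⟩ := Int.eq_ofNat_of_zero_le (reg A B h0 R R1)
    obtain ⟨b, hb⟩ := Int.eq_ofNat_of_zero_le (reg A B h0 Q Q1)
    have r0 := reg A B h0
    generalize aeval m A + aeval m B * w = ψ at h0 ha hb r0
    have n1 := pow_ne_zero e h0
    have n2 := pow_ne_zero a g0'
    have n3 := pow_ne_zero b g0
    have o : ∀ P : Plk Om E, ord P (ψ ^ e * g' ^ a * g ^ b) =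
        e * ord P ψ + a * ord P g' + b * ord P g := fun P => by
      rw [ord_mul _ (mul_ne_zero n1 n2) n3, ord_mul _ n1 n2, ord_pow, ord_pow, ord_pow]
    have := hdiv (ψ ^ e * g' ^ a * g ^ b) (e * (a + b)) (mul_ne_zero (mul_ne_zero n1 n2) n3)
      (fun P h1 => by
        have := r0 P h1
        have := reg _ _ g0 P h1
        have := reg _ _ g0' P h1
        rw [o]
        positivity)
      (by rw [o, ha, gR', eR]; push_cast; ring) (by rw [o, hb, gQ, eQ]; push_cast; ring)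
    rw [dv_mul (mul_ne_zero n1 n2) n3, dv_mul n1 n2, dv_pow, dv_pow, dv_pow, map_add, map_add,
      map_nsmul, map_nsmul, map_nsmul, hg, hg', tu, smul_zero, smul_zero, add_zero, add_zero,
      mul_zero, nsmul_eq_mul] at this
    exact (mul_eq_zero.1 this).resolve_left e0
  obtain ⟨a, b, c, hc, h⟩ := hH.top φ
  have c0 := Abeld.aeval_ne hH hc
  have h1 := all a b (h ▸ mul_ne_zero c0 hφ)
  have h3 := all c 0 (by simpa using c0)
  rw [map_zero, zero_mul, add_zero] at h3
  rwa [← h, dv_mul c0 hφ, map_add, h3, zero_add] at h1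

end Inv

theorem inv (hZ : ZER) : INV := by
  intro k K Om E _ _ _ _ _ _ _ _ F m w β η hH hP hB φ hφ
  have on : ∀ p : Om × Om, p.2 ^ 2 = (F.map (algebraMap k Om)).eval p.1 ↔ On F p := fun p => by
    rw [On, eval_map_algebraMap]
  have gg : ∀ r : Om × Om, On F r → Inv.TT (β · r) m w
      (dv Om (aeval m (-C r.2) + aeval m (1 : Om[X]) * w)) = 0 := by
    intro r hr
    obtain ⟨s, n, h1, h2⟩ := hZ Om E _ m w (-C r.2) 1 hH hP fun h => one_ne_zero (hP.indep _ _ h).2
    obtain ⟨c, -, hc⟩ := h1.nrm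
    rw [Inv.TT_eq hP _ h1.on fun P h => by rw [dv_apply, h2 P h]]
    refine hB.gg s n (-c) r hr (fun p hp => ⟨(on p).1 (h1.on p hp), ?_⟩) ?_
    · have := h1.val p hp
      simp only [eval_neg, eval_C, eval_one, one_mul] at this
      linear_combination this
    · rw [map_neg, map_pow]
      linear_combination -hc
  have key : ∀ r : Om × Om, On F r → Inv.TT (β · r) m w (dv Om φ) = 0 := by
    intro r hr
    have odd := Inv.TT_congr hP (γ := (β · (ng r))) (γ' := (β · r)) (-1) fun p hp => by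
      rw [neg_one_mul]; exact hB.odd p r ((on p).1 hp) hr
    by_cases h0 : r.2 = 0
    · have e : ng r = r := Prod.ext rfl (by simp [ng, h0])
      have := odd (dv Om φ)
      rw [e] at this
      linarith
    refine Inv.main hH hP _ h0 ((on r).2 hr) (fun A B h1 h2 h3 => ?_) (gg r hr) ?_ hφ
    · obtain ⟨s, n, h4, h5⟩ := hZ Om E _ m w A B hH hP h1
      rw [Inv.TT_eq hP _ h4.on fun P h => by rw [dv_apply, h5 P h]]
      refine hB.zer A B s n r h4 hr fun p hp e => ?_
      have h6 := h4.on p hp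
      have h7 := h4.val p hp
      rw [e, ← (on r).2 hr] at h6
      rw [e] at h7
      rcases sq_eq_sq_iff_eq_or_eq_neg.1 h6 with h | h
      · exact h2 (h ▸ h7)
      · exact h3 (h ▸ h7)
    · have h1 := gg (ng r) (by simpa [On, ng] using hr)
      rw [odd] at h1
      simpa [ng] using h1
  refine Finsupp.addHom_ext' fun Q => AddMonoidHom.ext_int ?_
  have e : ∀ D, bb β m w D (Finsupp.single Q 1) =
      if 0 ≤ ord Q m then Inv.TT (β · (co m w Q)) m w D else 0 := fun D => by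
    induction D using Finsupp.induction_linear with
    | zero => simp
    | add f g hf hg =>
      rw [map_add, AddMonoidHom.add_apply, hf, hg, map_add]
      split_ifs <;> simp
    | single P n =>
      by_cases h1 : 0 ≤ ord P m <;> by_cases h2 : 0 ≤ ord Q m <;> simp [bb, Inv.TT, b0, h1, h2]
  show bb β m w (dv Om φ) (Finsupp.single Q 1) = 0
  rw [e]
  split_ifs with h
  · exact key _ ((on _).1 (hP.pt Q h).2)
  · rfl

end Vale.Agent.P027M.FA.Be
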