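import Vale.Agent.P027M.FA.BeDef

/-! # P027, route M, block FAITH : the local lower bounds -/

set_option linter.all false

open Polynomial Vale.Agent.P019P P025H492 IsLocalRing

noncomputable section

namespace Vale.Agent.P027M.FA.Be

namespace LbP

section ring

variable {R : Type} [CommRing R]

/-- the value at a point of the plane -/
def ev (g : R[X][X]) (p : R × R) : R := (g.map (evalRingHom p.1)).eval p.2

theorem ev_eval (g : R[X][X]) (V : R[X]) (x : R) : (g.eval V).eval x = ev g (x, V.eval x) := by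
  rw [ev, eval_map]
  exact (eval₂_hom (evalRingHom x) V).symm

theorem ev_sub (g : R[X][X]) (I : Ideal R) {p q : R × R} (h1 : p.1 - q.1 ∈ I)
    (h2 : p.2 - q.2 ∈ I) : ev g p - ev g q ∈ I := by
  have e : ∀ x y : R, ev g (x, y) = (g.eval (C y)).eval x := fun x y => by
    rw [ev_eval, eval_C]
  have a1 : ev g (p.1, p.2) - ev g (q.1, p.2) ∈ I := by
    rw [e, e]
    exact I.mem_of_dvd (sub_dvd_eval_sub _ _ _) h1
  have a2 : ev g (q.1, p.2) - ev g (q.1, q.2) ∈ I :=
    I.mem_of_dvd (sub_dvd_eval_sub p.2 q.2 (g.map (evalRingHom q.1))) h2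
  have := I.add_mem a1 a2
  rwa [sub_add_sub_cancel] at this

variable [IsLocalRing R]

theorem unit_add {u z : R} (hu : IsUnit u) (hz : z ∈ maximalIdeal R) : IsUnit (u + z) := by
  by_contra h
  have h1 := (maximalIdeal R).sub_mem ((mem_maximalIdeal _).2 h) hz
  rw [add_sub_cancel_right] at h1
  exact (mem_maximalIdeal _).1 h1 hu

variable [IsDomain R]

theorem step {f : R[X][X]} {p0 p : R × R} (hu : IsUnit (ev f.derivative p0)) (hp : ev f p = 0)
    (h1 : p.1 - p0.1 ∈ maximalIdeal R) (h2 : p.2 - p0.2 ∈ maximalIdeal R) {U V : R[X]}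
    (hU : U ∣ f.eval V) (hV : V.eval p0.1 = p0.2) :
    ∃ c : R, (X - C p.1) * U ∣ f.eval (V + C c * U) ∧ (V + C c * U).eval p.1 = p.2 := by
  obtain ⟨W, hW⟩ := hU
  have h3 : V.eval p.1 - p0.2 ∈ maximalIdeal R := by
    rw [← hV]
    exact Ideal.mem_of_dvd _ (sub_dvd_eval_sub _ _ _) h1
  have h4 : p.2 - V.eval p.1 ∈ maximalIdeal R := by
    have := Ideal.sub_mem _ h2 h3
    rwa [sub_sub_sub_cancel_right] at this
  have h5 : IsUnit (ev f.derivative (p.1, V.eval p.1)) := by
    have := unit_add hu (ev_sub f.derivative _ (p := (p.1, V.eval p.1)) (q := p0) h1 h3)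
    rwa [add_sub_cancel] at this
  obtain ⟨κ, hκ⟩ := binomExpansion (f.map (evalRingHom p.1)) (V.eval p.1) (p.2 - V.eval p.1)
  rw [add_sub_cancel, derivative_map] at hκ
  have h6 : U.eval p.1 * W.eval p.1 +
      (ev f.derivative (p.1, V.eval p.1) + κ * (p.2 - V.eval p.1)) * (p.2 - V.eval p.1) = 0 := by
    have e1 : ev f (p.1, V.eval p.1) = U.eval p.1 * W.eval p.1 := by
      rw [← ev_eval, hW, eval_mul]
    have e2 : ev f p = ev f (p.1, V.eval p.1) +
      ev f.derivative (p.1, V.eval p.1) * (p.2 - V.eval p.1) + κ * (p.2 - V.eval p.1) ^ 2 := hκ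
    rw [hp, e1] at e2
    linear_combination -e2
  obtain ⟨d, hd⟩ := unit_add h5 (Ideal.mul_mem_left _ κ h4)
  rw [← hd] at h6
  have h7 : V.eval p.1 + -W.eval p.1 * (d⁻¹ : Rˣ) * U.eval p.1 = p.2 := by
    have := d.mul_inv
    linear_combination (-(d⁻¹ : Rˣ) : R) * h6 + (p.2 - V.eval p.1) * this
  have h8 : (V + C (-W.eval p.1 * (d⁻¹ : Rˣ)) * U).eval p.1 = p.2 := by
    rw [eval_add, eval_mul, eval_C, h7]
  refine ⟨_, ?_, h8⟩
  have h9 : (f.eval (V + C (-W.eval p.1 * (d⁻¹ : Rˣ)) * U)).eval p.1 = 0 := by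
    rw [ev_eval, h8, hp]
  obtain ⟨E, hE⟩ := binomExpansion f V (C (-W.eval p.1 * (d⁻¹ : Rˣ)) * U)
  generalize hc : -W.eval p.1 * (d⁻¹ : Rˣ) = c at hE h7 h9
  have e3 : f.eval (V + C c * U) = (W + C c * (f.derivative.eval V + E * C c * U)) * U := by
    rw [hE, hW]; ring
  rw [e3] at h9 ⊢
  refine mul_dvd_mul_right (dvd_iff_isRoot.2 ?_) U
  rw [eval_mul, mul_eq_zero] at h9
  by_cases h0 : U.eval p.1 = 0
  · rw [h0, mul_zero, add_zero] at h7
    rw [← h7, sub_self, mul_zero, add_zero] at hd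
    rw [IsRoot, eval_add, eval_mul, eval_add, eval_mul, h0, mul_zero, add_zero, eval_C, ev_eval,
      ← hd, ← hc]
    have := d.inv_mul
    linear_combination (-W.eval p.1) * this
  · exact h9.resolve_right h0

theorem hens {f : R[X][X]} {p0 : R × R} (hu : IsUnit (ev f.derivative p0)) (h0 : ev f p0 = 0)
    (l : Multiset (R × R)) (hl : ∀ p ∈ l, ev f p = 0 ∧ p.1 - p0.1 ∈ maximalIdeal R ∧
      p.2 - p0.2 ∈ maximalIdeal R) :
    ∃ V : R[X], (l.map fun p => X - C p.1).prod * (X - C p0.1) ∣ f.eval V ∧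
      V.eval p0.1 = p0.2 ∧ ∀ p ∈ l, V.eval p.1 = p.2 := by
  induction l using Multiset.induction_on with
  | empty =>
    refine ⟨C p0.2, ?_, eval_C, by simp⟩
    rw [Multiset.map_zero, Multiset.prod_zero, one_mul, dvd_iff_isRoot, IsRoot, ev_eval, eval_C]
    exact h0
  | cons p l ih =>
    obtain ⟨V, a1, a2, a3⟩ := ih fun q hq => hl q (Multiset.mem_cons_of_mem hq)
    obtain ⟨b1, b2, b3⟩ := hl p (Multiset.mem_cons_self _ _)
    obtain ⟨c, c1, c2⟩ := step hu b1 b2 b3 a1 a2
    refine ⟨_, by rwa [Multiset.map_cons, Multiset.prod_cons, mul_assoc], by simp [a2], ?_⟩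
    intro q hq
    rcases Multiset.mem_cons.1 hq with rfl | hq
    · exact c2
    · have : ((l.map fun p : R × R => X - C p.1).prod).eval q.1 = 0 :=
        dvd_iff_isRoot.1 (Multiset.dvd_prod
          (Multiset.mem_map_of_mem (fun p : R × R => X - C p.1) hq))
      rw [eval_add, eval_mul, eval_mul, this, zero_mul, mul_zero, add_zero, a3 q hq]

theorem gen {L ι : Type} [Field L] [Fintype ι] (φ : R →+* L) (hφ : Function.Injective φ)
    {f H : R[X][X]} {p0 : R × R} (hu : IsUnit (ev f.derivative p0)) (h0 : ev f p0 = 0)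
    (p : ι → R × R) (hinj : Function.Injective p) (n : ι → ℕ)
    (hp : ∀ i, ev f (p i) = 0 ∧ (p i).1 - p0.1 ∈ maximalIdeal R ∧ (p i).2 - p0.2 ∈ maximalIdeal R)
    (hv : ∀ i (V : R[X]), (X - C (p i).1) ^ n i ∣ f.eval V → V.eval (p i).1 = (p i).2 →
      (X - C (φ (p i).1)) ^ n i ∣ (H.eval V).map φ) :
    ∏ i, (p0.1 - (p i).1) ^ n i ∣ ev H p0 := by
  classical
  obtain ⟨V, a1, a2, a3⟩ := hens hu h0 (∑ i, n i • {p i}) (by
    intro q hq
    obtain ⟨i, -, hi⟩ := Multiset.mem_sum.1 hq
    rw [Multiset.mem_singleton.1 (Multiset.mem_of_mem_nsmul hi)]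
    exact hp i)
  have e : ((∑ i, n i • ({p i} : Multiset (R × R))).map fun p => X - C p.1).prod =
      ∏ i, (X - C (p i).1) ^ n i := by
    generalize (Finset.univ : Finset ι) = t
    induction t using Finset.induction_on with
    | empty => simp
    | insert a t ha ih =>
      rw [Finset.sum_insert ha, Finset.prod_insert ha, Multiset.map_add, Multiset.prod_add, ih,
        Multiset.map_nsmul, Multiset.prod_nsmul, Multiset.map_singleton, Multiset.prod_singleton]
  rw [e] at a1
  have a4 : ∀ i, n i ≠ 0 → V.eval (p i).1 = (p i).2 := fun i hi =>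
    a3 _ (Multiset.mem_sum.2 ⟨i, Finset.mem_univ _,
      (Multiset.mem_nsmul_of_ne_zero hi).2 (Multiset.mem_singleton_self _)⟩)
  have a5 : ∏ i, (X - C (φ (p i).1)) ^ n i ∣ (H.eval V).map φ := by
    refine Finset.prod_dvd_of_coprime (fun i _ j _ hij => ?_) fun i _ => ?_
    · by_cases hi : n i = 0
      · simp only [Function.onFun, hi, pow_zero]
        exact isCoprime_one_left
      by_cases hj : n j = 0
      · simp only [Function.onFun, hj, pow_zero]
        exact isCoprime_one_right
      refine IsCoprime.pow (isCoprime_X_sub_C_of_isUnit_sub (sub_ne_zero.2 fun h => ?_).isUnit)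
      have h1 := hφ h
      exact hij (hinj (Prod.ext h1 (by rw [← a4 i hi, ← a4 j hj, h1])))
    · by_cases hi : n i = 0
      · rw [hi, pow_zero]; exact one_dvd _
      have h1 := Finset.dvd_prod_of_mem (fun i => (X - C (p i).1) ^ n i) (Finset.mem_univ i)
      exact hv i V ((h1.mul_right _).trans a1) (a4 i hi)
  have a6 : ∏ i, (X - C (p i).1) ^ n i ∣ H.eval V := by
    rw [← map_dvd_map φ hφ (monic_prod_of_monic _ _ fun i _ => (monic_X_sub_C _).pow _)]
    simpa only [Polynomial.map_prod, Polynomial.map_pow, Polynomial.map_sub, map_X, map_C] using a5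
  have a7 := eval_dvd (x := p0.1) a6
  rw [ev_eval, a2] at a7
  simpa only [eval_prod, eval_pow, eval_sub, eval_X, eval_C] using a7

end ring

variable {k L : Type} [Field k] [Field L] [Algebra k L] [CFF k L] {v : Plk k L}

theorem mem0 {z : L} (h : z ∈ Mge v 0) : z ∈ v.1 := (mem_iff_ord v z).2 h

theorem mem1 {z : v.1} (h : (z : L) ∈ Mge v 1) : z ∈ maximalIdeal v.1 := by
  rw [mem_maximalIdeal]
  rintro ⟨u, rfl⟩
  have h1 := mul_mem_Mge h ((mem_iff_ord v _).1 (u⁻¹ : v.1ˣ).1.2 : _ ∈ Mge v 0)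
  have h2 : ((u : v.1) : L) * ((u⁻¹ : v.1ˣ) : v.1) = 1 := congrArg Subtype.val u.mul_inv
  rw [h2, mem_Mge, ord_one] at h1
  rcases h1 with h1 | h1
  · exact one_ne_zero h1
  · omega

theorem near {z : L} {a : k} (h : z - algebraMap k L a ∈ Mge v 1) : z ∈ v.1 := by
  have := v.1.add_mem _ _ (mem0 (Mge_mono v zero_le_one h)) (v.2.1 a)
  rwa [sub_add_cancel] at this

theorem close {z w : v.1} {a : k} (h : (z : L) - algebraMap k L a ∈ Mge v 1)
    (h' : (w : L) - algebraMap k L a ∈ Mge v 1) : z - w ∈ maximalIdeal v.1 := by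
  refine mem1 ?_
  have := (Mge v 1).sub_mem h h'
  rwa [sub_sub_sub_cancel_right] at this

/-- the constants -/
def cst (v : Plk k L) : k →+* v.1 := (algebraMap k L).codRestrict v.1 v.2.1

theorem lift {A : L[X]} (h : Itg v A) : ∃ A' : v.1[X], A'.map v.1.subtype = A :=
  (mem_lifts A).1 ((lifts_iff_coeff_lifts A).2 fun i => ⟨⟨_, mem0 (h i)⟩, rfl⟩)

theorem cst_map (F : k[X]) : (F.map (cst v)).map v.1.subtype = F.map (algebraMap k L) := by
  rw [Polynomial.map_map]; rfl

theorem ev_coe (G : v.1[X]) (x : v.1) : ((G.eval x : v.1) : L) = (G.map v.1.subtype).eval (x : L) :=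
  by rw [eval_map]; exact (eval₂_hom v.1.subtype x).symm

theorem fin {s : Finset (L × L)} {n : L × L → ℕ} {z : s → v.1} {g : L × L → L} {y : v.1}
    (hz : ∀ i, (z i : L) = g i) (h : ∏ i, z i ^ n i ∣ y) :
    (y : L) ∈ Mge v (∑ p ∈ s, n p * ord v (g p)) := by
  obtain ⟨r, rfl⟩ := h
  have h1 : ∀ (t : Finset (L × L)), ∏ p ∈ t, g p ^ n p ∈ Mge v (∑ p ∈ t, n p * ord v (g p)) := by
    intro t
    classical
    induction t using Finset.induction_on with
    | empty => exact Or.inr (by simp [ord_one])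
    | insert a t ha ih =>
      rw [Finset.prod_insert ha, Finset.sum_insert ha]
      refine mul_mem_Mge ?_ ih
      generalize n a = m
      induction m with
      | zero => exact Or.inr (by simp [ord_one])
      | succ m ih =>
        rw [pow_succ, Nat.cast_succ, add_mul, one_mul]
        exact mul_mem_Mge ih (Or.inr le_rfl)
  have h2 := mul_mem_Mge (h1 s) ((mem_iff_ord v _).1 r.2 : _ ∈ Mge v 0)
  rw [add_zero, ← Finset.prod_coe_sort] at h2
  have e : (((∏ i, z i ^ n i) * r : v.1) : L) = (∏ i : s, g i ^ n i) * r := by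
    refine (map_mul v.1.subtype _ _).trans ?_
    rw [map_prod]
    simp only [map_pow, ValuationSubring.coe_subtype, hz]
  rw [e]
  exact h2

end LbP

open LbP

theorem lba : LBa := by
  intro k L _ _ _ _ F v A B s n a b R h2 hb hA hB hR hD hs
  obtain ⟨A', rfl⟩ := lift hA
  obtain ⟨B', rfl⟩ := lift hB
  let pt : ∀ q : L × L, Dsc v a b q → v.1 × v.1 := fun q h => (⟨q.1, near h.1⟩, ⟨q.2, near h.2⟩)
  have hon : ∀ q h, On F q → ev (X ^ 2 - C (F.map (cst v))) (pt q h) = 0 := by
    intro q h hq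
    apply Subtype.ext
    simp only [ev, Polynomial.map_sub, Polynomial.map_pow, map_X, map_C, eval_sub, eval_pow, eval_X,
      eval_C, coe_evalRingHom]
    refine (map_sub v.1.subtype _ _).trans ?_
    rw [map_pow]
    refine sub_eq_zero.2 (hq.trans ?_)
    rw [ValuationSubring.coe_subtype, ev_coe, cst_map, eval_map_algebraMap]
  have h := gen v.1.subtype Subtype.val_injective (f := X ^ 2 - C (F.map (cst v)))
    (H := C A' + C B' * X) (p0 := pt R hD) (by
      have e : ev (derivative (X ^ 2 - C (F.map (cst v)))) (pt R hD) =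
          cst v (2 * b) + 2 * ((pt R hD).2 - cst v b) := by
        simp [ev, map_ofNat]
        ring
      rw [e]
      exact unit_add ((mul_ne_zero h2 hb).isUnit.map _) (Ideal.mul_mem_left _ _ (mem1 hD.2)))
    (hon R hD hR) (fun i : s => pt i (hs i i.2).2.1)
    (fun i j hij => Subtype.ext (Prod.ext (congrArg (fun z => (z.1 : L)) hij)
      (congrArg (fun z => (z.2 : L)) hij))) (fun i => n i)
    (fun i => ⟨hon _ (hs i i.2).2.1 (hs i i.2).1,
      close (hs i i.2).2.1.1 hD.1, close (hs i i.2).2.1.2 hD.2⟩)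
    (fun i V h1 h3 => by
      have h4 := (hs i i.2).2.2.2 (V.map v.1.subtype) (by
        have := map_dvd v.1.subtype h1
        simp only [Polynomial.map_pow, Polynomial.map_sub, map_X, map_C, eval_sub, eval_pow,
          eval_X, eval_C, cst_map] at this
        exact this) (by
        have := ev_coe V (pt i (hs i i.2).2.1).1
        rw [h3] at this
        exact this.symm)
      simp only [eval_add, eval_mul, eval_C, eval_X, Polynomial.map_add, Polynomial.map_mul]
      exact h4)
  have h5 := fin (g := fun p => R.1 - p.1) (fun i => rfl) h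
  have e : ((ev (C A' + C B' * X) (pt R hD) : v.1) : L) =
      (A'.map v.1.subtype).eval R.1 + (B'.map v.1.subtype).eval R.1 * R.2 := by
    simp only [ev, Polynomial.map_add, Polynomial.map_mul, map_X, map_C, eval_add, eval_mul, eval_X,
      eval_C, coe_evalRingHom]
    rw [← ev_coe A' (pt R hD).1, ← ev_coe B' (pt R hD).1]
    rfl
  rwa [e] at h5

theorem lbb : LBb := by
  intro k L _ _ _ _ F v A B s n a b R ha hA hB hR hD hs
  obtain ⟨A', rfl⟩ := lift hA
  obtain ⟨B', rfl⟩ := lift hB
  let pt : ∀ q : L × L, Dsc v a b q → v.1 × v.1 := fun q h => (⟨q.2, near h.2⟩, ⟨q.1, near h.1⟩)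
  have hev : ∀ (G : v.1[X]) (q : v.1 × v.1), ev (G.map C) q = G.eval q.2 := by
    intro G q
    rw [ev, Polynomial.map_map]
    have : (evalRingHom q.1).comp C = RingHom.id v.1 := RingHom.ext fun x => eval_C
    rw [this, Polynomial.map_id]
  have hcomp : ∀ G V : v.1[X], (G.map C).eval V = G.comp V := fun G V => eval_map _ _
  have hon : ∀ q h, On F q → ev ((F.map (cst v)).map C - C (X ^ 2)) (pt q h) = 0 := by
    intro q h hq
    have e : ev ((F.map (cst v)).map C - C (X ^ 2)) (pt q h) =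
        ev ((F.map (cst v)).map C) (pt q h) - (pt q h).1 ^ 2 := by
      simp [ev]
    rw [e, hev]
    apply Subtype.ext
    refine (map_sub v.1.subtype _ _).trans ?_
    rw [map_pow]
    refine sub_eq_zero.2 (Eq.trans ?_ hq.symm)
    rw [ValuationSubring.coe_subtype, ev_coe, cst_map, eval_map_algebraMap]
  have h := gen v.1.subtype Subtype.val_injective (f := (F.map (cst v)).map C - C (X ^ 2))
    (H := A'.map C + B'.map C * C X) (p0 := pt R hD) (by
      rw [derivative_sub, derivative_C, sub_zero, derivative_map, hev, derivative_map]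
      have h1 : IsUnit ((F.derivative.map (cst v)).eval (cst v a)) := by
        rw [eval_map, eval₂_hom]
        exact ha.isUnit.map _
      have h2 := unit_add h1 (Ideal.mem_of_dvd _
        (sub_dvd_eval_sub (pt R hD).2 (cst v a) (F.derivative.map (cst v))) (mem1 hD.1))
      rwa [add_sub_cancel] at h2)
    (hon R hD hR) (fun i : s => pt i (hs i i.2).2.1)
    (fun i j hij => Subtype.ext (Prod.ext (congrArg (fun z => (z.2 : L)) hij)
      (congrArg (fun z => (z.1 : L)) hij))) (fun i => n i)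
    (fun i => ⟨hon _ (hs i i.2).2.1 (hs i i.2).1,
      close (hs i i.2).2.1.2 hD.2, close (hs i i.2).2.1.1 hD.1⟩)
    (fun i V h1 h3 => by
      have h4 := (hs i i.2).2.2.2 (V.map v.1.subtype) (by
        have := map_dvd v.1.subtype h1
        rw [eval_sub, hcomp, eval_C, Polynomial.map_sub, map_comp, cst_map] at this
        simp only [Polynomial.map_pow, Polynomial.map_sub, map_X, map_C] at this
        exact this) (by
        have := ev_coe V (pt i (hs i i.2).2.1).1
        rw [h3] at this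
        exact this.symm)
      rw [eval_add, eval_mul, hcomp, hcomp, eval_C, Polynomial.map_add, Polynomial.map_mul,
        map_comp, map_comp, map_X]
      exact h4)
  have h5 := fin (g := fun p => R.2 - p.2) (fun i => rfl) h
  have e : ((ev (A'.map C + B'.map C * C X) (pt R hD) : v.1) : L) =
      (A'.map v.1.subtype).eval R.1 + (B'.map v.1.subtype).eval R.1 * R.2 := by
    have e1 : ev (A'.map C + B'.map C * C X) (pt R hD) =
        ev (A'.map C) (pt R hD) + ev (B'.map C) (pt R hD) * (pt R hD).1 := by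
      simp [ev]
    rw [e1, hev, hev, ← ev_coe A' (pt R hD).2, ← ev_coe B' (pt R hD).2]
    rfl
  rwa [e] at h5

end Vale.Agent.P027M.FA.Be
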