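import Vale.Agent.P027M.FA.BeDef

/-! # P027, route M, block FAITH : the local identity -/

set_option linter.all false

open Polynomial Vale.Agent.P019P P025H492 Vale.Agent.P027M.B

noncomputable section

namespace Vale.Agent.P027M.FA.Be

open scoped Classical

namespace Loc

section poly

variable {L : Type*} [Field L]

theorem reflect_pow {f : L[X]} {N : ℕ} (h : f.natDegree ≤ N) (m : ℕ) :
    reflect (m * N) (f ^ m) = reflect N f ^ m := by
  induction m with
  | zero => simp
  | succ m ih =>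
    rw [Nat.succ_mul, pow_succ, pow_succ, reflect_mul _ _ (natDegree_pow_le_of_le m h) h, ih]

theorem reflect_lin (a : L) : reflect 1 (X - C a) = 1 - C a * X := by
  rw [reflect_sub, reflect_one_X, reflect_C, pow_one]

theorem reflect_prod {ι : Type*} (s : Finset ι) (a : ι → L) (n : ι → ℕ) :
    (∏ p ∈ s, (X - C (a p)) ^ n p).natDegree ≤ ∑ p ∈ s, n p ∧
    reflect (∑ p ∈ s, n p) (∏ p ∈ s, (X - C (a p)) ^ n p) = ∏ p ∈ s, (1 - C (a p) * X) ^ n p := by
  induction s using Finset.induction_on with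
  | empty => simp
  | insert p s hp ih =>
    have h1 : (X - C (a p)).natDegree ≤ 1 := (natDegree_X_sub_C _).le
    have h2 : ((X - C (a p)) ^ n p).natDegree ≤ n p := by
      simpa using natDegree_pow_le_of_le (n p) h1
    have h3 := reflect_pow h1 (n p)
    rw [mul_one, reflect_lin] at h3
    rw [Finset.prod_insert hp, Finset.sum_insert hp, Finset.prod_insert hp]
    exact ⟨natDegree_mul_le.trans (add_le_add h2 ih.1), by rw [reflect_mul _ _ h2 ih.1, h3, ih.2]⟩

theorem eval_reflect {f : L[X]} {N : ℕ} (h : f.natDegree ≤ N) {x : L} (hx : x ≠ 0) :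
    (reflect N f).eval x⁻¹ * x ^ N = f.eval x := by
  let _ := invertibleOfNonzero hx
  have := eval₂_reflect_mul_pow (RingHom.id L) x N f h
  rwa [invOf_eq_inv, eval₂_id, eval₂_id] at this

/-- the change of chart -/
def ch (p : L × L) : L × L := (p.1⁻¹, p.2 / p.1 ^ 4)

theorem ch_ch {p : L × L} (h : p.1 ≠ 0) : ch (ch p) = p := by
  ext
  · simp [ch]
  · simp only [ch]
    field_simp

theorem nrm_inf {F A B : L[X]} {s : Finset (L × L)} {n : L × L → ℕ} {c : L} {d e : ℕ}
    (hF : F.natDegree ≤ 8) (hA : A.natDegree ≤ d + 4) (hB : B.natDegree ≤ d)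
    (he : ∑ p ∈ s, n p + e = 2 * d + 8)
    (h : A ^ 2 - B ^ 2 * F = C c * ∏ p ∈ s, (X - C p.1) ^ n p) :
    reflect (d + 4) A ^ 2 - reflect d B ^ 2 * reflect 8 F =
      C (c * ∏ p ∈ s with p.1 ≠ 0, (-p.1) ^ n p) *
        (X ^ e * ∏ p ∈ s with p.1 ≠ 0, (X - C p.1⁻¹) ^ n p) := by
  have h1 := congrArg (reflect (2 * d + 8)) h
  obtain ⟨h2, h3⟩ := reflect_prod s (fun p => p.1) n
  have h4 := reflect_mul _ (1 : L[X]) h2 (show (1 : L[X]).natDegree ≤ e by simp)
  rw [mul_one, he, h3, reflect_one] at h4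
  rw [reflect_sub, reflect_C_mul, h4, reflect_mul _ _ (natDegree_pow_le_of_le 2 hB) hF,
    reflect_pow hB, show 2 * d + 8 = 2 * (d + 4) by ring, reflect_pow hA] at h1
  have h5 : ∏ p ∈ s, (1 - C p.1 * X) ^ n p =
      C (∏ p ∈ s with p.1 ≠ 0, (-p.1) ^ n p) * ∏ p ∈ s with p.1 ≠ 0, (X - C p.1⁻¹) ^ n p := by
    rw [map_prod, ← Finset.prod_mul_distrib, Finset.prod_filter]
    refine Finset.prod_congr rfl fun p _ => ?_
    split_ifs with hp
    · rw [map_pow, ← mul_pow, mul_sub, ← map_mul, neg_mul, mul_inv_cancel₀ hp, map_neg, map_neg,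
        map_one]
      congr 1
      ring
    · rw [not_not.1 hp]
      simp
  rw [h1, h5, map_mul]
  ring

end poly

variable {k L : Type*} [Field k] [Field L] [Algebra k L] [CFF k L] {v : Plk k L} {F : k[X]}

theorem aeval_sub {x : L} {a : k} (h : x - algebraMap k L a ∈ Mge v 1) (F : k[X]) :
    aeval x F - algebraMap k L (F.eval a) ∈ Mge v 1 := by
  obtain ⟨G, hG⟩ := X_sub_C_dvd_sub_C_eval (a := a) (p := F)
  have h1 := congrArg (aeval x) hG
  rw [map_sub, map_mul, map_sub, aeval_C, aeval_C, aeval_X] at h1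
  rw [h1]
  exact mul_mem_Mge h (aeval_mem_zero (ord_nonneg_of_sub h) G)

theorem aeval_ne {x : L} {a : k} (h : x - algebraMap k L a ∈ Mge v 1) {G : k[X]}
    (hG : G.eval a ≠ 0) : aeval x G ≠ 0 := by
  intro h0
  have := aeval_sub h G
  rw [h0, zero_sub] at this
  exact hG (const_notMem (neg_mem_iff.1 this))

theorem int2 {p : L × L} (hp : On F p) (h : 0 ≤ ord v p.1) : 0 ≤ ord v p.2 := by
  have h1 := aeval_mem_zero h F
  rw [← hp] at h1
  rcases h1 with h1 | h1
  · rw [pow_eq_zero_iff two_ne_zero] at h1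
    rw [h1, ord_zero]
  · rw [ord_pow] at h1
    omega

theorem dsc_iff {p : L × L} (hp : On F p) {a b : k} :
    Dsc v a b p ↔ 0 ≤ ord v p.1 ∧ vl v p.1 = a ∧ vl v p.2 = b := by
  constructor
  · rintro ⟨h1, h2⟩
    exact ⟨ord_nonneg_of_sub h1, vl_eq h1, vl_eq h2⟩
  · rintro ⟨h1, rfl, rfl⟩
    exact ⟨sub_vl_mem h1, sub_vl_mem (int2 hp h1)⟩

theorem dsc_root {p : L × L} (hp : On F p) {e : k} (he : F.eval e = 0)
    (h : p.1 - algebraMap k L e ∈ Mge v 1) : Dsc v e 0 p := by
  refine ⟨h, ?_⟩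
  have h1 := aeval_sub h F
  rw [he, map_zero, sub_zero, ← hp] at h1
  rw [map_zero, sub_zero]
  rcases h1 with h1 | h1
  · exact Or.inl (pow_eq_zero_iff two_ne_zero |>.1 h1)
  · rw [ord_pow] at h1
    exact Or.inr (by omega)

theorem root_of_dsc {p : L × L} (hp : On F p) {e : k} (h : Dsc v e 0 p) : F.eval e = 0 := by
  have h1 := aeval_sub h.1 F
  have h2 := h.2
  rw [map_zero, sub_zero] at h2
  have h3 : p.2 ^ 2 ∈ Mge v 1 := by
    rw [sq]
    exact Mge_mono v (by norm_num) (mul_mem_Mge h2 h2)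
  rw [← hp] at h1
  have h4 := sub_mem h3 h1
  rw [sub_sub_cancel] at h4
  exact const_notMem h4

theorem on_ng {p : L × L} (hp : On F p) : On F (ng p) := by
  show (-p.2) ^ 2 = aeval p.1 F
  rw [neg_sq]
  exact hp

theorem dsc_ng {p : L × L} {a b : k} (h : Dsc v a b p) : Dsc v a (-b) (ng p) := by
  refine ⟨h.1, ?_⟩
  have := neg_mem h.2
  rwa [show -(p.2 - algebraMap k L b) = (ng p).2 - algebraMap k L (-b) by
    rw [map_neg]; show _ = -p.2 - _; ring] at this

theorem ord_sub (x y : L) : ord v (x - y) = ord v (y - x) := by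
  rw [← ord_neg, neg_sub]

theorem ii_fin {p R : L × L} (hp : On F p) (hR : On F R) {a b : k} (h : Dsc v a b R) :
    ii v p R = if Dsc v a b p then
      (if b = 0 then ord v (R.2 - p.2) else ord v (R.1 - p.1)) else 0 := by
  obtain ⟨h1, h2, h3⟩ := (dsc_iff hR).1 h
  unfold ii
  rw [if_neg (fun c => absurd c.2 (not_lt.2 h1)), h2, h3]
  by_cases c : Dsc v a b p
  · obtain ⟨c1, c2, c3⟩ := (dsc_iff hp).1 c
    rw [if_pos ⟨c1, h1, c2, c3⟩, if_pos c, c3, ord_sub p.2, ord_sub p.1]
  · rw [if_neg c, if_neg fun c' => c ((dsc_iff hp).2 ⟨c'.1, c'.2.2⟩)]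

theorem ii_inf {p R : L × L} (h : ord v R.1 < 0) :
    ii v p R = if ord v p.1 < 0 then ord v ((ch R).2 - (ch p).2) else 0 := by
  unfold ii
  by_cases c : ord v p.1 < 0
  · rw [if_pos ⟨c, h⟩, if_pos c, ord_sub]
    rfl
  · rw [if_neg fun c' => c c'.1, if_neg c, if_neg fun c' => absurd c'.2.1 (not_le.2 h)]

theorem on_ch (hF : F.natDegree ≤ 8) {p : L × L} (hp : On F p) (h : p.1 ≠ 0) :
    On (reflect 8 F) (ch p) := by
  have h1 := eval_reflect (f := F.map (algebraMap k L)) (natDegree_map_le.trans hF) h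
  rw [reflect_map, eval_map_algebraMap, eval_map_algebraMap, ← hp] at h1
  show (p.2 / p.1 ^ 4) ^ 2 = aeval p.1⁻¹ (reflect 8 F)
  rw [div_pow, ← h1]
  field_simp

theorem inv_mge {x : L} (hx : x ≠ 0) :
    x⁻¹ - algebraMap k L 0 ∈ Mge v 1 ↔ ord v x < 0 := by
  rw [map_zero, sub_zero, mem_Mge, ord_inv]
  constructor
  · rintro (h | h)
    · exact absurd h (inv_ne_zero hx)
    · omega
  · intro h
    exact Or.inr (by omega)

theorem der_ne (hG : GF F) {e : k} (he : F.eval e = 0) : F.derivative.eval e ≠ 0 := by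
  intro h
  obtain ⟨a, b, hab⟩ := hG.sep
  have := congrArg (eval e) hab
  simp [he, h] at this

end Loc

open Loc in
theorem loc (ha : EQa) (hb : EQb) : LOC := by
  intro k L _ _ _ _ F v A B s n R hG hZ hR hs
  have hon : ∀ p ∈ s, On F p := fun p hp => by
    have := hZ.on p hp
    rwa [eval_map_algebraMap] at this
  obtain ⟨c, hc, hN⟩ := hZ.nrm
  rcases le_or_gt 0 (ord v R.1) with h0 | h0
  · have hD : Dsc v (vl v R.1) (vl v R.2) R := (dsc_iff hR).2 ⟨h0, rfl, rfl⟩
    generalize vl v R.1 = a at hD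
    generalize vl v R.2 = b at hD
    have hD' := dsc_ng hD
    by_cases b0 : b = 0
    · subst b0
      have he := root_of_dsc hR hD
      rw [neg_zero] at hD'
      rw [hb k L F v A B s n c a R he (der_ne hG he) hc hN hR hD fun p hp =>
        ⟨hon p hp, hs p hp, fun hd => hZ.vb p hp (by
          rw [derivative_map, eval_map_algebraMap]
          exact aeval_ne hd.1 (der_ne hG he))⟩, Finset.sum_filter]
      refine Finset.sum_congr rfl fun p hp => ?_
      rw [ii_fin (hon p hp) hR hD, ii_fin (hon p hp) (on_ng hR) hD', if_pos rfl, if_pos rfl]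
      split_ifs
      · rw [← ord_neg v (R.2 + p.2), neg_add']
        rfl
      · simp
    · have := CFF.ac (k := k) (F := L)
      obtain ⟨e, he⟩ := IsAlgClosed.exists_root F (by
        rw [degree_eq_natDegree hG.sep.ne_zero, hG.deg]; norm_num)
      rw [ha k L F v A B s n c e a b R he (der_ne hG he) hc hN hG.two b0 hR hD fun p hp =>
        ⟨hon p hp, hs p hp, hZ.va p hp⟩, Finset.sum_filter, Finset.sum_filter,
        ← Finset.sum_sub_distrib]
      refine Finset.sum_congr rfl fun p hp => ?_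
      rw [ii_fin (hon p hp) hR hD, ii_fin (hon p hp) (on_ng hR) hD', if_neg b0,
        if_neg (neg_ne_zero.2 b0), mul_sub, mul_ite, mul_ite, mul_zero]
      rfl
  · obtain ⟨d, e, hA, hB, he, v0, v1⟩ := hZ.vc
    have hF : F.natDegree ≤ 8 := by rw [hG.deg]; norm_num
    have hμ : R.1 ≠ 0 := fun h => by rw [h, ord_zero] at h0; exact lt_irrefl _ h0
    have g0 : (reflect 8 F).eval 0 = 0 := by
      rw [← coeff_zero_eq_eval_zero, coeff_reflect, revAt_zero]
      exact coeff_eq_zero_of_natDegree_lt (by rw [hG.deg]; norm_num)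
    have g1 : (reflect 8 F).derivative.eval 0 ≠ 0 := by
      rw [← coeff_zero_eq_eval_zero, coeff_derivative, coeff_reflect, revAt_le (by norm_num)]
      have := leadingCoeff_ne_zero.2 hG.sep.ne_zero
      rw [leadingCoeff, hG.deg] at this
      simpa using this
    have hN' := nrm_inf (natDegree_map_le.trans hF) hA hB he hN
    rw [reflect_map] at hN' v0 v1
    have hz : ((0 : L), (0 : L)) ∉ (s.filter fun p => p.1 ≠ 0).image ch := by
      intro h
      obtain ⟨p, hp, e1⟩ := Finset.mem_image.1 h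
      exact inv_ne_zero (Finset.mem_filter.1 hp).2 (congrArg Prod.fst e1)
    have hinj : Set.InjOn ch ((s.filter fun p => p.1 ≠ 0 : Finset (L × L)) : Set (L × L)) := by
      intro p hp q hq e1
      rw [← ch_ch (Finset.mem_filter.1 hp).2, e1, ch_ch (Finset.mem_filter.1 hq).2]
    have hn : ∀ p : L × L, p.1 ≠ 0 → (if (ch p).1 = 0 then e else n (ch (ch p))) = n p := by
      intro p hp
      rw [if_neg (show ¬ (ch p).1 = 0 from inv_ne_zero hp), ch_ch hp]
    have key := hb k L (reflect 8 F) v (reflect (d + 4) A) (reflect d B)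
      (insert (0, 0) ((s.filter fun p => p.1 ≠ 0).image ch))
      (fun q => if q.1 = 0 then e else n (ch q)) (c * ∏ p ∈ s with p.1 ≠ 0, (-p.1) ^ n p) 0 (ch R)
      g0 g1 (mul_ne_zero hc (Finset.prod_ne_zero_iff.2 fun p hp =>
        pow_ne_zero _ (neg_ne_zero.2 (Finset.mem_filter.1 hp).2)))
      (by
        rw [hN', Finset.prod_insert hz, Finset.prod_image hinj, if_pos rfl, map_zero, sub_zero]
        congr 2
        refine Finset.prod_congr rfl fun p hp => ?_
        rw [hn p (Finset.mem_filter.1 hp).2]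
        rfl)
      (on_ch hF hR hμ) (dsc_root (on_ch hF hR hμ) g0 ((inv_mge hμ).2 h0))
      (by
        intro q hq
        rcases Finset.mem_insert.1 hq with rfl | hq
        · refine ⟨?_, (inv_ne_zero hμ).symm, fun _ => by rw [if_pos rfl]; exact v0⟩
          show (0 : L) ^ 2 = aeval (0 : L) (reflect 8 F)
          rw [← (algebraMap k L).map_zero, aeval_algebraMap_apply, coe_aeval_eq_eval, g0]
          simp
        · obtain ⟨p, hp, rfl⟩ := Finset.mem_image.1 hq
          obtain ⟨hp, hp0⟩ := Finset.mem_filter.1 hp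
          refine ⟨on_ch hF (hon p hp) hp0, fun h => hs p hp (inv_injective h), fun hd => ?_⟩
          rw [hn p hp0]
          refine v1 p hp hp0 ?_
          rw [derivative_map, eval_map_algebraMap]
          exact aeval_ne hd.1 g1)
    have a1 := eval_reflect hA hμ
    have b1 := eval_reflect hB hμ
    have e1 : A.eval R.1 - B.eval R.1 * R.2 = R.1 ^ (d + 4) *
        ((reflect (d + 4) A).eval (ch R).1 - (reflect d B).eval (ch R).1 * (ch R).2) := by
      rw [← a1, ← b1]
      simp only [ch]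
      field_simp
      ring
    have e2 : A.eval R.1 + B.eval R.1 * R.2 = R.1 ^ (d + 4) *
        ((reflect (d + 4) A).eval (ch R).1 + (reflect d B).eval (ch R).1 * (ch R).2) := by
      rw [← a1, ← b1]
      simp only [ch]
      field_simp
      ring
    have nz : (A.eval R.1 - B.eval R.1 * R.2) * (A.eval R.1 + B.eval R.1 * R.2) ≠ 0 := by
      have h1 := congrArg (eval R.1) hN
      rw [eval_sub, eval_mul, eval_pow, eval_pow, eval_map_algebraMap, ← hR, eval_mul, eval_C,
        eval_prod] at h1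
      rw [show (A.eval R.1 - B.eval R.1 * R.2) * (A.eval R.1 + B.eval R.1 * R.2) =
        A.eval R.1 ^ 2 - B.eval R.1 ^ 2 * R.2 ^ 2 by ring, h1]
      refine mul_ne_zero hc (Finset.prod_ne_zero_iff.2 fun p hp => ?_)
      rw [eval_pow, eval_sub, eval_X, eval_C]
      exact pow_ne_zero _ (sub_ne_zero.2 (hs p hp).symm)
    rw [e1, e2] at nz ⊢
    rw [ord_mul v (pow_ne_zero _ hμ) (right_ne_zero_of_mul (left_ne_zero_of_mul nz)),
      ord_mul v (pow_ne_zero _ hμ) (right_ne_zero_of_mul (right_ne_zero_of_mul nz)),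
      add_sub_add_left_eq_sub, key, Finset.sum_filter, Finset.sum_insert hz,
      Finset.sum_image hinj, Finset.sum_filter, add_zero, sub_zero, sub_self, mul_zero, ite_self,
      zero_add]
    refine Finset.sum_congr rfl fun p hp => ?_
    rw [ii_inf h0, ii_inf (R := ng R) h0]
    by_cases p0 : p.1 = 0
    · rw [if_neg (not_not.2 p0), p0, ord_zero]
      simp
    · rw [if_pos p0, hn p p0]
      by_cases c1 : ord v p.1 < 0
      · rw [if_pos (dsc_root (on_ch hF (hon p hp) p0) g0 ((inv_mge p0).2 c1)), if_pos c1,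
          if_pos c1, ← ord_neg v ((ch R).2 + (ch p).2), neg_add']
        simp only [ch, ng, neg_div]
      · rw [if_neg fun hd => c1 ((inv_mge p0).1 hd.1), if_neg c1, if_neg c1]
        simp

end Vale.Agent.P027M.FA.Be
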