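import Vale.Agent.P027M.FA.BeDef

/-! # P027, route M, block FAITH : positivity of the form on reduced divisors -/

open Polynomial Vale.Agent.P019P P025H492 Vale.Agent.P027M.B

noncomputable section

namespace Vale.Agent.P027M.FA.Be

open scoped Classical

namespace Pos

theorem bb_apply {Om E : Type*} [Field Om] [Field E] [Algebra Om E] [CFF Om E]
    (β : Om × Om → Om × Om → ℚ) (m w : E) (D D' : Plk Om E →₀ ℤ) :
    bb β m w D D' =
      ∑ P ∈ D.support, ∑ Q ∈ D'.support, (D P : ℚ) * (D' Q : ℚ) * b0 β m w P Q := by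
  unfold bb
  rw [Finsupp.liftAddHom_apply, Finsupp.sum, AddMonoidHom.finsetSum_apply]
  refine Finset.sum_congr rfl fun P _ => ?_
  rw [zmultiplesHom_apply, AddMonoidHom.zsmul_apply, Finsupp.liftAddHom_apply, Finsupp.sum,
    zsmul_eq_mul, Finset.mul_sum]
  refine Finset.sum_congr rfl fun Q _ => ?_
  rw [zmultiplesHom_apply, zsmul_eq_mul, mul_assoc]

/-- the elementary inequality -/
theorem low_sum {I : Type*} (S : Finset I) (n e : I → ℚ) (b : I → I → ℚ) (hn : ∀ P ∈ S, 1 ≤ n P)
    (he : ∀ P ∈ S, 0 ≤ e P) (hd : ∑ P ∈ S, n P ≤ 3) (h1 : ∀ P ∈ S, b P P = 6 * e P)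
    (h2 : ∀ P ∈ S, ∀ Q ∈ S, P ≠ Q → -(e P + e Q) ≤ b P Q) :
    2 * ∑ P ∈ S, n P * e P ≤ ∑ P ∈ S, ∑ Q ∈ S, n P * n Q * b P Q := by
  have h3 : ∀ P ∈ S, ∀ Q ∈ S, (if P = Q then 8 * (n P * e P) else 0) - n P * e P * n Q -
      n P * (n Q * e Q) ≤ n P * n Q * b P Q := by
    intro P hP Q hQ
    have a1 := hn P hP
    have a2 := hn Q hQ
    by_cases h : P = Q
    · subst h
      rw [if_pos rfl, h1 P hP]
      have a3 : 0 ≤ n P * e P * (n P - 1) :=
        mul_nonneg (mul_nonneg (by linarith) (he P hP)) (by linarith)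
      linarith
    · rw [if_neg h]
      have a3 := mul_le_mul_of_nonneg_left (h2 P hP Q hQ h)
        (mul_nonneg (by linarith : 0 ≤ n P) (by linarith : 0 ≤ n Q))
      linarith
  refine le_trans ?_ (Finset.sum_le_sum fun P hP => Finset.sum_le_sum fun Q hQ => h3 P hP Q hQ)
  have h4 : ∀ P ∈ S, ∑ Q ∈ S, ((if P = Q then 8 * (n P * e P) else 0) - n P * e P * n Q -
      n P * (n Q * e Q)) =
      8 * (n P * e P) - n P * e P * ∑ Q ∈ S, n Q - n P * ∑ Q ∈ S, n Q * e Q := by
    intro P hP
    rw [Finset.sum_sub_distrib, Finset.sum_sub_distrib, Finset.sum_ite_eq, if_pos hP,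
      Finset.mul_sum, Finset.mul_sum]
  rw [Finset.sum_congr rfl h4, Finset.sum_sub_distrib, Finset.sum_sub_distrib, ← Finset.mul_sum,
    ← Finset.sum_mul, ← Finset.sum_mul]
  have h5 : 0 ≤ ∑ P ∈ S, n P * e P :=
    Finset.sum_nonneg fun P hP => mul_nonneg (by linarith [hn P hP]) (he P hP)
  have h6 := mul_le_mul_of_nonneg_left hd h5
  linarith

end Pos

open Pos

theorem pos : POS := by
  intro k K Om E _ _ _ _ _ _ _ _ F m w β η hp hb
  have on : ∀ P : Plk Om E, 0 ≤ ord P m → On F (co m w P) := fun P h => by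
    have h1 := (hp.pt P h).2
    rw [eval_map_algebraMap] at h1
    exact h1
  refine ⟨fun D D' => ?_, fun D hD => ?_, fun D h0 h3 ha hi => ?_⟩
  · rw [bb_apply, bb_apply, Finset.sum_comm]
    refine Finset.sum_congr rfl fun Q _ => Finset.sum_congr rfl fun P _ => ?_
    have e : b0 β m w P Q = b0 β m w Q P := by
      unfold b0
      by_cases h : 0 ≤ ord P m ∧ 0 ≤ ord Q m
      · rw [if_pos h, if_pos h.symm, hb.symm _ _ (on P h.1) (on Q h.2)]
      · rw [if_neg h, if_neg fun h' => h h'.symm]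
    rw [e]
    ring
  · rw [bb_apply]
    refine Finset.sum_eq_zero fun P hP => Finset.sum_eq_zero fun Q hQ => ?_
    have e : b0 β m w P Q = 0 := by
      unfold b0
      split_ifs with h
      · have e1 : η (co m w P).1 = 0 := (hb.η1 _).2 (hD P (Finsupp.mem_support_iff.1 hP) h.1)
        have e2 : η (co m w Q).1 = 0 := (hb.η1 _).2 (hD Q (Finsupp.mem_support_iff.1 hQ) h.2)
        have o1 := on P h.1
        have o2 := on Q h.2
        generalize co m w P = p at e1 o1 ⊢
        generalize co m w Q = q at e2 o2 ⊢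
        by_cases hx : p.1 = q.1
        · have hy : q.2 ^ 2 = p.2 ^ 2 := by
            unfold On at o1 o2
            rw [o1, o2, hx]
          rcases sq_eq_sq_iff_eq_or_eq_neg.1 hy with hy | hy
          · have e3 : q = p := Prod.ext hx.symm hy
            rw [e3, hb.diag p o1, e1, mul_zero]
          · have e3 : q = ng p := Prod.ext hx.symm hy
            rw [e3, hb.odd p p o1 o1, hb.diag p o1, e1, mul_zero, neg_zero]
        · have h2 := hb.low p q o1 o2 hx
          rw [e1, e2] at h2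
          linarith [h2.1, h2.2]
      · rfl
    rw [e, mul_zero]
  · have hs : ∀ P ∈ D.support, D P ≠ 0 := fun P hP => Finsupp.mem_support_iff.1 hP
    have hn : ∀ P ∈ D.support, (1 : ℚ) ≤ (D P : ℚ) := fun P hP => by
      have a1 : 0 ≤ D P := h0 P
      have a2 := hs P hP
      have a3 : 1 ≤ D P := by omega
      exact_mod_cast a3
    have hl := low_sum D.support (fun P => (D P : ℚ)) (fun P => η (vl P m)) (b0 β m w) hn
      (fun P _ => hb.η0 _)
      (by
        rw [dg_apply, Finsupp.sum] at h3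
        exact_mod_cast h3)
      (fun P hP => by
        unfold b0
        rw [if_pos ⟨ha P (hs P hP), ha P (hs P hP)⟩]
        exact hb.diag _ (on P (ha P (hs P hP))))
      (fun P hP Q hQ hne => by
        unfold b0
        rw [if_pos ⟨ha P (hs P hP), ha Q (hs Q hQ)⟩]
        exact (hb.low _ _ (on P (ha P (hs P hP))) (on Q (ha Q (hs Q hQ)))
          fun h => hne (hi P Q (hs P hP) (hs Q hQ) h)).1)
    rw [← bb_apply] at hl
    have hnn : ∀ P ∈ D.support, 0 ≤ (D P : ℚ) * η (vl P m) := fun P hP =>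
      mul_nonneg (by linarith [hn P hP]) (hb.η0 _)
    have h5 := Finset.sum_nonneg hnn
    refine ⟨by linarith, fun hz P hP _ => ?_⟩
    have h6 : ∑ P ∈ D.support, (D P : ℚ) * η (vl P m) = 0 := by linarith
    have h7 := (Finset.sum_eq_zero_iff_of_nonneg hnn).1 h6 P (Finsupp.mem_support_iff.2 hP)
    rcases mul_eq_zero.1 h7 with h | h
    · exact absurd (by exact_mod_cast h) hP
    · exact (hb.η1 _).1 h

end Vale.Agent.P027M.FA.Be
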