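import Vale.Agent.P027M.FA.BeDef

/-! # P027, route M, block FAITH, row RED : reduced divisors -/

open Polynomial Vale.Agent.P019P P025H492 Vale.Agent.P027M.B

noncomputable section

namespace Vale.Agent.P027M.FA.Be

namespace Red

variable {Om E : Type} [Field Om] [Field E] [Algebra Om E] [CFF Om E] {o : Plk Om E}
  {D D' : Plk Om E →₀ ℤ}

theorem no (h : Mn o D) {f : E} (hf : f ≠ 0) (h1 : ∀ P, P ≠ o → -D P ≤ ord P f)
    (h2 : -D o + 1 ≤ ord o f) : False := by
  have : f ∈ LL Om (D - Finsupp.single o 1) := by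
    refine mem_LL.2 (Or.inr fun P => ?_)
    rw [Finsupp.sub_apply]
    by_cases e : P = o
    · rw [e, Finsupp.single_eq_same]; omega
    · rw [Finsupp.single_eq_of_ne e, sub_zero]; exact h1 P e
  rw [h.2] at this
  exact hf this

theorem nn (h : Mn o D) (P : Plk Om E) : 0 ≤ D P := h.1 P

theorem at_o (h : Mn o D) : D o = 0 := by
  by_contra e
  have := nn h o
  exact no h one_ne_zero (fun P _ => by rw [ord_one]; have := nn h P; omega)
    (by rw [ord_one]; omega)

theorem ex (o : Plk Om E) (D : Plk Om E →₀ ℤ) : ∃ (D₀ : Plk Om E →₀ ℤ) (j : ℤ), Mn o D₀ ∧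
    D - (D₀ + Finsupp.single o j) ∈ prn Om E := by
  obtain ⟨r, h1, h2⟩ := Int.exists_least_of_bdd
    (P := fun r : ℤ => 0 < Module.finrank Om (LL Om (D + Finsupp.single o r)))
    ⟨-dg D, fun r hr => by
      by_contra e
      rw [l_eq_zero (by rw [map_add, dg_sgl]; omega)] at hr
      exact lt_irrefl _ hr⟩
    ⟨gen Om E - dg D, by
      have := RR (k := Om) (F := E) (D + Finsupp.single o (gen Om E - dg D))
      rw [map_add, dg_sgl] at this
      omega⟩
  obtain ⟨f, f0, hf⟩ := exists_ne_zero_of_l h1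
  refine ⟨D + Finsupp.single o r + dv Om f, -r, ⟨hf, ?_⟩, f⁻¹, inv_ne_zero f0, ?_⟩
  · have e : D + Finsupp.single o r + dv Om f - Finsupp.single o 1 =
        D + Finsupp.single o (r - 1) + dv Om f := by
      rw [Finsupp.single_sub]; abel
    rw [e, ← Submodule.finrank_eq_zero, l_add_dv _ f0]
    by_contra h
    have := h2 (r - 1) (Nat.pos_of_ne_zero h)
    omega
  · rw [dv_inv, Finsupp.single_neg]; abel

theorem uniq {j : ℤ} (h : Mn o D) (h' : Mn o D')
    (e : D - (D' + Finsupp.single o j) ∈ prn Om E) : D = D' := by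
  obtain ⟨z, z0, hz⟩ := e
  have h1 : ∀ P, P ≠ o → ord P z = D P - D' P := fun P hP => by
    rw [← dv_apply, ← hz, Finsupp.sub_apply, Finsupp.add_apply, Finsupp.single_eq_of_ne hP,
      add_zero]
  have h2 : ord o z = -j := by
    rw [← dv_apply, ← hz, Finsupp.sub_apply, Finsupp.add_apply, Finsupp.single_eq_same, at_o h,
      at_o h', zero_add, zero_sub]
  have h3 : ∀ P, P ≠ o → -D' P ≤ ord P z := fun P hP => by
    have := nn h P
    rw [h1 P hP]; omega
  rcases lt_trichotomy j 0 with hj | hj | hj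
  · exact (no h' z0 h3 (by rw [at_o h']; omega)).elim
  · by_cases g0 : z - algebraMap Om E (vl o z) = 0
    · ext P
      by_cases hP : P = o
      · rw [hP, at_o h, at_o h']
      · have := h1 P hP
        rw [sub_eq_zero.1 g0, ord_const] at this
        omega
    · refine (no h' g0 (fun P hP => ?_) ?_).elim
      · refine (mem_Mge.1 (sub_mem (mem_Mge.2 (Or.inr (h3 P hP))) (mem_Mge.2 (Or.inr ?_)))
          ).resolve_left g0
        have := nn h' P
        rw [ord_const]; omega
      · rw [at_o h']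
        exact (mem_Mge.1 (sub_vl_mem (by omega))).resolve_left g0
  · refine (no h (inv_ne_zero z0) (fun P hP => ?_) (by rw [at_o h, ord_inv]; omega)).elim
    have := nn h' P
    rw [ord_inv, h1 P hP]; omega

theorem deg (h : Mn o D) : dg D ≤ gen Om E := by
  have := RR (k := Om) (F := E) (D - Finsupp.single o 1)
  rw [h.2, finrank_bot, map_sub, dg_sgl] at this
  omega

variable {F : Om[X]} {m w : E}

theorem aff (hp : Pts F m w) (ho : ord o m < 0) {P : Plk Om E} (hP : P ≠ o) : 0 ≤ ord P m := by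
  obtain ⟨Q, -, -, hQ⟩ := hp.inf
  by_contra e
  exact hP ((hQ P (not_le.1 e)).trans (hQ o ho).symm)

theorem fib (ho : ord o m < 0) (h : Mn o D) (μ : Om)
    (hR : ∀ R, R ≠ o → vl R m = μ → ord R (m - algebraMap Om E μ) ≤ D R) : False := by
  have h0 : m - algebraMap Om E μ ≠ 0 := fun e => by
    rw [sub_eq_zero.1 e, ord_const] at ho
    exact lt_irrefl _ ho
  refine no h (inv_ne_zero h0) (fun R hR' => ?_) ?_
  · rw [ord_inv, neg_le_neg_iff]
    by_cases e : 0 < ord R (m - algebraMap Om E μ)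
    · exact hR R hR' (vl_eq_of_pos e)
    · exact (not_lt.1 e).trans (nn h R)
  · rw [at_o h, ord_inv]
    by_contra e
    have h1 : m - algebraMap Om E μ + algebraMap Om E μ ∈ Mge o 0 :=
      add_mem (mem_Mge.2 (Or.inr (by omega))) (mem_Mge.2 (Or.inr (ord_const o μ).ge))
    rw [sub_add_cancel] at h1
    rcases mem_Mge.1 h1 with h2 | h2
    · rw [h2, ord_zero] at ho
      exact lt_irrefl _ ho
    · omega

end Red

open Red

theorem red : RED := by
  intro Om E _ _ _ _ o
  refine ⟨ex o, fun D D' j => uniq, fun D h => ⟨at_o h, deg h⟩,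
    fun F m w _ hp ho D h P Q hP hQ e => ?_⟩
  have aP := aff hp ho (P := P) fun c => hP (c ▸ at_o h)
  have aQ := aff hp ho (P := Q) fun c => hQ (c ▸ at_o h)
  have sq : ∀ R, 0 ≤ ord R m → vl R m = vl P m → vl R w = vl P w ∨ vl R w = -vl P w :=
    fun R aR eR => sq_eq_sq_iff_eq_or_eq_neg.1 (by rw [(hp.pt R aR).2, (hp.pt P aP).2, eR])
  have nP := nn h P
  have nQ := nn h Q
  constructor
  · by_contra hne
    have n1 : vl Q w ≠ vl P w := fun c => hne (hp.inj P Q aP aQ e c.symm)
    have n2 := (sq Q aQ e.symm).resolve_left n1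
    have n3 : vl P w ≠ 0 := fun c => n1 (by rw [n2, c, neg_zero])
    refine fib ho h (vl P m) fun R hR eR => ?_
    have aR := aff hp ho hR
    rcases sq R aR eR with c | c
    · rw [hp.inj R P aR aP eR c, hp.unif P aP n3]
      omega
    · rw [hp.inj R Q aR aQ (eR.trans e) (c.trans n2.symm), e,
        hp.unif Q aQ (by rw [n2]; exact neg_ne_zero.2 n3)]
      omega
  · intro h0
    by_contra hne
    refine fib ho h (vl P m) fun R hR eR => ?_
    have aR := aff hp ho hR
    have c : vl R w = vl P w := (sq R aR eR).elim id fun c => by rw [c, h0, neg_zero]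
    rw [hp.inj R P aR aP eR c, (hp.bra P aP h0).1]
    omega

end Vale.Agent.P027M.FA.Be
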