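import Vale.Agent.P027M.FA.BeDef
import Vale.Agent.P027M.B.Pts

/-! # P027, route M, block FAITH : the zeros of a function without affine poles -/

set_option linter.all false

open Polynomial Vale.Agent.P019P P025H492 Vale.Agent.P027M.B

noncomputable section

namespace Vale.Agent.P027M.FA.Be

open scoped Classical

namespace ZerP

open PtsAux

section loc

variable {k L : Type*} [Field k] [Field L] [Algebra k L] [CFF k L] {P : Plk k L}
  {x y y' z : L} {a b x0 y0 : k}

/-- the value of `z` at `P` is `c` -/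
def Cg (P : Plk k L) (z : L) (c : k) : Prop := z - algebraMap k L c ∈ Mge P 1

theorem Cg.mem (h : Cg P z a) : z ∈ Mge P 0 := Or.inr (ord_nonneg_of_sub h)

theorem Cg.const (c : k) : Cg P (algebraMap k L c) c := by simp [Cg]

theorem Cg.ae (h : Cg P y a) (G : k[X]) : Cg P (aeval y G) (G.eval a) := by
  have := val1 (ord_nonneg_of_sub h) G
  rwa [vl_eq h] at this

theorem Cg.pow (h : Cg P y a) (n : ℕ) : Cg P (y ^ n) (a ^ n) := by simpa using h.ae (X ^ n)

theorem Cg.inv (h : Cg P z a) (ha : a ≠ 0) : Cg P z⁻¹ a⁻¹ := by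
  obtain ⟨z0, z1⟩ := unit ha h
  have a0 : algebraMap k L a ≠ 0 := (_root_.map_ne_zero _).2 ha
  have e : z⁻¹ - algebraMap k L a⁻¹ =
      (z - algebraMap k L a) * (z⁻¹ * algebraMap k L (-a⁻¹)) := by
    rw [map_neg, map_inv₀]
    field_simp
    ring
  have h1 : z⁻¹ ∈ Mge P 0 := Or.inr (by rw [ord_inv, z1]; rfl)
  rw [Cg, e]
  exact mul_mem_Mge h (mul_mem_Mge h1 (cmem P (-a⁻¹)))

theorem diff (hy : Cg P y a) (hy' : Cg P y' a) (G : k[X]) :
    ∃ u, aeval y G - aeval y' G = (y - y') * u ∧ Cg P u (G.derivative.eval a) := by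
  induction G using Polynomial.induction_on with
  | C c => exact ⟨0, by simp, by simp [Cg]⟩
  | add p q hp hq =>
    obtain ⟨u, e, h⟩ := hp
    obtain ⟨u', e', h'⟩ := hq
    refine ⟨u + u', by rw [map_add, map_add, mul_add, ← e, ← e']; ring, ?_⟩
    rw [derivative_add, eval_add]
    exact add1 h h'
  | monomial n c ih =>
    obtain ⟨u, e, h⟩ := ih
    rw [pow_succ, ← mul_assoc]
    generalize C c * X ^ n = q at e h
    refine ⟨u * y + aeval y' q, ?_, ?_⟩
    · rw [map_mul, map_mul, aeval_X, aeval_X]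
      linear_combination y * e
    · rw [derivative_mul, derivative_X, mul_one, eval_add, eval_mul, eval_X]
      exact add1 (mul1 h hy) (hy'.ae q)

theorem dvd_of_mem (hx : ord P (x - algebraMap k L x0) = 1) (n : ℕ) :
    ∀ q : k[X], aeval x q ∈ Mge P n → (X - C x0) ^ n ∣ q := by
  have hc : Cg P x x0 := Or.inr hx.ge
  have h0 : x - algebraMap k L x0 ≠ 0 := fun e => by rw [e, ord_zero] at hx; omega
  induction n with
  | zero => intro q _; simp
  | succ n ih =>
    intro q h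
    obtain ⟨r, rfl⟩ := dvd_iff_isRoot.2 (zero1 (hc.ae q) (Mge_mono P (by omega) h))
    rw [map_mul, map_sub, aeval_X, aeval_C, mul_mem_Mge_iff h0, hx] at h
    rw [pow_succ']
    exact mul_dvd_mul_left _ (ih r (by simpa using h))

theorem mem_of_dvd (hx : Cg P x x0) {n : ℕ} {q : k[X]} (h : (X - C x0) ^ n ∣ q) :
    aeval x q ∈ Mge P n := by
  obtain ⟨r, rfl⟩ := h
  have h1 : ∀ j : ℕ, (x - algebraMap k L x0) ^ j ∈ Mge P j := by
    intro j
    induction j with
    | zero => exact Or.inr (by simp [ord_one])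
    | succ j ih => simpa [pow_succ] using mul_mem_Mge ih hx
  simpa using mul_mem_Mge (h1 n) (hx.ae r).mem

theorem chart {G A B : k[X]} {n : ℕ} (hG : x ^ 2 = aeval y G)
    (hx : ord P (x - algebraMap k L x0) = 1) (hy : Cg P y y0) (h0 : G.derivative.eval y0 ≠ 0)
    (h : aeval y A + aeval y B * x ∈ Mge P n) : Vb G A B (y0, x0) n := by
  intro V hV hV0
  have hc : Cg P x x0 := Or.inr hx.ge
  have hy' : Cg P (aeval x V) y0 := by
    have := hc.ae V
    rwa [show V.eval x0 = y0 from hV0] at this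
  have h1 := neg_mem (mem_of_dvd hc hV)
  obtain ⟨u, e, hu⟩ := diff hy hy' G
  obtain ⟨u0, u1⟩ := unit h0 hu
  rw [map_sub, aeval_comp, map_pow, aeval_X, hG, neg_sub, e, mul_comm, mul_mem_Mge_iff u0, u1,
    sub_zero] at h1
  have h2 : ∀ q : k[X], aeval y q - aeval (aeval x V) q ∈ Mge P n := fun q => by
    obtain ⟨v, e', hv⟩ := diff hy hy' q
    rw [e']
    simpa using mul_mem_Mge h1 hv.mem
  refine dvd_of_mem hx n _ ?_
  have h3 := mul_mem_Mge (h2 B) hc.mem
  rw [add_zero] at h3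
  have h4 := sub_mem (sub_mem h (h2 A)) h3
  rw [map_add, map_mul, aeval_comp, aeval_comp, aeval_X]
  convert h4 using 1
  ring

theorem par {G : k[X]} (h2 : (2 : k) ≠ 0) (hG : x ^ 2 = aeval y G) (hx : Cg P x x0)
    (h0 : G.derivative.eval y0 ≠ 0) (hx0 : x0 ≠ 0) (h1 : ord P (y - algebraMap k L y0) = 1) :
    ord P (x - algebraMap k L x0) = 1 := by
  have hy : Cg P y y0 := Or.inr h1.ge
  have y1 : y - algebraMap k L y0 ≠ 0 := fun e => by rw [e, ord_zero] at h1; omega
  have e0 : x0 ^ 2 = G.eval y0 := (vl_eq (hx.pow 2)).symm.trans (by rw [hG]; exact vl_eq (hy.ae G))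
  obtain ⟨u, e, hu⟩ := diff hy (Cg.const y0) G
  obtain ⟨u0, u1⟩ := unit h0 hu
  obtain ⟨v0, v1⟩ := unit (by rw [← two_mul]; exact mul_ne_zero h2 hx0) (add1 hx (Cg.const x0))
  rw [aeval_algebraMap_apply_eq_algebraMap_eval, ← e0, ← hG, map_pow, sq_sub_sq] at e
  have x1 : x - algebraMap k L x0 ≠ 0 := fun e' => mul_ne_zero y1 u0 (by rw [← e, e', mul_zero])
  have := congrArg (ord P) e
  rw [ord_mul P v0 x1, ord_mul P y1 u0] at this
  omega

theorem refl {m : L} (hm : m ≠ 0) {N : ℕ} {A : k[X]} (h : A.natDegree ≤ N) :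
    aeval m⁻¹ (reflect N A) = aeval m A / m ^ N := by
  letI := invertibleOfNonzero hm
  have := eval₂_reflect_mul_pow (algebraMap k L) m N A h
  rw [invOf_eq_inv] at this
  rw [eq_div_iff (pow_ne_zero _ hm)]
  exact this

end loc

variable {k L : Type*} [Field k] [Field L] [Algebra k L] [CFF k L] {F : k[X]} {m w : L}

/-- the norm of a function without affine poles -/
theorem nrm (h : Hyp F m w) (H : Pts F m w) {A B : k[X]} (h0 : aeval m A + aeval m B * w ≠ 0)
    (Z : Finset (Plk k L)) (hZ : ∀ Q, Q ∈ Z ↔ ord Q (aeval m A + aeval m B * w) ≠ 0 ∧ 0 ≤ ord Q m)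
    (Pi : k[X]) (hP0 : Pi ≠ 0) (hP : ∀ P : Plk k L, ord P (aeval m Pi) =
      ∑ Q ∈ Z, ord Q (aeval m A + aeval m B * w) * ord P (m - algebraMap k L (vl Q m))) :
    ∃ c : k, c ≠ 0 ∧ A ^ 2 - B ^ 2 * F = C c * Pi := by
  obtain ⟨ι, i1, i2⟩ := H.invol
  obtain ⟨o, -, -, o3⟩ := H.inf
  have i3 : ι (aeval m A - aeval m B * w) = aeval m A + aeval m B * w := by
    rw [map_sub, map_mul, ← aeval_algHom_apply, ← aeval_algHom_apply, i1, i2]
    ring
  have i4 : aeval m A - aeval m B * w ≠ 0 := fun e => h0 (by rw [← i3, e, map_zero])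
  have e1 : aeval m (A ^ 2 - B ^ 2 * F) =
      (aeval m A + aeval m B * w) * (aeval m A - aeval m B * w) := by
    rw [map_sub, map_mul, map_pow, map_pow, ← h.sq]
    ring
  set φ := aeval m A + aeval m B * w
  have p0 := ne0 h hP0
  have z0 : aeval m (A ^ 2 - B ^ 2 * F) * (aeval m Pi)⁻¹ ≠ 0 :=
    mul_ne_zero (e1 ▸ mul_ne_zero h0 i4) (inv_ne_zero p0)
  have key : ∀ P : Plk k L, P ≠ o → ord P (aeval m (A ^ 2 - B ^ 2 * F) * (aeval m Pi)⁻¹) = 0 := by
    intro P hPo
    have hm : 0 ≤ ord P m := not_lt.1 fun e => hPo (o3 P e)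
    have a1 := conj_mem ι (sub_vl_mem hm)
    have a2 := neg_mem (conj_mem ι (sub_vl_mem (H.pt P hm).1))
    rw [map_sub, i1, AlgEquiv.commutes] at a1
    rw [map_sub, i2, AlgEquiv.commutes, neg_sub', neg_neg, ← map_neg] at a2
    have a3 := ord_conj ι P (aeval m A - aeval m B * w)
    rw [i3] at a3
    have b0 := ord_nonneg_of_sub a1
    have b1 := vl_eq a1
    have b2 := vl_eq a2
    generalize conj k ι P = P' at a3 b0 b1 b2
    have s1 : ∑ Q ∈ Z, ord Q φ * ord P (m - algebraMap k L (vl Q m)) =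
        ∑ Q ∈ {P, P'}, ord Q φ * ord P (m - algebraMap k L (vl Q m)) := by
      refine (Finset.sum_subset (Finset.subset_union_left (s₂ := {P, P'})) ?goalB).trans
        (Finset.sum_subset Finset.subset_union_right ?goalA).symm
      case goalA =>
        intro Q hQ hQ'
        have q0 := ((hZ Q).1 ((Finset.mem_union.1 hQ).resolve_right hQ')).2
        rw [Finset.mem_insert, Finset.mem_singleton, not_or] at hQ'
        have q1 : vl P m + -vl Q m ≠ 0 := by
          intro e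
          have e2 : vl Q m = vl P m := by linear_combination -e
          have e3 : vl Q w ^ 2 = vl P w ^ 2 := by rw [(H.pt Q q0).2, (H.pt P hm).2, e2]
          rcases sq_eq_sq_iff_eq_or_eq_neg.1 e3 with e4 | e4
          · exact hQ'.1 (H.inj Q P q0 hm e2 e4)
          · exact hQ'.2 (H.inj Q P' q0 b0 (e2.trans b1.symm) (e4.trans b2.symm))
        have q2 := (unit q1 (add1 (sub_vl_mem hm) (Cg.const _))).2
        rw [map_neg, ← sub_eq_add_neg] at q2
        rw [q2, mul_zero]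
      case goalB =>
        intro Q hQ hQ'
        have q0 : 0 ≤ ord Q m := by
          rcases Finset.mem_insert.1 ((Finset.mem_union.1 hQ).resolve_left hQ') with rfl | e
          · exact hm
          · rw [Finset.mem_singleton.1 e]
            exact b0
        rw [not_not.1 fun e => hQ' ((hZ Q).2 ⟨e, q0⟩), zero_mul]
    rw [ord_mul P (e1 ▸ mul_ne_zero h0 i4) (inv_ne_zero p0), ord_inv, hP, s1, e1, ord_mul P h0 i4,
      ← a3]
    by_cases hs : vl P w = 0
    · have e2 : P' = P := H.inj _ _ b0 hm b1 (by rw [b2, hs, neg_zero])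
      rw [e2, Finset.pair_eq_singleton, Finset.sum_singleton, (H.bra P hm hs).1]
      ring
    · have e2 : P ≠ P' := fun e => neg_ne h hs (by rw [← b2, ← e])
      rw [Finset.sum_pair e2, b1, H.unif P hm hs]
      ring
  have d1 := dg_dv (k := k) (aeval m (A ^ 2 - B ^ 2 * F) * (aeval m Pi)⁻¹)
  rw [dg_eq_sum (S := {o}) fun P hP => by
    rw [dv_apply, key P (Finset.notMem_singleton.1 hP)], Finset.sum_singleton] at d1
  obtain ⟨c, hc⟩ := (dv_eq_zero_iff (k := k) z0).1 (Finsupp.ext fun P => by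
    by_cases e : P = o
    · rw [e, d1]; rfl
    · rw [dv_apply, key P e]; rfl)
  refine ⟨c, fun e => z0 (by rw [hc, e, map_zero]), inj h ?_⟩
  rw [map_mul, aeval_C, ← hc, inv_mul_cancel_right₀ p0]

end ZerP

open ZerP PtsAux in
theorem zer : ZER := by
  intro k L _ _ _ _ F m w A B h H h0
  obtain ⟨o, o1, o2, o3⟩ := H.inf
  have m0 : m ≠ 0 := fun e => nc h 0 (by rw [e, map_zero])
  have cm : ∀ P : Plk k L, 0 ≤ ord P m → Cg P m (vl P m) := fun P hP => sub_vl_mem hP
  have cw : ∀ P : Plk k L, 0 ≤ ord P m → Cg P w (vl P w) := fun P hP => sub_vl_mem (H.pt P hP).1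
  have cφ : ∀ P : Plk k L, 0 ≤ ord P m → Cg P (aeval m A + aeval m B * w)
      (A.eval (vl P m) + B.eval (vl P m) * vl P w) := fun P hP =>
    add1 ((cm P hP).ae A) (mul1 ((cm P hP).ae B) (cw P hP))
  obtain ⟨d, hd⟩ : ∃ d, d = A.natDegree + B.natDegree := ⟨_, rfl⟩
  have dA : A.natDegree ≤ d + 4 := by omega
  have dB : B.natDegree ≤ d := by omega
  have r1 : (w / m ^ 4) ^ 2 = aeval m⁻¹ (reflect 8 F) := by
    rw [refl m0 (by rw [h.deg]; norm_num), ← h.sq, div_pow, ← pow_mul]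
  have r2 : aeval m⁻¹ (reflect (d + 4) A) + aeval m⁻¹ (reflect d B) * (w / m ^ 4) =
      (m ^ (d + 4))⁻¹ * (aeval m A + aeval m B * w) := by
    rw [refl m0 dA, refl m0 dB]
    field_simp
    ring
  have hnrm := nrm h H h0
  have hdvd := fun P n V => H.dvd P n V A B
  have hch := fun (P : Plk k L) (n : ℕ) (x0 y0 : k) => chart (P := P) (A := A) (B := B) (n := n)
    (x0 := x0) (y0 := y0) h.sq
  have hch' := fun (P : Plk k L) (n : ℕ) (x0 y0 : k) => chart (P := P) (A := reflect (d + 4) A)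
    (B := reflect d B) (n := n) (x0 := x0) (y0 := y0) r1
  rw [r2] at hch'
  generalize aeval m A + aeval m B * w = φ at *
  let Z : Finset (Plk k L) := (dv k φ).support.filter fun P => 0 ≤ ord P m
  have hZ : ∀ Q, Q ∈ Z ↔ ord Q φ ≠ 0 ∧ 0 ≤ ord Q m := fun Q => by
    rw [Finset.mem_filter, Finsupp.mem_support_iff, dv_apply]
  obtain ⟨pl, hpl⟩ : ∃ pl : k × k → Plk k L, ∀ P, 0 ≤ ord P m → pl (co m w P) = P := by
    refine ⟨fun p => if e : p.2 ^ 2 = F.eval p.1 then (H.surj _ _ e).choose else o, fun P hP => ?_⟩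
    have e : (co m w P).2 ^ 2 = F.eval (co m w P).1 := (H.pt P hP).2
    obtain ⟨a1, a2, a3⟩ := (H.surj _ _ e).choose_spec
    exact (dif_pos e).trans (H.inj _ _ a1 hP a2 a3)
  obtain ⟨n, hn⟩ : ∃ n : k × k → ℕ, ∀ P, 0 ≤ ord P m → (n (co m w P) : ℤ) = ord P φ :=
    ⟨fun p => (ord (pl p) φ).toNat, fun P hP => by
      beta_reduce
      rw [hpl P hP, Int.toNat_of_nonneg (ord_nonneg_of_sub (cφ P hP))]⟩
  have hinj : Set.InjOn (co m w) (Z : Set (Plk k L)) := fun P hP Q hQ e => by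
    rw [← hpl P ((hZ P).1 hP).2, e, hpl Q ((hZ Q).1 hQ).2]
  have hs : ∀ p ∈ Z.image (co m w), ∃ P : Plk k L, 0 ≤ ord P m ∧ ord P φ ≠ 0 ∧ co m w P = p := by
    intro p hp
    obtain ⟨P, a1, a2⟩ := Finset.mem_image.1 hp
    exact ⟨P, ((hZ P).1 a1).2, ((hZ P).1 a1).1, a2⟩
  have hmem : ∀ P : Plk k L, 0 ≤ ord P m → φ ∈ Mge P (n (co m w P)) := fun P hP =>
    Or.inr (hn P hP).le
  refine ⟨Z.image (co m w), n, ⟨fun p hp => ?_, fun p hp => ?_, ?_, fun p hp => ?_,
    fun p hp => ?_, ?_⟩, fun P hP => ?_⟩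
  · obtain ⟨P, a1, -, rfl⟩ := hs p hp
    exact (H.pt P a1).2
  · obtain ⟨P, a1, a2, rfl⟩ := hs p hp
    have := ord_nonneg_of_sub (cφ P a1)
    exact zero1 (cφ P a1) (Or.inr (by omega))
  · refine hnrm Z hZ _ (Finset.prod_ne_zero_iff.2 fun p _ => pow_ne_zero _ (X_sub_C_ne_zero _))
      fun P => ?_
    rw [map_prod, ord_prod P _ _ fun p _ => ne0 h (pow_ne_zero _ (X_sub_C_ne_zero _)),
      Finset.sum_image hinj]
    refine Finset.sum_congr rfl fun Q hQ => ?_
    rw [map_pow, ord_pow, hn Q ((hZ Q).1 hQ).2, map_sub, aeval_X, aeval_C]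
    rfl
  · obtain ⟨P, a1, -, rfl⟩ := hs p hp
    exact fun a2 V h1 h2 => (hdvd P _ V a1 a2 h1 h2).1 (hmem P a1)
  · obtain ⟨P, a1, -, rfl⟩ := hs p hp
    refine fun a2 => hch P _ _ _ ?_ (cm P a1) a2 (hmem P a1)
    by_cases a3 : vl P w = 0
    · rw [a3, map_zero, sub_zero, (H.bra P a1 a3).2]
    · exact par h.two h.sq (cw P a1) a2 a3 (H.unif P a1 a3)
  · have p0 : (m ^ (d + 4))⁻¹ ≠ 0 := inv_ne_zero (pow_ne_zero _ m0)
    have q0 : (m ^ 4)⁻¹ ≠ 0 := inv_ne_zero (pow_ne_zero _ m0)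
    have x1 : ord o (w / m ^ 4 - algebraMap k L 0) = 1 := by
      rw [map_zero, sub_zero, div_eq_mul_inv, ord_mul o (w0 h) q0, ord_inv, ord_pow, o1, o2]
      norm_num
    have y1 : Cg o m⁻¹ 0 := Or.inr (by rw [map_zero, sub_zero, ord_inv, o1]; norm_num)
    have e0 : 0 ≤ ord o ((m ^ (d + 4))⁻¹ * φ) := by
      rw [← r2]
      exact ord_nonneg_of_sub (add1 (y1.ae _) (mul1 (y1.ae _) (Or.inr x1.ge)))
    have e1 : ord o ((m ^ (d + 4))⁻¹ * φ) = 2 * d + 8 + ord o φ := by
      rw [ord_mul o p0 h0, ord_inv, ord_pow, o1]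
      push_cast
      ring
    have oZ : o ∉ Z := fun e => by have := ((hZ o).1 e).2; omega
    have e2 := dg_dv (k := k) φ
    rw [dg_eq_sum (S := insert o Z) fun P hP => by
      rw [Finset.mem_insert, not_or] at hP
      rw [dv_apply]
      exact not_not.1 fun e => hP.2 ((hZ P).2 ⟨e, not_lt.1 fun e' => hP.1 (o3 P e')⟩),
      Finset.sum_insert oZ, dv_apply] at e2
    have e3 : ((∑ p ∈ Z.image (co m w), n p : ℕ) : ℤ) = ∑ Q ∈ Z, dv k φ Q := by
      rw [Nat.cast_sum, Finset.sum_image hinj]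
      exact Finset.sum_congr rfl fun Q hQ => by rw [hn Q ((hZ Q).1 hQ).2, dv_apply]
    refine ⟨d, (ord o ((m ^ (d + 4))⁻¹ * φ)).toNat, dA, dB, by omega,
      hch' o _ 0 0 x1 y1 ?_ (Or.inr (Int.toNat_of_nonneg e0).le), fun p hp => ?_⟩
    · rw [← coeff_zero_eq_eval_zero, coeff_derivative, coeff_reflect, revAt_le (by norm_num)]
      have := leadingCoeff_ne_zero.2 (F0 h)
      rw [leadingCoeff, h.deg] at this
      simpa using this
    · obtain ⟨P, a1, -, rfl⟩ := hs p hp
      intro a2 a3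
      have a2' : vl P m ≠ 0 := a2
      obtain ⟨-, u1⟩ := unit a2' (cm P a1)
      refine hch' P _ _ _ ?_ ((cm P a1).inv a2') a3 ?_
      · change ord P (w / m ^ 4 - algebraMap k L (vl P w / vl P m ^ 4)) = 1
        by_cases a4 : vl P w = 0
        · rw [a4, zero_div, map_zero, sub_zero, div_eq_mul_inv, ord_mul P (w0 h) q0, ord_inv,
            ord_pow, u1, (H.bra P a1 a4).2]
          norm_num
        · refine par h.two r1 ?_ a3 (div_ne_zero a4 (pow_ne_zero _ a2')) ?_
          · rw [div_eq_mul_inv, div_eq_mul_inv]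
            exact mul1 (cw P a1) (((cm P a1).pow 4).inv (pow_ne_zero _ a2'))
          · have b0 : algebraMap k L (vl P m) ≠ 0 := (_root_.map_ne_zero _).2 a2'
            have b1 : algebraMap k L (-(vl P m)⁻¹) ≠ 0 :=
              (_root_.map_ne_zero _).2 (neg_ne_zero.2 (inv_ne_zero a2'))
            have e : m⁻¹ - algebraMap k L (vl P m)⁻¹ =
                (m - algebraMap k L (vl P m)) * (m⁻¹ * algebraMap k L (-(vl P m)⁻¹)) := by
              rw [map_neg, map_inv₀]
              field_simp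
              ring
            change ord P (m⁻¹ - algebraMap k L (vl P m)⁻¹) = 1
            rw [e, ord_mul P (sub_ne_zero.2 (nc h _)) (mul_ne_zero (inv_ne_zero m0) b1),
              ord_mul P (inv_ne_zero m0) b1, ord_inv, u1, ord_const, H.unif P a1 a4]
            norm_num
      · rw [mul_mem_Mge_iff p0, ord_inv, ord_pow, u1]
        simpa using hmem P a1
  · split_ifs with e
    · exact (hn P hP).symm
    · exact not_not.1 fun e' => e (Finset.mem_image_of_mem _ ((hZ P).2 ⟨e', hP⟩))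

end Vale.Agent.P027M.FA.Be
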