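import Vale.Agent.P027M.FA.BeAsm
import Vale.Agent.P027M.FA.BeBeta
import Vale.Agent.P027M.FA.BeBl
import Vale.Agent.P027M.FA.BeEq
import Vale.Agent.P027M.FA.BeGauss
import Vale.Agent.P027M.FA.BeGloc
import Vale.Agent.P027M.FA.BeHom
import Vale.Agent.P027M.FA.BeIloc
import Vale.Agent.P027M.FA.BeInv
import Vale.Agent.P027M.FA.BeLb
import Vale.Agent.P027M.FA.BeLoc
import Vale.Agent.P027M.FA.BePos
import Vale.Agent.P027M.FA.BeRed
import Vale.Agent.P027M.FA.BeZer
import Vale.Agent.P027M.FA.BeFin2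
import Vale.Agent.P027M.B.Pts
import Vale.Agent.P027M.B.Gen3

/-! # P027, route M, block FAITH : the height pairing -/

namespace Vale.Agent.P027M.FA

open Be in
theorem be : BE :=
  be_of B.pts (B.gen3 B.pts) (lev (hom iloc))
    (beta (bl iloc (loc (eqa lba gauss) (eqb lbb gauss))) (gloc iloc)) (inv zer) red pos fin2

end Vale.Agent.P027M.FA
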