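import Vale.Agent.P027M.FA.CartDef
import Vale.Agent.P027M.B.Abeld

/-! # P027, route M, row FA.diff : a constant correspondence kills the differentials -/

set_option linter.all false

open Polynomial Vale.Agent.P019P P025H492

noncomputable section

namespace Vale.Agent.P027M.FA

open B B.Abeld

namespace DiffP

section abs
variable {Y A : Type} [AddCommGroup A] {gd : Y → AddSubgroup ℤ} {f : Y → ℤ → A}

theorem f0 (hf : ∀ y, ∀ n ∈ gd y, ∀ n', f y (n + n') = f y n + f y n') (y : Y) : f y 0 = 0 := by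
  simpa using hf y 0 (zero_mem _) 0

theorem fin (hf : ∀ y, ∀ n ∈ gd y, ∀ n', f y (n + n') = f y n + f y n') (D : Y →₀ ℤ) :
    Function.HasFiniteSupport fun y => f y (D y) :=
  D.support.finite_toSet.subset fun y hy => by
    by_contra h
    exact hy (show f y (D y) = 0 by rw [Finsupp.notMem_support_iff.1 h, f0 hf])

/-- the graph of the additive map on the good divisors -/
def G (hf : ∀ y, ∀ n ∈ gd y, ∀ n', f y (n + n') = f y n + f y n') : AddSubgroup ((Y →₀ ℤ) × A) where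
  carrier := {x | (∀ y, x.1 y ∈ gd y) ∧ ∑ᶠ y, f y (x.1 y) = x.2}
  zero_mem' := ⟨fun y => zero_mem _, by simp [f0 hf]⟩
  add_mem' := by
    rintro ⟨D, v⟩ ⟨E, u⟩ ⟨h1, h2⟩ ⟨h3, h4⟩
    refine ⟨fun y => add_mem (h1 y) (h3 y), ?_⟩
    simp only [Prod.fst_add, Prod.snd_add, Finsupp.add_apply] at h1 h2 h4 ⊢
    rw [← h2, ← h4, ← finsum_add_distrib (fin hf D) (fin hf E)]
    exact finsum_congr fun y => hf y _ (h1 y) _
  neg_mem' := by
    rintro ⟨D, v⟩ ⟨h1, h2⟩
    refine ⟨fun y => neg_mem (h1 y), ?_⟩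
    simp only [Prod.fst_neg, Prod.snd_neg, Finsupp.neg_apply] at h1 h2 ⊢
    rw [← h2, ← finsum_neg_distrib]
    refine finsum_congr fun y => eq_neg_of_add_eq_zero_right ?_
    rw [← hf y _ (h1 y), add_neg_cancel, f0 hf]

theorem G_single (hf : ∀ y, ∀ n ∈ gd y, ∀ n', f y (n + n') = f y n + f y n') {y : Y} {n : ℤ}
    (h : n ∈ gd y) : (Finsupp.single y n, f y n) ∈ G hf := by
  classical
  refine ⟨fun z => ?_, ?_⟩
  · show Finsupp.single y n z ∈ gd z
    rw [Finsupp.single_apply]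
    split_ifs with e
    · exact e ▸ h
    · exact zero_mem _
  · show ∑ᶠ z, f z (Finsupp.single y n z) = f y n
    rw [finsum_eq_single _ y fun z hz => by rw [Finsupp.single_eq_of_ne hz, f0 hf],
      Finsupp.single_eq_same]

theorem G_inv (hf : ∀ y, ∀ n ∈ gd y, ∀ n', f y (n + n') = f y n + f y n') {D : Y →₀ ℤ} {v : A}
    (h : (D, v) ∈ G hf) {σ : Y → Y} (hσ : Function.Involutive σ)
    (e : ∀ y, f (σ y) (D (σ y)) = -f y (D y)) : v = -v := by
  have h2 : ∑ᶠ y, f y (D y) = v := h.2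
  rw [← h2, ← finsum_neg_distrib, ← finsum_comp (g := fun y => f y (D y)) σ hσ.bijective]
  exact finsum_congr e

end abs

section val
variable {K : Type} (Om : Type) [Field K] [Field Om] [Algebra K Om] (d : K → K) (F : K[X])
  (p j : ℕ)

/-- the value at a separable point -/
def A1 (μ s : Om) : Om := μ ^ j * dd Om d μ / s

/-- the value at an inseparable point -/
def A2 (μ s : Om) : Om :=
  (∑ i ∈ Finset.range 3, algebraMap K Om (cm F p j i) * (μ ^ p) ^ i) * dd Om d (μ ^ p) / s ^ p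

variable {Om}

theorem A2_zero [CharP K p] (d : Derivation ℤ K K) {μ : Om} (h : ∃ x : K, algebraMap K Om x = μ)
    (s : Om) : A2 Om d F p j μ s = 0 := by
  obtain ⟨x, rfl⟩ := h
  rw [A2, ← map_pow, dd_map, Derivation.leibniz_pow, nsmul_eq_mul, CharP.cast_eq_zero, zero_mul,
    map_zero, mul_zero, zero_div]

variable {L : Type} [Field L] [Algebra Om L] [CFF Om L] (m w : L)

/-- the allowed multiplicities -/
def gd (K : Type) [Field K] [Algebra K Om] (p : ℕ) (m w : L) (P : Plk Om L) : AddSubgroup ℤ where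
  carrier := {n | 0 ≤ ord P m → (n ≠ 0 → (∃ x : K, algebraMap K Om x = vl P m ^ p) ∧
    ∃ x : K, algebraMap K Om x = vl P w ^ p) ∧
    ((∃ x : K, algebraMap K Om x = vl P m) ∨ (p : ℤ) ∣ n)}
  zero_mem' := fun _ => ⟨fun h => absurd rfl h, Or.inr (dvd_zero _)⟩
  add_mem' := by
    intro a b ha hb h
    refine ⟨fun h0 => ?_, ?_⟩
    · by_cases h1 : a = 0
      · exact (hb h).1 (by omega)
      · exact (ha h).1 h1
    · rcases (ha h).2 with h1 | h1
      · exact Or.inl h1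
      · exact (hb h).2.imp id (dvd_add h1)
  neg_mem' := fun {a} ha h => ⟨fun h0 => (ha h).1 (by omega), (ha h).2.imp id dvd_neg.2⟩

/-- the value of a multiple of a place -/
def fv (P : Plk Om L) (n : ℤ) : Om :=
  if 0 ≤ ord P m then n * A1 Om d j (vl P m) (vl P w) +
    (n / p : ℤ) * A2 Om d F p j (vl P m) (vl P w) else 0

theorem fv_add [CharP K p] (d : Derivation ℤ K K) : ∀ P : Plk Om L, ∀ n ∈ gd K p m w P, ∀ n' : ℤ,
    fv d F p j m w P (n + n') = fv d F p j m w P n + fv d F p j m w P n' := by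
  intro P n hn n'
  unfold fv
  split_ifs with h
  · rcases (hn h).2 with h1 | h1
    · rw [A2_zero F p j d h1]; push_cast; ring
    · rw [Int.add_ediv_of_dvd_left h1]; push_cast; ring
  · rw [add_zero]

variable {m w} {FO : Om[X]}

theorem pt_eq (hP : Pts FO m w) {μ s : Om} (hs : s ^ 2 = FO.eval μ) :
    ∃ P : Plk Om L, 0 ≤ ord P m ∧ vl P m = μ ∧ vl P w = s ∧ pt m w μ s = Finsupp.single P 1 := by
  have h := hP.surj μ s hs
  exact ⟨h.choose, h.choose_spec.1, h.choose_spec.2.1, h.choose_spec.2.2, dif_pos h⟩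

theorem pt_mem [CharP K p] (d : Derivation ℤ K K) (hP : Pts FO m w) {μ s : Om}
    (hs : s ^ 2 = FO.eval μ) (h1 : ∃ x : K, algebraMap K Om x = μ ^ p)
    (h2 : ∃ x : K, algebraMap K Om x = s ^ p) {n : ℤ}
    (h3 : (∃ x : K, algebraMap K Om x = μ) ∨ (p : ℤ) ∣ n) :
    (n • pt m w μ s, n * A1 Om d j μ s + (n / p : ℤ) * A2 Om d F p j μ s) ∈
      G (fv_add F p j m w d) := by
  obtain ⟨P, a1, rfl, rfl, e⟩ := pt_eq hP hs
  have := G_single (fv_add F p j m w d) (y := P) (n := n) fun _ => ⟨fun _ => ⟨h1, h2⟩, h3⟩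
  rwa [fv, if_pos a1, ← Finsupp.smul_single_one, ← e] at this

open Classical in
theorem pt_apply (hP : Pts FO m w) {μ s : Om} (hs : s ^ 2 = FO.eval μ) {Q : Plk Om L}
    (hQ : 0 ≤ ord Q m) : pt m w μ s Q = if vl Q m = μ ∧ vl Q w = s then 1 else 0 := by
  obtain ⟨P, a1, rfl, rfl, e⟩ := pt_eq hP hs
  rw [e, Finsupp.single_apply]
  exact if_congr ⟨fun h => h ▸ ⟨rfl, rfl⟩, fun h => (hP.inj Q P hQ a1 h.1 h.2).symm⟩ rfl rfl

theorem N_ne (hP : Pts FO m w) (hH : Hyp FO m w) {a b : Om[X]} (hab : IsCoprime a b) :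
    a ^ 2 - b ^ 2 * FO ≠ 0 := fun h => by
  have hmul : (aeval m a + aeval m b * w) * (aeval m a + aeval m (-b) * w) = 0 := by
    rw [← map_zero (aeval m : Om[X] →ₐ[Om] L), ← h, map_sub, map_mul, map_pow, map_pow,
      map_neg, ← hH.sq]
    ring
  rcases mul_eq_zero.1 hmul with h | h
  · obtain ⟨rfl, rfl⟩ := hP.indep a b h
    exact not_isCoprime_zero_zero hab
  · obtain ⟨rfl, h2⟩ := hP.indep a (-b) h
    rw [neg_eq_zero.1 h2] at hab
    exact not_isCoprime_zero_zero hab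

open Classical in
/-- the orders of a function at the points which are not branch points -/
theorem shape (hP : Pts FO m w) (hH : Hyp FO m w) {φ : L} (hφ : φ ≠ 0) :
    ∃ (a b V N : Om[X]) (κ : Om → ℤ), a ^ 2 - b ^ 2 * FO = N ∧ N ≠ 0 ∧ N ∣ a + b * V ∧
      N ∣ V ^ 2 - FO ∧ ∀ P : Plk Om L, 0 ≤ ord P m → vl P w ≠ 0 → dv Om φ P = κ (vl P m) +
        if V.eval (vl P m) = vl P w then (N.rootMultiplicity (vl P m) : ℤ) else 0 := by
  obtain ⟨a, b, c, hc, h⟩ := hH.top φ
  obtain ⟨a', b', h1, h2, h3⟩ := extract_gcd a b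
  have hcop := (gcd_isUnit_iff a' b').1 h3
  have e : aeval m c * φ = aeval m (gcd a b) * (aeval m a' + aeval m b' * w) := by
    rw [h, mul_add, ← mul_assoc, ← map_mul, ← map_mul, ← h1, ← h2]
  have h0 := mul_ne_zero (aeval_ne hH hc) hφ
  rw [e] at h0
  have hg : gcd a b ≠ 0 := fun h => left_ne_zero_of_mul h0 (by rw [h, map_zero])
  obtain ⟨V, hV1, hV2⟩ := ex_V (F := FO) hcop
  have hN0 := N_ne hP hH hcop
  refine ⟨a', b', V, _, fun μ => ((gcd a b).rootMultiplicity μ : ℤ) - c.rootMultiplicity μ, rfl,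
    hN0, hV1, hV2, fun P h4 h5 => ?_⟩
  have h6 := congrArg (ord P) e
  rw [ord_mul P (aeval_ne hH hc) hφ, ord_mul P (left_ne_zero_of_mul h0) (right_ne_zero_of_mul h0),
    ord_aeval hH hP h4 h5 hc, ord_aeval hH hP h4 h5 hg] at h6
  obtain ⟨h7, h8, h9⟩ := ord_ab hH hP rfl hN0 hV1 hV2 h4 h5
  rw [dv_apply]
  beta_reduce
  split_ifs with h10
  · rw [← h7 h10]; omega
  · have : ord P (aeval m a' + aeval m b' * w) = 0 := by
      by_cases hr : (a' ^ 2 - b' ^ 2 * FO).IsRoot (vl P m)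
      · exact h8 ((sq_eq_sq_iff_eq_or_eq_neg.1
          ((hP.pt P h4).2.trans (root_sq hV2 hr).symm)).resolve_left (Ne.symm h10)).symm
      · exact h9 hr
    omega

theorem prin (h : POLY) [CharP K p] (hp : p.Prime) (d : Derivation ℤ K K)
    (hd : ∀ i, d (F.coeff i) = 0) (hH : Hyp (F.map (algebraMap K Om)) m w)
    (hP : Pts (F.map (algebraMap K Om)) m w)
    (hr : ∀ μ, (F.map (algebraMap K Om)).eval μ = 0 → ∃ x : K, algebraMap K Om x = μ)
    (hj : j < 3) {φ : L} (hφ : φ ≠ 0) {v : Om} (hv : (dv Om φ, v) ∈ G (fv_add F p j m w d)) :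
    v = 0 := by
  classical
  have := CFF.ac (k := Om) (F := L)
  have two : (2 : K) ≠ 0 := fun e => hH.two (by rw [← map_ofNat (algebraMap K Om) 2, e, map_zero])
  have odd : Odd p := hp.odd_of_ne_two fun e => two (by
    have := CharP.cast_eq_zero K p
    rwa [e, Nat.cast_ofNat] at this)
  obtain ⟨a, b, V, N, κ, hN, hN0, hV1, hV2, hφ'⟩ := shape hP hH hφ
  have key : ∀ μ, N.IsRoot μ → (∃ ν : K, algebraMap K Om ν = μ ^ p) ∧
      (∃ t : K, algebraMap K Om t = V.eval μ ^ p) ∧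
      ((∃ x : K, algebraMap K Om x = μ) ∨ p ∣ N.rootMultiplicity μ) := by
    intro μ hμ
    have h1 := root_sq hV2 hμ
    by_cases h0 : V.eval μ = 0
    · obtain ⟨x, hx⟩ := hr μ (by rw [← h1, h0, zero_pow two_ne_zero])
      exact ⟨⟨x ^ p, by rw [map_pow, hx]⟩, ⟨0, by rw [h0, zero_pow hp.ne_zero, map_zero]⟩,
        Or.inl ⟨x, hx⟩⟩
    obtain ⟨P, p1, p2, p3⟩ := hP.surj μ _ h1
    obtain ⟨Q, q1, q2, q3⟩ := hP.surj μ (-V.eval μ) (by rw [neg_sq, h1])
    have e1 := hφ' P p1 (by rwa [p3])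
    have e2 := hφ' Q q1 (by rw [q3]; exact neg_ne_zero.2 h0)
    rw [p2, p3, if_pos rfl] at e1
    rw [q2, q3, if_neg (fun e => mul_ne_zero hH.two h0 (by linear_combination e)), add_zero] at e2
    have g1 := hv.1 P p1
    have g2 := hv.1 Q q1
    simp only [p2, p3, q2, q3, e1, e2] at g1 g2
    have h3 := (rootMultiplicity_pos hN0).2 hμ
    have h4 : (∃ x : K, algebraMap K Om x = μ) ∨ p ∣ N.rootMultiplicity μ := by
      rcases g2.2 with h5 | h5
      · exact Or.inl h5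
      · exact g1.2.imp id fun h6 => Int.natCast_dvd_natCast.1 ((dvd_add_right h5).1 h6)
    by_cases h5 : κ μ = 0
    · exact ⟨(g1.1 (by omega)).1, (g1.1 (by omega)).2, h4⟩
    · obtain ⟨h6, t, ht⟩ := g2.1 h5
      exact ⟨h6, ⟨-t, by rw [map_neg, ht, odd.neg_pow, neg_neg]⟩, h4⟩
  have h1 := h K Om p d F a b V N hp two (by rw [← hH.deg, natDegree_map])
    ((separable_map _).1 hH.sep) hd hN hN0 hV1 hV2 key j hj
  have hm : ∀ μ ∈ N.roots.toFinset, N.IsRoot μ := fun μ hμ =>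
    (mem_roots hN0).1 (Multiset.mem_toFinset.1 hμ)
  have h2 := sub_mem hv (sum_mem fun μ (hμ : μ ∈ N.roots.toFinset) =>
    pt_mem F p j d hP (root_sq hV2 (hm μ hμ)) (key μ (hm μ hμ)).1 (key μ (hm μ hμ)).2.1
      (n := N.rootMultiplicity μ) ((key μ (hm μ hμ)).2.2.imp id Int.natCast_dvd_natCast.2))
  rw [← prod_mk_sum, Prod.mk_sub_mk] at h2
  have h3 : ∑ μ ∈ N.roots.toFinset, (((N.rootMultiplicity μ : ℤ) : Om) * A1 Om d j μ (V.eval μ) +
      ((N.rootMultiplicity μ : ℤ) / p : ℤ) * A2 Om d F p j μ (V.eval μ)) = 0 := by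
    rw [← h1]
    refine Finset.sum_congr rfl fun μ _ => ?_
    rw [← Int.natCast_ediv, Int.cast_natCast, Int.cast_natCast, A1, A2]
  rw [h3, sub_zero] at h2
  have h4 : ∀ P : Plk Om L, 0 ≤ ord P m → vl P w ≠ 0 → (dv Om φ - ∑ μ ∈ N.roots.toFinset,
      (N.rootMultiplicity μ : ℤ) • pt m w μ (V.eval μ) : Plk Om L →₀ ℤ) P = κ (vl P m) := by
    intro P p1 p2
    rw [Finsupp.sub_apply, hφ' P p1 p2, Finsupp.finset_sum_apply,
      Finset.sum_eq_single (vl P m) (fun μ hμ e => ?_) fun e => ?_]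
    · by_cases e : N.IsRoot (vl P m)
      · rw [Finsupp.smul_apply, pt_apply hP (root_sq hV2 e) p1]
        by_cases e1 : V.eval (vl P m) = vl P w
        · simp [e1]
        · simp [e1, Ne.symm e1]
      · simp [rootMultiplicity_eq_zero e]
    · rw [Finsupp.smul_apply, pt_apply hP (root_sq hV2 (hm μ hμ)) p1, if_neg fun c => e c.1.symm,
        smul_zero]
    · rw [rootMultiplicity_eq_zero fun c => e (Multiset.mem_toFinset.2 ((mem_roots hN0).2 c))]
      simp
  have h5 : ∀ P : Plk Om L, ∃ Q : Plk Om L, (¬ 0 ≤ ord P m → Q = P) ∧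
      (0 ≤ ord P m → 0 ≤ ord Q m ∧ vl Q m = vl P m ∧ vl Q w = -vl P w) := by
    intro P
    by_cases c : 0 ≤ ord P m
    · obtain ⟨Q, q⟩ := hP.surj (vl P m) (-vl P w) (by rw [neg_sq, (hP.pt P c).2])
      exact ⟨Q, fun e => absurd c e, fun _ => q⟩
    · exact ⟨P, fun _ => rfl, fun e => absurd e c⟩
  choose σ s1 s2 using h5
  have h6 := G_inv _ h2 (σ := σ) (fun P => ?_) fun P => ?_
  · exact mul_left_cancel₀ hH.two (by linear_combination h6)
  · by_cases c : 0 ≤ ord P m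
    · obtain ⟨a1, a2, a3⟩ := s2 P c
      obtain ⟨b1, b2, b3⟩ := s2 _ a1
      exact hP.inj _ _ b1 c (b2.trans a2) (by rw [b3, a3, neg_neg])
    · rw [s1 P c, s1 P c]
  · by_cases c : 0 ≤ ord P m
    · obtain ⟨a1, a2, a3⟩ := s2 P c
      rw [fv, fv, if_pos a1, if_pos c, a2, a3]
      by_cases c1 : vl P w = 0
      · simp [c1, A1, A2, hp.ne_zero]
      · rw [h4 P c c1, h4 _ a1 (by rw [a3]; exact neg_ne_zero.2 c1), a2, A1, A1, A2, A2,
          odd.neg_pow, div_neg, div_neg]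
        ring
    · rw [s1 P c, fv, if_neg c, neg_zero]

end val

end DiffP

open DiffP in
theorem diff (hP : PTS) (h : POLY) : DIFF := by
  intro k K Om L _ _ _ _ _ _ _ _ _ _ _ _ F m w hH p hp _ d ι κ _ _ μ s n ν t ν' t' r h1 h2 h3 j hj
  have := CFF.ac (k := k) (F := K)
  have : CharP K p := charP_of_injective_algebraMap (algebraMap k K).injective p
  have : CharP Om p := charP_of_injective_algebraMap (algebraMap k Om).injective p
  have hp' := hP Om L _ m w hH
  have eF : (F.map (algebraMap k K)).map (algebraMap K Om) = F.map (algebraMap k Om) := by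
    rw [Polynomial.map_map, ← IsScalarTower.algebraMap_eq]
  set d0 : Derivation ℤ K K := d.restrictScalars ℤ with hd0
  have dk : ∀ a : k, d0 (algebraMap k K a) = 0 := fun a => d.map_algebraMap a
  have hcm : ∀ i, cm (F.map (algebraMap k K)) p j i = algebraMap k K (cm F p j i) := fun i => by
    rw [cm, cm, ← coeff_map, Polynomial.map_mul, Polynomial.map_pow, Polynomial.map_pow, map_X]
  obtain ⟨φ, hφ, hE⟩ := h3
  have g1 := sum_mem fun a (_ : a ∈ Finset.univ) =>
    pt_mem (F.map (algebraMap k K)) p j d0 hp' (μ := algebraMap K Om (μ a))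
      (s := algebraMap K Om (s a)) (by
        rw [← map_pow, (h1 a).1, eval_map_algebraMap, aeval_algebraMap_apply])
      ⟨_, map_pow _ _ _⟩ ⟨_, map_pow _ _ _⟩ (n := n a) (Or.inl ⟨_, rfl⟩)
  have g2 := sum_mem fun b (_ : b ∈ Finset.univ) =>
    pt_mem (F.map (algebraMap k K)) p j d0 hp' (μ := ν' b) (s := t' b) (by
        rw [(h2 b).1, eval_map_algebraMap]) ⟨_, (h2 b).2.2.1.symm⟩ ⟨_, (h2 b).2.2.2.symm⟩
      (n := p * r b) (Or.inr (dvd_mul_right _ _))
  have g3 := add_mem g1 g2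
  rw [← prod_mk_sum, ← prod_mk_sum, Prod.mk_add_mk] at g3
  set D := ∑ a, n a • pt m w (algebraMap K Om (μ a)) (algebraMap K Om (s a)) +
      ∑ b, (p * r b) • pt m w (ν' b) (t' b) with hD
  have cst : ∀ P : Plk Om L, 0 ≤ ord P m → (D - dv Om φ) P ≠ 0 →
      ∃ a b : k, algebraMap K Om (algebraMap k K a) = vl P m ∧
        algebraMap K Om (algebraMap k K b) = vl P w := by
    intro P c c1
    obtain ⟨a, ha⟩ := (hE P c1).resolve_left (not_lt.2 c)
    obtain ⟨b, hb⟩ := IsAlgClosed.exists_pow_nat_eq (F.eval a) two_pos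
    have e := (hp'.pt P c).2
    rw [ha, eval_map_algebraMap, aeval_algebraMap_apply, coe_aeval_eq_eval, ← hb, map_pow] at e
    simp only [← IsScalarTower.algebraMap_apply]
    rcases sq_eq_sq_iff_eq_or_eq_neg.1 e with e | e
    · exact ⟨a, b, ha.symm, e.symm⟩
    · exact ⟨a, -b, ha.symm, by rw [e, map_neg]⟩
  have g4 : (D - dv Om φ, (0 : Om)) ∈ G (fv_add (F.map (algebraMap k K)) p j m w d0) := by
    refine ⟨fun P c => ?_, finsum_eq_zero_of_forall_eq_zero fun P => ?_⟩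
    · by_cases c1 : (D - dv Om φ) P = 0
      · exact ⟨fun e => absurd c1 e, Or.inr (c1 ▸ dvd_zero _)⟩
      · obtain ⟨a, b, ha, hb⟩ := cst P c c1
        exact ⟨fun _ => ⟨⟨_, by rw [← ha, map_pow]⟩, ⟨_, by rw [← hb, map_pow]⟩⟩, Or.inl ⟨_, ha⟩⟩
    · show fv _ _ p j m w P ((D - dv Om φ) P) = 0
      by_cases c1 : (D - dv Om φ) P = 0
      · rw [c1, fv]
        simp
      · rw [fv]
        split_ifs with c
        · obtain ⟨a, b, ha, hb⟩ := cst P c c1
          rw [A2_zero _ p j d0 ⟨_, ha⟩, A1, ← ha, dd_map, dk]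
          simp
        · rfl
  have g5 := sub_mem g3 g4
  rw [Prod.mk_sub_mk, sub_sub_cancel, sub_zero] at g5
  have g6 := prin (F.map (algebraMap k K)) p j h hp d0 (fun i => by rw [coeff_map, dk])
    (eF ▸ hH) (eF ▸ hp') (fun x hx => ?_) hj hφ g5
  · refine (algebraMap K Om).injective ?_
    rw [map_zero, ← g6, map_add, map_sum, map_sum]
    congr 1
    · refine Finset.sum_congr rfl fun a _ => ?_
      rw [A2_zero _ p j d0 ⟨_, rfl⟩, A1, dd_map]
      simp [hd0]
    · refine Finset.sum_congr rfl fun b _ => ?_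
      rw [A2, (h2 b).2.2.1, (h2 b).2.2.2, dd_map,
        Int.mul_ediv_cancel_left _ (Int.natCast_ne_zero.2 hp.ne_zero)]
      simp [hd0, hcm]
  · have F0 : F ≠ 0 := fun e => by
      have := hH.deg
      rw [e, Polynomial.map_zero, natDegree_zero] at this
      omega
    rw [eF, eval_map_algebraMap] at hx
    obtain ⟨a, ha⟩ := minpoly.mem_range_of_degree_eq_one k x
      (IsAlgClosed.degree_eq_one_of_irreducible k
        (minpoly.irreducible (IsAlgebraic.isIntegral ⟨F, F0, hx⟩)))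
    exact ⟨algebraMap k K a, by rw [← IsScalarTower.algebraMap_apply, ha]⟩

end Vale.Agent.P027M.FA
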