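import Vale.Agent.P027M.FA.CartDef
import Vale.Agent.P027M.B.Abeld

/-! # P027, route M, block FAITH : Abel's theorem with inseparable points -/

set_option linter.all false

open Polynomial

noncomputable section

namespace Vale.Agent.P027M.FA

open B

namespace Poly

variable {K Om : Type} [Field K] [Field Om] [Algebra K Om] {F U W : K[X]} {a b V N : Om[X]}

/-- a linear form applied to the coefficients -/
def La (l : Om →ₗ[K] K) : Om[X] →ₗ[K] K[X] := lsum fun i => (monomial i).comp l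

theorem La_coeff (l : Om →ₗ[K] K) (P : Om[X]) (i : ℕ) : (La l P).coeff i = l (P.coeff i) := by
  induction P using Polynomial.induction_on' with
  | add P Q x y => simp only [map_add, coeff_add, x, y]
  | monomial n c =>
    rw [La, lsum_apply, sum_monomial_index _ _ (by simp)]
    simp only [LinearMap.comp_apply, coeff_monomial]
    split_ifs <;> simp

theorem La_mul (l : Om →ₗ[K] K) (P : Om[X]) (R : K[X]) :
    La l (P * R.map (algebraMap K Om)) = La l P * R := by
  ext n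
  simp only [La_coeff, coeff_mul, map_sum, coeff_map]
  exact Finset.sum_congr rfl fun x _ => by
    rw [mul_comm, ← Algebra.smul_def, map_smul, smul_eq_mul, mul_comm]

theorem La_deg (l : Om →ₗ[K] K) (P : Om[X]) : (La l P).degree ≤ P.degree :=
  (degree_le_iff_coeff_zero _ _).2 fun i h => by
    rw [La_coeff, coeff_eq_zero_of_degree_lt h, map_zero]

theorem deg (hF : F.natDegree = 7) (a b : K[X]) :
    (a ^ 2 - b ^ 2 * F).degree = max (a.degree + a.degree) (b.degree + b.degree + 7) := by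
  have F0 : F ≠ 0 := fun h => by simp [h] at hF
  have e : (b ^ 2 * F).degree = b.degree + b.degree + 7 := by
    rw [sq, degree_mul, degree_mul, degree_eq_natDegree F0, hF]; rfl
  rw [← e, ← degree_mul, ← sq]
  rcases lt_trichotomy (a ^ 2).degree (b ^ 2 * F).degree with h | h | h
  · rw [degree_sub_eq_right_of_degree_lt h, max_eq_right h.le]
  · rcases eq_or_ne b 0 with rfl | b0
    · simp
    · have := natDegree_eq_of_degree_eq h
      rw [natDegree_mul (pow_ne_zero 2 b0) F0, natDegree_pow, natDegree_pow] at this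
      omega
  · rw [degree_sub_eq_left_of_degree_lt h, max_eq_left h.le]

theorem desc (hF : F.natDegree = 7) (hN : a ^ 2 - b ^ 2 * F.map (algebraMap K Om) = N) (N0 : N ≠ 0)
    (hU : U.Monic) (hd : U.natDegree = N.natDegree)
    (h1 : U.map (algebraMap K Om) ∣ a + b * W.map (algebraMap K Om)) (h2 : U ∣ W ^ 2 - F) :
    ∃ (A B : K[X]) (c : K), c ≠ 0 ∧ U ∣ A + B * W ∧ A ^ 2 - B ^ 2 * F = C c * U := by
  obtain ⟨l, hl⟩ : ∃ l : Om →ₗ[K] K, ¬ (La l a = 0 ∧ La l b = 0) := by
    by_contra! h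
    have z : ∀ P : Om[X], (∀ l : Om →ₗ[K] K, La l P = 0) → P = 0 := fun P e => ext fun i =>
      (Module.forall_dual_apply_eq_zero_iff K _).1 fun l => by rw [← La_coeff, e]; rfl
    exact N0 (by simp [← hN, z a fun l => (h l).1, z b fun l => (h l).2])
  obtain ⟨Q, hQ⟩ := h1
  have e : U ∣ La l a + La l b * W := ⟨La l Q, by
    rw [← La_mul, ← map_add, hQ, mul_comm, La_mul, mul_comm]⟩
  have d := deg hF (La l a) (La l b)
  refine ⟨_, _, _, leadingCoeff_ne_zero.2 fun z => hl ?_, e,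
    eq_leadingCoeff_mul_of_monic_of_dvd_of_natDegree_le hU ?_ (hd ▸ natDegree_le_natDegree ?_)⟩
  · rw [z, degree_zero, eq_comm, max_eq_bot] at d
    simpa using d
  · rw [show La l a ^ 2 - La l b ^ 2 * F =
      (La l a + La l b * W) * (La l a - La l b * W) + La l b ^ 2 * (W ^ 2 - F) by ring]
    exact dvd_add (e.mul_right _) (h2.mul_left _)
  · rw [d, ← hN, deg (by rwa [natDegree_map])]
    gcongr <;> exact La_deg _ _

theorem root_sq (h : N ∣ V ^ 2 - F.map (algebraMap K Om)) {μ : Om} (r : N.IsRoot μ) :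
    V.eval μ ^ 2 = (F.map (algebraMap K Om)).eval μ := by
  have := (r.dvd h).eq_zero
  rwa [eval_sub, eval_pow, sub_eq_zero] at this

theorem mult_one (hs : F.Separable) (N0 : N ≠ 0) (h : N ∣ V ^ 2 - F.map (algebraMap K Om)) {μ : Om}
    (r : N.IsRoot μ) (z : V.eval μ = 0) : N.rootMultiplicity μ = 1 := by
  have h3 := (rootMultiplicity_pos N0).2 r
  by_contra h4
  have := dvd_sub (pow_dvd_pow_of_dvd (dvd_iff_isRoot.2 z) 2)
    (((pow_dvd_pow _ (by omega)).trans (pow_rootMultiplicity_dvd N μ)).trans h)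
  rw [sub_sub_cancel, sq] at this
  exact not_isUnit_X_sub_C μ (hs.map.squarefree _ this)

theorem exV {p : ℕ} [Fact p.Prime] [CharP Om p] (h2 : p ≠ 2) (hs : F.Separable) (N0 : N ≠ 0)
    (h : N ∣ V ^ 2 - F.map (algebraMap K Om))
    (hr : ∀ μ, N.IsRoot μ → (∃ ν : K, algebraMap K Om ν = μ ^ p) ∧
      ∃ t : K, algebraMap K Om t = V.eval μ ^ p) : ∃ W : K[X], ∀ μ, N.IsRoot μ →
      (X - C μ) ^ N.rootMultiplicity μ ∣ W.map (algebraMap K Om) - V := by
  classical
  have hp : p.Prime := Fact.out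
  obtain ⟨k, hk⟩ := (hp.odd_of_ne_two h2).pow (n := N.natDegree + 1)
  choose! ν hν using fun μ r => (hr μ r).1
  choose! t ht using fun μ r => (hr μ r).2
  have m : ∀ {μ}, μ ∈ N.roots.toFinset ↔ N.IsRoot μ := by simp [N0]
  have w : ∀ {x : K} {y : Om}, algebraMap K Om x = y ^ p →
      algebraMap K Om (x ^ p ^ N.natDegree) = y ^ p ^ (N.natDegree + 1) := fun e => by
    rw [map_pow, e, ← pow_mul, pow_succ']
  let I := Lagrange.interpolate N.roots.toFinset (fun μ => ν μ ^ p ^ N.natDegree)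
    fun μ => (t μ ^ p ^ N.natDegree)⁻¹
  refine ⟨expand K (p ^ (N.natDegree + 1)) I * F ^ (k + 1), fun μ r => ?_⟩
  have sq := root_sq h r
  by_cases z : V.eval μ = 0
  · rw [mult_one hs N0 h r z, pow_one, dvd_iff_isRoot]
    simp [← sq, z]
  have e : (I.map (algebraMap K Om)).eval (μ ^ p ^ (N.natDegree + 1)) =
      (V.eval μ ^ p ^ (N.natDegree + 1))⁻¹ := by
    rw [← w (hν μ r), eval_map_apply, Lagrange.eval_interpolate_at_node _ (fun x a y b e =>
      (iterateFrobenius Om p (N.natDegree + 1)).injective ((w (hν x (m.1 a))).symm.trans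
        ((congrArg _ e).trans (w (hν y (m.1 b)))))) (m.2 r), map_inv₀, w (ht μ r)]
  have l : (X - C μ) ^ N.rootMultiplicity μ ∣ (X - C μ) ^ p ^ (N.natDegree + 1) :=
    pow_dvd_pow _ ((count_roots N ▸ (Multiset.count_le_card _ _).trans (card_roots' N)).trans
      ((Nat.le_succ _).trans (Nat.lt_pow_self hp.one_lt).le))
  have d1 := map_dvd (expand Om (p ^ (N.natDegree + 1))) (X_sub_C_dvd_sub_C_eval
    (a := μ ^ p ^ (N.natDegree + 1)) (p := I.map (algebraMap K Om)))
  rw [e, map_sub, map_sub, expand_X, expand_C, expand_C, C_pow, ← sub_pow_char_pow] at d1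
  have d2 := pow_dvd_pow_of_dvd (X_sub_C_dvd_sub_C_eval (a := μ) (p := V)) (p ^ (N.natDegree + 1))
  rw [sub_pow_char_pow V, ← C_pow] at d2
  have d3 := ((pow_rootMultiplicity_dvd N μ).trans h).trans (sub_dvd_pow_sub_pow _ _ (k + 1))
  have u : C (V.eval μ ^ p ^ (N.natDegree + 1))⁻¹ * C (V.eval μ ^ p ^ (N.natDegree + 1)) = 1 := by
    rw [← C_mul, inv_mul_cancel₀ (pow_ne_zero _ z), C_1]
  have v : (V ^ 2) ^ (k + 1) = V * V ^ p ^ (N.natDegree + 1) := by rw [hk]; ring
  rw [Polynomial.map_mul, Polynomial.map_pow, map_expand]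
  generalize C (V.eval μ ^ p ^ (N.natDegree + 1))⁻¹ = c' at *
  refine (dvd_add (dvd_sub ((l.trans d1).mul_right (F.map (algebraMap K Om) ^ (k + 1)))
    (d3.mul_left c')) ((l.trans d2).mul_left (c' * V))).trans (dvd_of_eq ?_)
  linear_combination -c' * v - V * u

theorem split {α : Type} (T : Finset α) (R Z : α → Prop) : ∃ T₁ T₂ T₃ : Finset α,
    (∀ {x}, x ∈ T₁ → x ∈ T ∧ R x ∧ ¬ Z x) ∧ (∀ {x}, x ∈ T₂ → x ∈ T ∧ R x ∧ Z x) ∧
    (∀ {x}, x ∈ T₃ → x ∈ T ∧ ¬ R x) ∧ ∀ (M : Type) [CommMonoid M] (φ : α → M),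
      ∏ x ∈ T, φ x = (∏ x : T₁, φ x) * (∏ x ∈ T₂, φ x) * ∏ x : T₃, φ x := by
  classical
  refine ⟨(T.filter R).filter (¬ Z ·), (T.filter R).filter Z, T.filter (¬ R ·),
    by simp +contextual, by simp +contextual, by simp +contextual, fun M _ φ => ?_⟩
  rw [Finset.prod_coe_sort, Finset.prod_coe_sort, Finset.prod_filter_not_mul_prod_filter,
    Finset.prod_filter_mul_prod_filter_not]

end Poly

open Poly in
theorem poly (h : B.ABEL) : POLY := by
  intro K Om _ _ _ _ p _ d F a b V N hp h2 hF hs hd hN N0 h1 hV hr j hj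
  classical
  haveI := Fact.mk hp
  have fi := (algebraMap K Om).injective
  haveI := charP_of_injective_algebraMap fi p
  have p2 : p ≠ 2 := fun e => h2 (by simpa [e] using CharP.cast_eq_zero K p)
  obtain ⟨W, hW⟩ := exV p2 hs N0 hV fun μ r => ⟨(hr μ r).1, (hr μ r).2.1⟩
  obtain ⟨g, hg⟩ : ∃ g : Om → K, ∀ {z}, (∃ x, algebraMap K Om x = z) → algebraMap K Om (g z) = z :=
    ⟨Function.invFun _, Function.invFun_eq⟩
  obtain ⟨T, hT⟩ : ∃ T, T = N.roots.toFinset := ⟨_, rfl⟩
  have m : ∀ {μ}, μ ∈ T → N.IsRoot μ := by simp [hT]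
  have ev : ∀ {μ}, μ ∈ T → (W.map (algebraMap K Om)).eval μ = V.eval μ := fun t => by
    have := dvd_iff_isRoot.1 ((dvd_pow_self _ ((rootMultiplicity_pos N0).2 (m t)).ne').trans
      (hW _ (m t)))
    rwa [IsRoot, eval_sub, sub_eq_zero] at this
  obtain ⟨T₁, T₂, T₃, t1, t2, t3, sp⟩ := split T (∃ x, algebraMap K Om x = ·) (V.eval · = 0)
  have g1 := fun i : T₁ => hg (t1 i.2).2.1
  have g2 := fun μ (t : μ ∈ T₂) => hg (t2 t).2.1
  have g3 := fun i : T₃ => hg (hr _ (m (t3 i.2).1)).1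
  have g4 := fun i : T₃ => hg (hr _ (m (t3 i.2).1)).2.1
  have g5 := fun i : T₃ => (hr _ (m (t3 i.2).1)).2.2.resolve_left (t3 i.2).2
  have fr := (frobenius Om p).injective
  have ne : ∀ (i : T₃) (x : K), x ^ p ≠ g (i ^ p) := fun i x e =>
    (t3 i.2).2 ⟨_, fr ((map_pow _ _ _).symm.trans ((congrArg _ e).trans (g3 i)))⟩
  obtain ⟨U, hU⟩ : ∃ U : K[X], U = (∏ i : T₁, (X - C (g i)) ^ N.rootMultiplicity i.1) *
      (∏ e ∈ T₂.image g, (X - C e)) *
      ∏ i : T₃, (X ^ p - C (g (i ^ p))) ^ (N.rootMultiplicity i.1 / p) := ⟨_, rfl⟩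
  have mU : U.map (algebraMap K Om) = ∏ μ ∈ T, (X - C μ) ^ N.rootMultiplicity μ := by
    rw [hU, Finset.prod_image fun x a y b e => (g2 x a).symm.trans ((congrArg _ e).trans (g2 y b)),
      sp]
    simp only [Polynomial.map_mul, Polynomial.map_prod, Polynomial.map_pow, Polynomial.map_sub,
      map_X, map_C, g1, g3]
    refine congrArg₂ _ (congrArg _ (Finset.prod_congr rfl fun μ t => ?_))
      (Finset.prod_congr rfl fun i _ => ?_)
    · rw [g2 μ t, mult_one hs N0 hV (m (t2 t).1) (t2 t).2.2, pow_one]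
    · rw [C_pow, ← sub_pow_char, ← pow_mul, Nat.mul_div_cancel' (g5 i)]
  have NU : C N.leadingCoeff * U.map (algebraMap K Om) = N := by
    rw [mU, hT, ← prod_multiset_root_eq_finset_root]
    exact C_leadingCoeff_mul_prod_multiset_X_sub_C IsAlgClosed.card_roots_eq_natDegree
  have UN : U.map (algebraMap K Om) ∣ N := Dvd.intro_left _ NU
  have UW : U.map (algebraMap K Om) ∣ W.map (algebraMap K Om) - V := mU ▸ Finset.prod_dvd_of_coprime
    (fun x _ y _ e => (isCoprime_X_sub_C_of_isUnit_sub (sub_ne_zero.2 e).isUnit).pow)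
    fun μ t => hW μ (m t)
  have U2 : U ∣ W ^ 2 - F := (map_dvd_map' (algebraMap K Om)).1 (by
    refine (dvd_add (UN.trans hV) (UW.mul_right (W.map (algebraMap K Om) + V))).trans (dvd_of_eq ?_)
    rw [Polynomial.map_sub, Polynomial.map_pow]; ring)
  obtain ⟨A, B, c, c0, x1, x2⟩ := desc hF hN N0 (monic_of_injective fi (mU ▸ monic_prod_of_monic _ _
    fun μ _ => (monic_X_sub_C μ).pow _))
    (by rw [← NU, natDegree_C_mul (leadingCoeff_ne_zero.2 N0), natDegree_map])
    ((dvd_add (UN.trans h1) (UW.mul_left b)).trans (dvd_of_eq (by ring))) U2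
  have s : ∀ i : T₁, algebraMap K Om (W.eval (g i)) = V.eval i.1 := fun i => by
    rw [← eval_map_apply, g1, ev (t1 i.2).1]
  have o := congrArg (algebraMap K Om) (h K d F p T₁ T₃ (fun i => g i) (fun i => W.eval (g i)) _ _
    (fun i => g (i ^ p)) (fun i => g (V.eval i.1 ^ p)) _ A B W c h2 hF hd c0
    (fun x y e => Subtype.ext ((g1 x).symm.trans ((congrArg _ e).trans (g1 y))))
    (fun i e => (t1 i.2).2.2 (by rw [← s, e, map_zero])) (fun _ => rfl) (fun e t => ?_)
    (fun _ => ⟨hp, p2, CharP.cast_eq_zero K p⟩)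
    (fun x y e => Subtype.ext (fr ((g3 x).symm.trans ((congrArg _ e).trans (g3 y)))))
    (fun i e => hp.not_dvd_one (mult_one hs N0 hV (m (t3 i.2).1)
      (pow_eq_zero_iff hp.ne_zero |>.1 (by rw [← g4, e, map_zero])) ▸ g5 i))
    (fun i => (map_dvd_map' (algebraMap K Om)).1 ?_) (fun i _ => ne i _) (fun i _ _ => ne i _)
    U hU U2 x1 x2 j hj)
  · simp only [map_add, map_sum, map_mul, map_div₀, map_pow, map_natCast, map_zero, s, g1, g3,
      g4] at o
    have ss : ∀ φ : Om → Om, ∑ x ∈ T, φ x = ∑ x : T₁, φ x + ∑ x ∈ T₂, φ x + ∑ x : T₃, φ x :=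
      sp (Multiplicative Om)
    rw [← hT, ss]
    refine Eq.trans (congrArg₂ _ ((congrArg₂ _
      (Finset.sum_congr rfl fun i _ => ?_) (Finset.sum_eq_zero fun μ t => ?_)).trans (add_zero _))
      (Finset.sum_congr rfl fun i _ => ?_)) o
    · have e := dd_map Om d (g i)
      have e' := dd_map Om d (g i ^ p)
      rw [map_pow, Derivation.leibniz_pow, ← Nat.cast_smul_eq_nsmul K, CharP.cast_eq_zero,
        zero_smul, map_zero] at e'
      rw [g1] at e e'
      rw [e, e', mul_zero, zero_div, mul_zero, add_zero]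
    · simp [show V.eval μ = 0 from (t2 t).2.2, hp.ne_zero]
    · have e := dd_map Om d (g (i ^ p))
      rw [g3] at e
      rw [dd_not d (t3 i.2).2, e, mul_zero, zero_div, mul_zero, zero_add]
  · obtain ⟨μ, u, rfl⟩ := Finset.mem_image.1 t
    have z : F.eval (g μ) = 0 := fi (by
      rw [← eval_map_apply, g2 μ u, ← root_sq hV (m (t2 u).1), (t2 u).2.2]; simp)
    have h3 := Abeld.der_eval d hd (g μ)
    rw [z, map_zero] at h3
    exact ⟨z, (mul_eq_zero.1 h3.symm).resolve_left (by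
      simpa using hs.aeval_derivative_ne_zero (x := g μ) (by simpa using z))⟩
  · simp only [Polynomial.map_pow, Polynomial.map_sub, map_X, map_C]
    rw [g3, g4, C_pow, C_pow, ← sub_pow_char, ← sub_pow_char, ← ev (t3 i.2).1]
    exact pow_dvd_pow_of_dvd X_sub_C_dvd_sub_C_eval p

end Vale.Agent.P027M.FA
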