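import Vale.Agent.P027M.FA.All1
import Vale.Agent.P027M.FA.Diff
import Vale.Agent.P027M.FA.Poly
import Vale.Agent.P027M.FA.BeAll
import Vale.Agent.P027M.B.Abel

/-! # P027, route M, block FAITH : the closed terms -/

namespace Vale.Agent.P027M.FA

theorem diff0 : DIFF := diff B.pts (poly B.abel)

theorem out0 : OUT := out1 be diff0

theorem faith0 : FAITH := faith1 be diff0

end Vale.Agent.P027M.FA
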