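import Vale.Agent.P027M.FA.CartDef
import Vale.Agent.P027M.S.Loc

/-! # P027, route M, block FAITH : the output of the block -/

set_option linter.all false

open Polynomial NumberField Vale.Agent.P022

noncomputable section

namespace Vale.Agent.P027M.FA

open B F

/-- **the output of block FAITH** -/
def FAITH : Prop := ∀ (g : ℚ) (X : Cfg g) ρ emb (N : ℕ) (ε : ZMod N →* GaussianInt) M ξ c
  (a : ℕ → O3), Mod X ρ emb → GalA X.i N ε M ξ c a ρ → ∃ b : ℕ → GaussianInt,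
    (∀ p : ℕ, GoodP N p → Unit X p →
      a p = Sys.a ⟨N, ε, b⟩ iO wO p ∧ OutP X (a p) (ε p) (b p) p) ∧
    (∃ B : ℕ, B ≠ 0 ∧ ∀ p : ℕ, p.Prime → ¬ p ∣ B → GoodP N p ∧ Unit X p) ∧
    ∀ Z : ZM X, CartF Z.F ⟨N, ε, b⟩ Z.l0 Z.s Z.l2

theorem exists_e {N : ℕ} {ε : ZMod N →* GaussianInt} {M ξ} (h : Hk N ε M ξ) {p : ℕ}
    (hp : GoodP N p) {R : Type*} [CommRing R] [IsDomain R] {i : R} (hi : i ^ 2 = -1) :
    ∃ e : ℕ, gi i (ε p) = i ^ e := by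
  have hc : p.Coprime N := (Nat.Prime.coprime_iff_not_dvd hp.1).2 fun c => hp.2 (c.mul_left 6)
  have h4 := h.eps4 (ZMod.unitOfCoprime p hc)
  rw [ZMod.coe_unitOfCoprime] at h4
  generalize ε p = z at h4
  have : (z - 1) * (z + 1) * ((z - ⟨0, 1⟩) * (z + ⟨0, 1⟩)) = 0 := by
    have : (⟨0, 1⟩ : GaussianInt) ^ 2 = -1 := by decide
    linear_combination h4 - (z ^ 2 - 1) * this
  simp only [mul_eq_zero, sub_eq_zero, add_eq_zero_iff_eq_neg] at this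
  rcases this with (rfl | rfl) | rfl | rfl
  · exact ⟨0, by simp [gi]⟩
  · exact ⟨2, by simp [gi, hi]⟩
  · exact ⟨1, by simp [gi]⟩
  · exact ⟨3, by simp [gi, pow_succ' i 2, hi]⟩

theorem faith (h1 : OUT) (h2 : TR) (h3 : UNIT) (h4 : CART) : FAITH := by
  intro g X ρ emb N ε M ξ c a hm hg
  classical
  have hb : ∀ p : ℕ, ∃ b : GaussianInt, GoodP N p → Unit X p → OutP X (a p) (ε p) b p := fun p => by
    by_cases h : GoodP N p ∧ Unit X p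
    · obtain ⟨b, hb⟩ := h1 g X ρ emb N ε M ξ c a hm hg p h.1 h.2
      exact ⟨b, fun _ _ => hb⟩
    · exact ⟨0, fun u v => absurd ⟨u, v⟩ h⟩
  choose b hb using hb
  obtain ⟨B, B0, hB⟩ := h3 g X
  have hB' : ∀ p : ℕ, p.Prime → ¬ p ∣ B * (6 * N) → GoodP N p ∧ Unit X p := fun p hp h =>
    ⟨⟨hp, fun c => h (c.mul_left B)⟩, hB p hp fun c => h (c.mul_right _)⟩
  have B1 : B * (6 * N) ≠ 0 := mul_ne_zero B0 (by have := hg.hk.pos; omega)
  refine ⟨b, fun p u v => ⟨?_, hb p u v⟩, ⟨_, B1, hB'⟩,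
    fun Z => h4 g X Z _ ⟨_, B1, fun p hp h Q hQ hpQ => ?_⟩⟩
  · have o : p % 2 = 1 := u.1.eq_two_or_odd.resolve_left (by
      rintro rfl
      exact u.2 ⟨3 * N, by ring⟩)
    rw [(hb p u v).1, Sys.a, cw]
    by_cases h : p % 4 = 1
    · simp [h]
    · have : p % 4 = 3 := by omega
      simp [this]
  · obtain ⟨u, v⟩ := hB' p hp h
    obtain ⟨φ, hφ⟩ := S.Loc.frob hQ hp hpQ
    have fr : FrobAt p Q φ := ⟨hQ, hpQ, hφ⟩
    obtain ⟨D⟩ := h2 g X p Q φ hp v fr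
    obtain ⟨e, he⟩ := exists_e hg.hk u (iO_sq (R := ℤ_[3]))
    exact ⟨φ, D, ((hb p u v).2 Q φ fr D e he).1⟩

end Vale.Agent.P027M.FA
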