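import Vale.Agent.P027M.FA.CartDef

/-! # P027, route M, block FAITH : the Cartier-Manin matrix of the integral model -/

set_option linter.all false

open Polynomial NumberField Vale.Agent.P022

noncomputable section

namespace Vale.Agent.P027M.FA

open B F

namespace CartAux

/-- `gi` as a ring homomorphism -/
def gh {R : Type} [CommRing R] (i : R) (hi : i ^ 2 = -1) : GaussianInt →+* R :=
  Zsqrtd.lift ⟨i, by rw [← sq, hi]; simp⟩

theorem gh_ap {R : Type} [CommRing R] (i : R) (hi : i ^ 2 = -1) (z : GaussianInt) :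
    gh i hi z = z.re + z.im * i := rfl

theorem gh_map {R R' : Type} [CommRing R] [CommRing R'] (φ : R →+* R') {i : R} (hi : i ^ 2 = -1)
    (z : GaussianInt) : φ (gh i hi z) = gi (φ i) z := by
  simp [gh_ap, gi]

/-- an element of all the primes over the odd prime `p` is divisible by `p` -/
theorem dvd_of {i : 𝓞 Qb} (hi : i ^ 2 = -1) {p : ℕ} (hp : p.Prime) (h2 : ¬ p ∣ 2)
    (z : GaussianInt)
    (h : ∀ Q : Ideal (𝓞 Qb), Q.IsPrime → (p : 𝓞 Qb) ∈ Q → gh i hi z ∈ Q) :
    (p : GaussianInt) ∣ z := by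
  haveI := Fact.mk hp
  letI : Algebra GaussianInt (𝓞 Qb) := (gh i hi).toAlgebra
  haveI : Algebra.IsIntegral GaussianInt (𝓞 Qb) :=
    ⟨fun x => (Algebra.IsIntegral.isIntegral (R := ℤ) x).tower_top⟩
  have inj : Function.Injective (gh i hi) :=
    Zsqrtd.lift_injective _ fun n e => by nlinarith [mul_self_nonneg n]
  have key : ∀ (u : AlgebraicClosure (ZMod p)) (hu : u ^ 2 = -1), gh u hu z = 0 := by
    intro u hu
    haveI := RingHom.ker_isPrime (gh u hu)
    obtain ⟨Q, q1, q2⟩ := Ideal.exists_ideal_over_prime_of_isIntegral_of_isDomain (S := 𝓞 Qb)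
      (RingHom.ker (gh u hu)) (((RingHom.injective_iff_ker_eq_bot _).1 inj).trans_le bot_le)
    have m : ∀ w, gh i hi w ∈ Q ↔ gh u hu w = 0 := fun w => by
      rw [← RingHom.mem_ker, ← q2]
      rfl
    refine (m z).1 (h Q q1 ?_)
    have := (m p).2 (by rw [map_natCast, CharP.cast_eq_zero])
    rwa [map_natCast] at this
  obtain ⟨u, hu⟩ := IsAlgClosed.exists_pow_nat_eq (-1 : AlgebraicClosure (ZMod p)) two_pos
  have k1 := key u hu
  have k2 := key (-u) (by rw [neg_sq, hu])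
  rw [gh_ap] at k1 k2
  have t2 : (2 : AlgebraicClosure (ZMod p)) ≠ 0 := fun e =>
    h2 ((CharP.cast_eq_zero_iff (AlgebraicClosure (ZMod p)) p 2).1 (by exact_mod_cast e))
  have a1 : (z.re : AlgebraicClosure (ZMod p)) = 0 :=
    mul_left_cancel₀ t2 (by linear_combination k1 + k2)
  have a2 : (z.im : AlgebraicClosure (ZMod p)) = 0 :=
    mul_left_cancel₀ t2 (by linear_combination (-u) * (k1 - k2) + 2 * z.im * hu)
  rw [CharP.intCast_eq_zero_iff _ p] at a1 a2
  have := (Zsqrtd.intCast_dvd (p : ℤ) z).2 ⟨a1, a2⟩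
  rwa [Int.cast_natCast] at this

/-- the equation of the curve without denominators -/
def G {R : Type} [CommRing R] (g g0 : R) : R[X] :=
  X * (X ^ 2 - C g0) * (C (g + 1) * X ^ 2 - C (g * (3 - g) * g0)) *
    (C ((g + 1) ^ 2) * X ^ 2 - C (4 * g * g0))

theorem G_map {R R' : Type} [CommRing R] [CommRing R'] (φ : R →+* R') (g g0 : R) :
    (G g g0).map φ = G (φ g) (φ g0) := by
  simp only [G, Polynomial.map_mul, Polynomial.map_sub, Polynomial.map_pow, map_X, map_C]
  simp only [map_mul φ, map_add φ, map_sub φ, map_pow φ, map_one φ, map_ofNat φ]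

theorem G_eq {k : Type} [Field k] (P : Par k) : G P.g P.g0 = C ((P.g + 1) ^ 3) * P.fP := by
  have h := P.hp1
  have e1 : P.g * (3 - P.g) * P.g0 = (P.g + 1) * (P.c * P.g0) := by
    unfold Par.c
    field_simp
  have e2 : 4 * P.g * P.g0 = (P.g + 1) ^ 2 * (P.d2 * P.g0) := by
    unfold Par.d2
    field_simp
  rw [G, e1, e2, Par.fP]
  simp only [C_mul, C_pow]
  ring

theorem cm_map {R R' : Type} [CommRing R] [CommRing R'] (φ : R →+* R') (F : R[X]) (p j i : ℕ) :
    φ (cm F p j i) = cm (F.map φ) p j i := by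
  rw [cm, cm, ← coeff_map, Polynomial.map_mul, Polynomial.map_pow, Polynomial.map_pow, map_X]

theorem cm_C {R : Type} [CommRing R] (a : R) (F : R[X]) (p j i : ℕ) :
    cm (C a * F) p j i = a ^ ((p - 1) / 2) * cm F p j i := by
  rw [cm, cm, mul_pow, ← C_pow, mul_left_comm, coeff_C_mul]

theorem i_pow {R : Type} [CommRing R] {i : R} (hi : i ^ 2 = -1) (p : ℕ) : i ^ p = i ^ (p % 4) := by
  conv_lhs => rw [← Nat.div_add_mod p 4]
  rw [pow_add, pow_mul, show i ^ 4 = 1 by linear_combination (i ^ 2 - 1) * hi, one_pow, one_mul]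

theorem fermat {k : Type} [Field k] {a : k} {p : ℕ} (h0 : a ≠ 0) (h : a ^ p = a) (o : p % 2 = 1) :
    (a ^ 2) ^ ((p - 1) / 2) = 1 := by
  have e : p = 2 * ((p - 1) / 2) + 1 := by omega
  rw [e, pow_succ, pow_mul] at h
  exact (mul_left_eq_self₀.1 h).resolve_right h0

variable {g : ℚ} {X : Cfg g} {p : ℕ} {Q : Ideal (𝓞 Qb)} {φ : GQ}

/-- the reductions of the constants of the integral model -/
theorem red (Z : ZM X) (D : RedD X p Q φ) :
    (∀ z, gh D.P.i D.P.hi z = 0 → gh X.i X.hi z ∈ Q) ∧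
    Z.F.map (gh D.P.i D.P.hi) = C ((Z.n : D.k) ^ 2) * D.P.fP ∧
    gh D.P.i D.P.hi Z.l0 = lam D.P D.T D.P.g0 D.T.g0' * Z.s ∧
    gh D.P.i D.P.hi Z.l2 = ee D.P D.P.g0 * gh D.P.i D.P.hi Z.l0 := by
  obtain ⟨g1, g2⟩ := D.rg
  obtain ⟨a1, a2⟩ := D.rg0
  obtain ⟨i1, i2⟩ := D.ri
  obtain ⟨b1, b2⟩ := D.rg0'
  obtain ⟨n1, n2⟩ := D.rν
  obtain ⟨x1, x2⟩ := D.rx
  have hi : (⟨X.P.i, i1⟩ : D.O) ^ 2 = -1 := Subtype.ext X.P.hi
  have c1 : ∀ z, D.O.subtype (gh _ hi z) = gi (X.i : Qb) z := fun z => by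
    rw [gh_map, ← X.P_i]
    rfl
  have c2 : ∀ z, D.red (gh _ hi z) = gh D.P.i D.P.hi z := fun z => by
    rw [gh_map, i2]
    rfl
  have inj : Function.Injective D.O.subtype := Subtype.val_injective
  have p1 := D.P.hp1
  have p2 := X.P.hp1
  refine ⟨fun z h => ?_, ?_, ?_, ?_⟩
  · obtain ⟨y, ⟨y1, y2⟩, y3⟩ := D.int (gh X.i X.hi z)
    refine y3.1 ?_
    rw [← y2, ← h, ← c2]
    exact congrArg D.red (Subtype.ext ((gh_map (algebraMap (𝓞 Qb) Qb) X.hi z).trans (c1 z).symm))
  · have e1 : (Z.F.map (gh _ hi)).map D.O.subtype = C ((Z.n : Qb) ^ 2) * X.P.fP := by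
      ext j
      rw [coeff_map, coeff_map, c1, Z.F_eq, coeff_C_mul]
    have e2 : C (((⟨X.P.g, g1⟩ : D.O) + 1) ^ 3) * Z.F.map (gh _ hi) =
        C ((Z.n : D.O) ^ 2) * G ⟨X.P.g, g1⟩ ⟨X.P.g0, a1⟩ := by
      refine map_injective _ inj ?_
      rw [Polynomial.map_mul, Polynomial.map_mul, e1, G_map, map_C, map_C,
        map_pow D.O.subtype, map_pow D.O.subtype, map_natCast, map_add, map_one, mul_left_comm]
      exact congrArg _ (G_eq X.P).symm
    have e3 := congrArg (Polynomial.map D.red) e2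
    rw [Polynomial.map_mul, Polynomial.map_mul, G_map, map_C, map_C, map_pow D.red,
      map_pow D.red, map_natCast, map_add, map_one, g2, a2, G_eq, mul_left_comm, Polynomial.map_map,
      show D.red.comp (gh _ hi) = gh D.P.i D.P.hi from RingHom.ext c2] at e3
    exact mul_left_cancel₀ (C_ne_zero.2 (pow_ne_zero 3 p1)) e3
  · have e2 : gh _ hi Z.l0 * (3 * ((⟨X.P.g, g1⟩ : D.O) + 1) * ⟨X.T.x, x1⟩ * ⟨X.P.g0, a1⟩) =
        -(2 * ⟨X.T.ν, n1⟩ * (⟨X.P.g, g1⟩ : D.O) ^ 2 * ⟨X.T.g0', b1⟩) * Z.s := by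
      refine inj ?_
      simp only [map_mul, map_add, map_neg, map_pow, map_one, map_ofNat, map_natCast, c1, Z.l0_eq,
        lam, ValuationSubring.coe_subtype]
      have := X.T.x_ne
      have := X.P.hg0
      field_simp
    have e3 := congrArg D.red e2
    simp only [map_mul, map_add, map_neg, map_pow, map_one, map_ofNat, map_natCast, c2, g2, a2, b2,
      n2, x2] at e3
    have := D.T.x_ne
    have := D.P.hg0
    have := D.P.h3
    rw [lam]
    field_simp
    linear_combination e3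
  · have e2 : gh _ hi Z.l2 * ((⟨X.P.g, g1⟩ : D.O) + 1) =
        (3 - (⟨X.P.g, g1⟩ : D.O)) * ⟨X.P.g0, a1⟩ * gh _ hi Z.l0 := by
      refine inj ?_
      simp only [map_mul, map_add, map_sub, map_one, map_ofNat, c1, Z.l2_eq, ee,
        ValuationSubring.coe_subtype]
      field_simp
    have e3 := congrArg D.red e2
    simp only [map_mul, map_add, map_sub, map_one, map_ofNat, c2, g2, a2] at e3
    rw [ee]
    field_simp
    linear_combination e3

end CartAux

open CartAux in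
theorem cart (h1 : CK1) (h3 : CK3) : CART := by
  rintro g X Z S ⟨B, B0, hB⟩
  refine ⟨2 * B * Z.n, mul_ne_zero (mul_ne_zero two_ne_zero B0) Z.n_ne, fun p hp hd j => ?_⟩
  have d2 : ¬ p ∣ 2 := fun c => hd ((c.mul_right B).mul_right _)
  have dB : ¬ p ∣ B := fun c => hd ((c.mul_left 2).mul_right _)
  have dn : ¬ p ∣ Z.n := fun c => hd (c.mul_left _)
  have odd : p % 2 = 1 := hp.eq_two_or_odd.resolve_left fun c => d2 (c ▸ dvd_rfl)
  have cmr : ∀ {Q φ} (D : RedD X p Q φ) (j i : ℕ),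
      gh D.P.i D.P.hi (cm Z.F p j i) = cm D.P.fP p j i := by
    intro Q φ D j i
    have n0 : (Z.n : D.k) ≠ 0 := fun c => dn ((CharP.cast_eq_zero_iff D.k p _).1 c)
    have n1 : (Z.n : D.k) ^ p = Z.n := by rw [← D.hf, map_natCast]
    rw [cm_map, (red Z D).2.1, cm_C, fermat n0 n1 odd, one_mul]
  constructor
  · intro h4
    have e4 : decide (p % 4 = 3) = false := decide_eq_false (by omega)
    have key : ∀ {Q φ} (D : RedD X p Q φ),
        (∀ d, DId D.P d p (D.T.rr D.f) (p % 4 = 3) 1 (S.b p).re (S.b p).im) →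
        Mat1 D.P p (S.b p).re (S.b p).im := by
      intro Q φ D hD
      rw [e4] at hD
      refine h1 _ D.P D.T D.f p _ _ (Tw.fx_of ?_) hD
      rw [D.hf, i_pow D.P.hi, h4, pow_one]
    constructor
    · refine dvd_of X.hi hp d2 _ fun Q q1 q2 => ?_
      obtain ⟨φ, D, hD⟩ := hB p hp dB Q q1 q2
      obtain ⟨r1, -, -, r4⟩ := red Z D
      have m := (key D hD j).1
      have v : gh D.P.i D.P.hi (![Z.l0, 0, Z.l2] j) =
          ![1, 0, ee D.P D.P.g0] j * gh D.P.i D.P.hi Z.l0 := by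
        fin_cases j <;> simp [r4]
      refine r1 _ ?_
      rw [map_sub, map_add, map_mul, map_mul, map_mul, cmr, cmr, v, r4, gh_ap _ _ (S.b p)]
      linear_combination gh D.P.i D.P.hi Z.l0 * m
    · refine dvd_of X.hi hp d2 _ fun Q q1 q2 => ?_
      obtain ⟨φ, D, hD⟩ := hB p hp dB Q q1 q2
      have m := (key D hD j).2
      have v : gh D.P.i D.P.hi (![0, (Z.s : GaussianInt), 0] j) = ![0, 1, 0] j * Z.s := by
        fin_cases j <;> simp
      refine (red Z D).1 _ ?_
      rw [map_sub, map_mul, map_mul, cmr, v, gh_ap _ _ (star (S.b p)), map_natCast, Zsqrtd.re_star,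
        Zsqrtd.im_star, Int.cast_neg]
      linear_combination (Z.s : D.k) * m
  · intro h4
    have e4 : decide (p % 4 = 3) = true := decide_eq_true h4
    have key : ∀ {Q φ} (D : RedD X p Q φ),
        (∀ d, DId D.P d p (D.T.rr D.f) (p % 4 = 3) 1 (S.b p).re (S.b p).im) →
        D.T.Sw D.f ∧ Mat3 D.P D.T p (S.b p).re (S.b p).im := by
      intro Q φ D hD
      rw [e4] at hD
      have sw : D.T.Sw D.f := Tw.sw_of (by
        rw [D.hf, i_pow D.P.hi, h4]
        exact fun c => mul_ne_zero D.P.h2 D.P.i_ne (by linear_combination D.P.i * D.P.hi - c))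
      exact ⟨sw, h3 _ D.P D.T D.f p _ _ sw hD⟩
    constructor
    · refine dvd_of X.hi hp d2 _ fun Q q1 q2 => ?_
      obtain ⟨φ, D, hD⟩ := hB p hp dB Q q1 q2
      obtain ⟨r1, -, r3, r4⟩ := red Z D
      obtain ⟨⟨s1, s2, s3⟩, m⟩ := key D hD
      have m := (m j).1
      obtain ⟨f1, f2, f3, -⟩ := D.f.2
      have st : ∀ z, gh D.P.i D.P.hi (star z) = (D.f : RingAut D.k) (gh D.P.i D.P.hi z) := fun z => by
        rw [gh_ap, gh_ap, map_add, map_mul, map_intCast, map_intCast, s1, Zsqrtd.re_star,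
          Zsqrtd.im_star, Int.cast_neg]
        ring
      have t0 : gh D.P.i D.P.hi (star Z.l0) = lam D.P D.T D.T.g0' D.P.g0 * Z.s := by
        rw [st, r3]
        simp only [lam, map_mul, map_neg, map_div₀, map_pow, map_add, map_one, map_ofNat,
          map_natCast, f1, f2, f3, s2, s3]
      have t2 : gh D.P.i D.P.hi (star Z.l2) = ee D.P D.T.g0' * gh D.P.i D.P.hi (star Z.l0) := by
        rw [st, st, r4]
        simp only [ee, map_mul, map_div₀, map_sub, map_add, map_one, map_ofNat, f1, s2]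
      have v : gh D.P.i D.P.hi (![0, (Z.s : GaussianInt), 0] j) = ![0, 1, 0] j * Z.s := by
        fin_cases j <;> simp
      refine r1 _ ?_
      rw [map_sub, map_add, map_mul, map_mul, map_mul, cmr, cmr, v, t2, t0,
        gh_ap _ _ (star (S.b p)), Zsqrtd.re_star, Zsqrtd.im_star, Int.cast_neg]
      linear_combination (Z.s : D.k) * m
    · refine dvd_of X.hi hp d2 _ fun Q q1 q2 => ?_
      obtain ⟨φ, D, hD⟩ := hB p hp dB Q q1 q2
      obtain ⟨r1, -, r3, r4⟩ := red Z D
      have m := ((key D hD).2 j).2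
      have v : gh D.P.i D.P.hi (![Z.l0, 0, Z.l2] j) =
          ![1, 0, ee D.P D.P.g0] j * gh D.P.i D.P.hi Z.l0 := by
        fin_cases j <;> simp [r4]
      refine r1 _ ?_
      rw [star_natCast, map_sub, map_mul, map_mul, map_mul, cmr, v, r3, gh_ap _ _ (S.b p),
        map_natCast, map_ofNat]
      linear_combination (Z.s : D.k) * m

end Vale.Agent.P027M.FA
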