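import Vale.Agent.P027M.FA.Spec

/-! # P027, route M, block FAITH : row CH -/

set_option linter.all false

open Polynomial NumberField Vale.Agent.P022 Vale.Agent.P019P P025H492 P025H816

noncomputable section

namespace Vale.Agent.P027M.FA

open F _root_.P027M.K

namespace Ch

section rl

variable {k L : Type} [Field k] [Field L] [Algebra k L] [CFF k L] {n : ℕ}

/-- `f` represents the reduction of `x` -/
def Rl (n : ℕ) (x : TT 3 k L) (f : L) : Prop :=
  ∃ u : divU k L (3 ^ n), ((u : Lˣ) : L) = f ∧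
    red 3 k L n x = Additive.ofMul (QuotientGroup.mk u : HK k L (3 ^ n))

theorem Rl.add {x y : TT 3 k L} {f g : L} (h : Rl n x f) (h' : Rl n y g) :
    Rl n (x + y) (f * g) := by
  obtain ⟨u, rfl, e⟩ := h
  obtain ⟨v, rfl, e'⟩ := h'
  exact ⟨u * v, rfl, by rw [map_add, e, e']; rfl⟩

theorem Rl.zsmul {x : TT 3 k L} {f : L} (h : Rl n x f) (c : ℤ) : Rl n (c • x) (f ^ c) := by
  obtain ⟨u, rfl, e⟩ := h
  refine ⟨u ^ c, by rw [Subgroup.coe_zpow, Units.val_zpow_eq_zpow_val], ?_⟩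
  rw [map_zsmul, e, QuotientGroup.mk_zpow, ofMul_zpow]

theorem Rl.nsmul {x : TT 3 k L} {f : L} (h : Rl n x f) (c : ℕ) : Rl n (c • x) (f ^ c) := by
  have := h.zsmul c
  rwa [natCast_zsmul, zpow_natCast] at this

theorem Rl.act {x : TT 3 k L} {f : L} (h : Rl n x f) (θ : SL k L) :
    Rl n (act 3 k L θ x) ((θ : L ≃+* L) f) := by
  obtain ⟨u, rfl, e⟩ := h
  exact ⟨⟨mU (θ : L ≃+* L) u, act_mem θ u.2⟩, rfl, by rw [red_act, e]; rfl⟩

theorem Rl.sum {I : Type} [Fintype I] {x : I → TT 3 k L} {f : I → L} (h : ∀ i, Rl n (x i) (f i)) :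
    Rl n (∑ i, x i) (∏ i, f i) := by
  classical
  have : ∀ s : Finset I, Rl n (∑ i ∈ s, x i) (∏ i ∈ s, f i) := fun s => by
    induction s using Finset.induction_on with
    | empty => exact ⟨1, rfl, map_zero (red 3 k L n)⟩
    | insert a s ha ih =>
      rw [Finset.sum_insert ha, Finset.prod_insert ha]
      exact (h a).add ih
  exact this _

theorem Rl.pow {x y : TT 3 k L} {f : L} (h : Rl n x f) (e : x = ((3 : ℕ) : ℤ_[3]) ^ n • y) :
    ∃ z : L, f = z ^ 3 ^ n := by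
  obtain ⟨u, rfl, e'⟩ := h
  rw [red_eq_zero_iff.2 ⟨y, e⟩] at e'
  have h1 : (QuotientGroup.mk u : HK k L (3 ^ n)) = 1 := (congrArg Additive.toMul e').symm
  obtain ⟨z, hz⟩ := mem_powU'.1 (Subgroup.mem_subgroupOf.1 ((QuotientGroup.eq_one_iff u).1 h1))
  exact ⟨z, hz.symm⟩

end rl

section par

variable {k : Type} [Field k] [IsAlgClosed k] (P : Par k)

/-- `gs` in `SL` -/
def gS : Fin 6 → SL k P.FF :=
  ![1, P.sR, P.sR * P.sR, P.sI * P.sI, P.sI * P.sI * P.sR, P.sI * P.sI * (P.sR * P.sR)]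

/-- `hs` in `SL` -/
def hS (sw : Bool) : Fin 2 → SL k P.FF :=
  if sw then ![P.sI * P.sR, P.sI * (P.sR * P.sR)] else ![1, 1]

theorem gS_coe (a : Fin 6) : (gS P a : P.FF ≃+* P.FF) = gs P a := by
  fin_cases a <;> rfl

theorem hS_coe (sw : Bool) (b : Fin 2) : (hS P sw b : P.FF ≃+* P.FF) = hs P sw b := by
  cases sw <;> fin_cases b <;> rfl

theorem act_mul (θ θ' : SL k P.FF) (x : P.H) :
    act 3 k P.FF (θ * θ') x = act 3 k P.FF θ (act 3 k P.FF θ' x) := by
  rw [map_mul]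
  rfl

theorem cIR : Commute P.sI P.sR := Subtype.ext P.iota_rho

theorem gS_comm {θ : SL k P.FF} (h1 : Commute θ P.sI) (h2 : Commute θ P.sR) (a : Fin 6) :
    Commute θ (gS P a) := by
  fin_cases a
  · exact Commute.one_right _
  · exact h2
  · exact h2.mul_right h2
  · exact h1.mul_right h1
  · exact (h1.mul_right h1).mul_right h2
  · exact (h1.mul_right h1).mul_right (h2.mul_right h2)

theorem hS_comm {θ : SL k P.FF} (h1 : Commute θ P.sI) (h2 : Commute θ P.sR) (sw : Bool)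
    (b : Fin 2) : Commute θ (hS P sw b) := by
  cases sw <;> fin_cases b
  · exact Commute.one_right _
  · exact Commute.one_right _
  · exact h1.mul_right h2
  · exact h1.mul_right (h2.mul_right h2)

/-- the projector -/
def pj (x : P.H) : P.H := ∑ a, cs a • act 3 k P.FF (gS P a) x

theorem pj_act {θ : SL k P.FF} (h1 : Commute θ P.sI) (h2 : Commute θ P.sR) (x : P.H) :
    ∑ a, cs a • act 3 k P.FF (gS P a * θ) x = act 3 k P.FF θ (pj P x) := by
  rw [pj, map_sum]
  refine Finset.sum_congr rfl fun a _ => ?_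
  rw [map_zsmul, ← (gS_comm P h1 h2 a).eq, act_mul]

theorem pj_rng (x : P.H) : P.aI (P.aI (pj P x)) = -pj P x ∧
    pj P x + P.aR (pj P x) + P.aR (P.aR (pj P x)) = 0 := by
  have i4 : ∀ y, P.aI (P.aI (P.aI (P.aI y))) = y := fun y => by
    have : P.sI * (P.sI * (P.sI * P.sI)) = 1 := Subtype.ext ((mul_assoc _ _ _).symm.trans P.iota_four)
    have h := congrArg (fun θ => act 3 k P.FF θ y) this
    simp only [act_mul, map_one] at h
    exact h
  have r3 : ∀ y, P.aR (P.aR (P.aR y)) = y := fun y => by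
    have : P.sR * (P.sR * P.sR) = 1 := Subtype.ext ((mul_assoc _ _ _).symm.trans P.rho_cube)
    have h := congrArg (fun θ => act 3 k P.FF θ y) this
    simp only [act_mul, map_one] at h
    exact h
  have ri : ∀ y, P.aR (P.aI y) = P.aI (P.aR y) := fun y => by
    have h := congrArg (fun θ => act 3 k P.FF θ y) (cIR P).eq
    simp only [act_mul] at h
    exact h.symm
  have e : pj P x = (2 : ℤ) • x - P.aR x - P.aR (P.aR x) - (2 : ℤ) • P.aI (P.aI x) +
      P.aI (P.aI (P.aR x)) + P.aI (P.aI (P.aR (P.aR x))) := by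
    rw [pj, Fin.sum_univ_six]
    show (2 : ℤ) • act 3 k P.FF 1 x + (-1 : ℤ) • act 3 k P.FF P.sR x +
      (-1 : ℤ) • act 3 k P.FF (P.sR * P.sR) x + (-2 : ℤ) • act 3 k P.FF (P.sI * P.sI) x +
      (1 : ℤ) • act 3 k P.FF (P.sI * P.sI * P.sR) x +
      (1 : ℤ) • act 3 k P.FF (P.sI * P.sI * (P.sR * P.sR)) x = _
    simp only [act_mul, map_one, LinearEquiv.coe_one, id]
    simp only [Par.aI, Par.aR]
    abel
  rw [e]
  simp only [map_add, map_sub, map_zsmul, i4, r3, ri]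
  constructor <;> abel

variable {P} {emb : (Fin 2 → O3) →ₗ[ℤ_[3]] P.H}

theorem act_ipow (B : P.Bas emb) (e : ℕ) (v : Fin 2 → O3) :
    act 3 k P.FF (P.sI ^ e) (emb v) = emb ((iO : O3) ^ e • v) := by
  induction e with
  | zero => rw [pow_zero, pow_zero, map_one, one_smul]; rfl
  | succ e ih => rw [pow_succ', act_mul, ih, pow_succ', mul_smul, B.mi]; rfl

theorem act_hS (B : P.Bas emb) (sw : Bool) (v : Fin 2 → O3) :
    ∑ b, cc sw b • act 3 k P.FF (hS P sw b) (emb v) = emb (cw sw • v) := by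
  rw [Fin.sum_univ_two]
  cases sw
  · show (1 : ℤ) • act 3 k P.FF 1 (emb v) + (0 : ℤ) • _ = emb ((1 : O3) • v)
    rw [one_smul, zero_smul, add_zero, one_smul, map_one]
    rfl
  · show (1 : ℤ) • act 3 k P.FF (P.sI * P.sR) (emb v) +
      (-1 : ℤ) • act 3 k P.FF (P.sI * (P.sR * P.sR)) (emb v) = emb ((wO : O3) • v)
    rw [B.mw, map_sub, one_smul, neg_one_smul, act_mul, act_mul, act_mul, sub_eq_add_neg]
    rfl

end par

theorem cay {R : Type} [CommRing R] (A A' : TW.M2 R) (h : A * A' = 1) :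
    A + A.det • A' = A.trace • (1 : TW.M2 R) := by
  have e : A.det • A' = A.adjugate := by
    rw [← mul_one A.adjugate, ← h, ← mul_assoc, Matrix.adjugate_mul, Matrix.smul_mul, one_mul]
  rw [e, Matrix.adjugate_fin_two, Matrix.trace_fin_two]
  ext i j
  fin_cases i <;> fin_cases j <;> simp [add_comm]

end Ch

open Ch in
theorem ch : CH := by
  intro g X ρ emb M σ sw q e n β a0 a1 ht hd ⟨c0, h0⟩ ⟨c1, h1⟩ h hh
  obtain ⟨x, hx⟩ := red_surjective (l := 3) n
    (Additive.ofMul (QuotientGroup.mk ⟨h, hh⟩ : HK Qb X.P.FF (3 ^ n)))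
  have r0 : Rl n x (h : X.P.FF) := ⟨⟨h, hh⟩, rfl, hx⟩
  have key := Rl.sum fun a => (((r0.act (gS X.P a * X.R σ)).add
    ((r0.act (gS X.P a * (X.P.sI ^ e * (X.R σ)⁻¹))).nsmul q)).add (Rl.sum fun b =>
      (((r0.act (gS X.P a * hS X.P sw b)).zsmul a0).add
        ((r0.act (gS X.P a * (hS X.P sw b * X.P.sI))).zsmul a1)).zsmul (-cc sw b))).zsmul (cs a)
  simp only [Subgroup.coe_mul, gS_coe, hS_coe, ← mul_assoc] at key
  obtain ⟨v, hv⟩ := (M.bas.rng _).2 (pj_rng X.P x)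
  refine key.pow (y := emb ((cw sw * co (c0, c1)) • v)) ?_
  have cI : Commute (X.R σ) X.P.sI := Subtype.ext (Tw.rr_iota _)
  have cR : Commute (X.R σ) X.P.sR := Subtype.ext (Tw.rr_rho _)
  have c1' := cIR X.P
  have e1 := pj_act X.P cI cR x
  have e2 := pj_act X.P (((Commute.refl _).pow_left e).mul_left cI.inv_left)
    ((c1'.pow_left e).mul_left cR.inv_left) x
  have e3 := fun b => pj_act X.P (hS_comm X.P (Commute.refl _) c1' sw b).symm
    (hS_comm X.P c1'.symm (Commute.refl _) sw b).symm x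
  have e4 := fun b => pj_act X.P
    ((hS_comm X.P (Commute.refl _) c1' sw b).symm.mul_left (Commute.refl _))
    ((hS_comm X.P c1'.symm (Commute.refl _) sw b).symm.mul_left c1') x
  rw [← hv] at e1 e2 e3 e4
  rw [← M.act] at e1
  rw [act_mul, ← map_inv X.R, ← M.act, act_ipow M.bas, map_inv X.R] at e2
  have f3 := act_hS M.bas sw v
  have f4 := act_hS M.bas sw ((iO : O3) • v)
  rw [M.bas.mi] at f4
  simp only [← mul_assoc] at e2 e4
  have s1 : ∀ (y1 y2 : Fin 6 → X.P.H) (y3 y4 : Fin 6 → Fin 2 → X.P.H),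
      ∑ a, cs a • (y1 a + q • y2 a + ∑ b, -cc sw b • (a0 • y3 a b + a1 • y4 a b)) =
      ∑ a, cs a • y1 a + q • ∑ a, cs a • y2 a - a0 • ∑ b, cc sw b • ∑ a, cs a • y3 a b -
        a1 • ∑ b, cc sw b • ∑ a, cs a • y4 a b := by
    intro y1 y2 y3 y4
    simp only [Fin.sum_univ_two, Finset.smul_sum, ← Finset.sum_add_distrib, smul_add,
      ← Finset.sum_sub_distrib]
    refine Finset.sum_congr rfl fun a _ => ?_
    module
  rw [s1, e1, e2]
  simp only [e3, e4]
  simp only [act_mul]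
  rw [f3]
  erw [f4]
  rw [← map_nsmul, ← map_zsmul, ← map_zsmul, ← map_add, ← map_sub, ← map_sub, ← map_smul]
  congr 1
  have k1 := congrArg (fun m : TW.M2 O3 => m.mulVec v)
    (cay (ρ σ) (ρ σ⁻¹) (by rw [← map_mul, mul_inv_cancel, map_one]))
  simp only [Matrix.add_mulVec, Matrix.smul_mulVec, Matrix.one_mulVec, hd, ht, mul_smul,
    Nat.cast_smul_eq_nsmul] at k1
  rw [k1]
  have b0 : β.1 = a0 + 3 ^ n * c0 := by rw [← h0]; ring
  have b1 : β.2 = a1 + 3 ^ n * c1 := by rw [← h1]; ring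
  rw [← algebraMap_smul O3 (((3 : ℕ) : ℤ_[3]) ^ n), co, co, b0, b1]
  simp only [map_add, map_mul, map_pow, map_intCast, map_ofNat, Nat.cast_ofNat,
    ← Int.cast_smul_eq_zsmul O3]
  module

end Vale.Agent.P027M.FA
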