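import Vale.Agent.P027M.FA.Cor0

/-! # P027, route M, block FAITH : `COREP` -/

set_option linter.all false

open Polynomial Vale.Agent.P019P P025H492 P025H816 _root_.P027M.K

noncomputable section

namespace Vale.Agent.P027M.FA

open B

section
variable {k : Type} [Field k] [IsAlgClosed k] (P : F.Par k) {Om L : Type} [Field Om] [Field L]
  [Algebra P.FF Om] [Algebra k Om] [IsScalarTower k P.FF Om] [Algebra Om L] [IsAlgClosure P.FF Om]
  [CFF Om L] {m w : L} {q : ℕ} {Ψ : RingAut Om} {r : RingAut P.FF}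

theorem dv_Zc (φ : L) (h : φ ≠ 0) : dv Om φ ∈ Zc k m := ⟨φ, h, fun Q c => absurd (by simp) c⟩

theorem dp_inv (h2 : PTI) (H : Hyp (P.fP.map (algebraMap k Om)) m w) {g : RingAut P.FF}
    {θ : RingAut Om} (h : Good P g θ) : dp P m w g θ ∈ Inv P.FF m w :=
  (h2 k P.FF Om L _ m w H).1 _ _ (h.2 _) (h.2 _)

theorem yy_inv (h2 : PTI) (H : Hyp (P.fP.map (algebraMap k Om)) m w) (hq : 0 < q)
    (hΨ : ∀ x, Ψ x = x ^ q) (hr : ∀ a, r (P.ι a) = P.ι (a ^ q)) (e : ℕ) :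
    yy P m w q e Ψ r ∈ Inv P.FF m w :=
  sum_mem fun a _ => zsmul_mem (add_mem (zsmul_mem (dp_inv P h2 H (good_V P hΨ hr (gs_c P a))) _)
    (dp_inv P h2 H (good_F P hq hΨ hr fun c => by rw [P.mul_ap, iota_pow_c, gs_c]))) _

theorem xx_inv (h2 : PTI) (H : Hyp (P.fP.map (algebraMap k Om)) m w) (sw : Bool)
    {g : RingAut P.FF} (hg : ∀ a, g (P.ι a) = P.ι a) : xx (Om := Om) P m w sw g ∈ Inv P.FF m w :=
  sum_mem fun a _ => zsmul_mem (sum_mem fun b _ => zsmul_mem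
    (dp_inv P h2 H (good_one P fun c => by rw [P.mul_ap, P.mul_ap, hg, hs_c, gs_c])) _) _

theorem of_kill (h3 : KUM) (hc : HYPC) (H : Hyp (P.fP.map (algebraMap k Om)) m w) (hq : 0 < q)
    (hΨ : ∀ x, Ψ x = x ^ q) (hr : ∀ a, r (P.ι a) = P.ι (a ^ q)) {sw : Bool} {e n : ℕ} {a0 a1 : ℤ}
    (hn : (n : k) ≠ 0) (hk : Kill P r sw q e n a0 a1) : ∃ ψ ∈ Inv P.FF m w,
      yy P m w q e Ψ r - a0 • xx P m w sw 1 - a1 • xx P m w sw P.iota - n • ψ ∈ Zc k m := by
  obtain ⟨α, c, c0, c1, c2, c3⟩ := exists_fam P m w hq hΨ hr sw e a0 a1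
  obtain ⟨ψ, hψ, φ, h0, h⟩ := h3 k P.FF Om L _ m w H P.FC P.mC P.wC (hc k P) n _ α c hn c0 c1
    fun h hh => by
      obtain ⟨y, hy⟩ := hk _ (jU_mem (L := P.FF) hh)
      refine ⟨algebraMap P.FF Om y, fun s => s.commutes y, ?_⟩
      rw [c3, ← map_pow, ← hy]
      rfl
  refine ⟨ψ, hψ, ?_⟩
  rw [← c2, h, add_sub_cancel_left]
  exact dv_Zc φ h0

theorem to_kill (h4 : KUM2) (hc : HYPC) (H : Hyp (P.fP.map (algebraMap k Om)) m w) (hq : 0 < q)
    (hΨ : ∀ x, Ψ x = x ^ q) (hr : ∀ a, r (P.ι a) = P.ι (a ^ q)) {sw : Bool} {e n : ℕ} {a0 a1 : ℤ}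
    (hn : (n : k) ≠ 0)
    (hz : yy P m w q e Ψ r - a0 • xx P m w sw 1 - a1 • xx P m w sw P.iota ∈ Zc k m) :
    ∀ h ∈ divU k P.FC n, ∃ y : P.FF, kp P r sw q e a0 a1 (h : P.FC) = y ^ n := by
  intro h hh
  obtain ⟨α, c, c0, c1, c2, c3⟩ := exists_fam P m w hq hΨ hr sw e a0 a1
  obtain ⟨y, hy, h1⟩ := h4 k P.FF Om L _ m w H P.FC P.mC P.wC (hc k P) n _ α c hn c1
    (by rwa [c2]) h hh
  refine mem_of_fx (fun c => hn ((algebraMap k P.FF).injective ?_)) hy (by rw [← c3, h1])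
  rw [map_natCast, c, map_zero]

theorem to_did (h5 : DIFF) (H : Hyp (P.fP.map (algebraMap k Om)) m w) {p : ℕ} (hp : p.Prime)
    [hch : CharP k p] (hΨ : ∀ x, Ψ x = x ^ p) (hr : ∀ a, r (P.ι a) = P.ι (a ^ p)) {sw : Bool}
    {e : ℕ} {u b0 b1 : ℤ}
    (hz : u • yy P m w p e Ψ r - b0 • xx P m w sw 1 - b1 • xx P m w sw P.iota ∈ Zc k m)
    (d : Derivation k P.FF P.FF) : DId P d p r sw u b0 b1 := by
  intro j hj
  let G : Fin 6 → Fin 4 → RingAut P.FF := fun a => ![gs P a * hs P sw 0,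
    gs P a * hs P sw 0 * P.iota, gs P a * hs P sw 1, gs P a * hs P sw 1 * P.iota]
  let C : Fin 4 → ℤ := ![b0 * -cc sw 0, b1 * -cc sw 0, b0 * -cc sw 1, b1 * -cc sw 1]
  let V : P.FF → Fin 6 × Option (Fin 4) → P.FF := fun z a =>
    a.2.elim ((gs P a.1 * P.iota ^ e * r⁻¹) z ^ p) fun t => G a.1 t z
  have e1 : ∀ x : Om, Ψ⁻¹ x ^ p = x := fun x => by rw [← hΨ]; exact Ψ.apply_symm_apply _
  have e2 : ∀ x : Om, (1 : RingAut Om) x = x := fun _ => rfl
  have e3 : ∀ x : P.FF, d (x ^ p) = 0 := fun x => by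
    haveI : CharP P.FF p := charP_of_injective_algebraMap (algebraMap k P.FF).injective p
    rw [d.leibniz_pow, nsmul_eq_mul, CharP.cast_eq_zero, zero_mul]
  have h := h5 k P.FF Om L _ m w H p hp hch d (Fin 6 × Option (Fin 4)) (Fin 6) (V P.M1) (V P.W)
    (fun a => a.2.elim u C * cs a.1) (fun a => (gs P a * r) P.M1) (fun a => (gs P a * r) P.W)
    (fun a => Ψ⁻¹ (algebraMap P.FF Om ((gs P a * r) P.M1)))
    (fun a => Ψ⁻¹ (algebraMap P.FF Om ((gs P a * r) P.W))) (fun a => u * cs a) ?_ ?_ ?_ j hj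
  · rw [Fintype.sum_prod_type, ← Finset.sum_add_distrib] at h
    rw [← sub_eq_zero, Finset.mul_sum, ← Finset.sum_sub_distrib, ← h]
    refine Finset.sum_congr rfl fun a _ => ?_
    simp only [Fintype.sum_option, Option.elim, V, e3, Fin.sum_univ_succ, Fin.sum_univ_zero, G, C,
      Matrix.cons_val_zero, Matrix.cons_val_succ, Fin.succ_zero_eq_one, om, Finset.sum_range_succ,
      Finset.sum_range_zero]
    push_cast
    ring
  · rintro ⟨a, _ | t⟩
    · have := good_pt P (good_F (Om := Om) P hp.pos hΨ hr (g := gs P a * P.iota ^ e)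
        fun c => by rw [P.mul_ap, iota_pow_c, gs_c])
      rw [hΨ, hΨ, ← map_pow (algebraMap P.FF Om) _ p, ← map_pow (algebraMap P.FF Om) _ p] at this
      exact pt_down P this
    · refine pt_down P (good_pt P (good_one (Om := Om) P (g := G a t) fun c => ?_))
      fin_cases t <;> simp only [G] <;> simp [P.mul_ap, gs_c, hs_c, P.iota_c]
  · intro a
    have := good_pt P (good_V P hΨ hr (gs_c P a))
    exact ⟨this.1, this.2, e1 _, e1 _⟩
  · convert hz using 1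
    rw [Fintype.sum_prod_type, yy, xx, xx, Finset.smul_sum, Finset.smul_sum, Finset.smul_sum,
      ← Finset.sum_sub_distrib, ← Finset.sum_sub_distrib, ← Finset.sum_add_distrib]
    refine Finset.sum_congr rfl fun a _ => ?_
    simp only [Fintype.sum_option, Option.elim, V, Fin.sum_univ_succ, Fin.sum_univ_zero, G, C,
      Matrix.cons_val_zero, Matrix.cons_val_succ, Fin.succ_zero_eq_one, dp, e2, hΨ, map_pow,
      mul_one]
    module

end

theorem corep (h1 : BE) (h2 : PTI) (h3 : KUM) (h4 : KUM2) (h5 : DIFF) (h6 : EXH) (h7 : MUM)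
    (h8 : IND) (hc : HYPC) : COREP := by
  intro k _ _ P p e hch r sw β hp hr hk hint
  haveI := Fact.mk hp
  let Om := AlgebraicClosure P.FF
  haveI : CharP Om p := charP_of_injective_algebraMap (algebraMap k Om).injective p
  have HC := hc k P
  obtain ⟨L, _, _, _, m, w, H⟩ := h6 Om (P.fP.map (algebraMap k Om))
    (by have := (map_ne_zero (algebraMap k Om)).2 P.h2; rwa [map_ofNat] at this)
    (by rw [natDegree_map, HC.deg]) HC.sep.map
  obtain ⟨be, c0, c0p, sy, bz, zb, bi⟩ := h1 k P.FF Om L _ m w H p hp hch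
  have sat : ∀ (N : ℤ) (D : Plk Om L →₀ ℤ), N ≠ 0 → N • D ∈ Zc k m → D ∈ Zc k m := by
    intro N D hN h
    have := bz _ h D
    rw [map_zsmul, AddMonoidHom.zsmul_apply, zsmul_eq_mul, mul_eq_zero] at this
    exact zb D (this.resolve_left (by exact_mod_cast hN))
  let Ψ : ℕ → RingAut Om := fun s => iterateFrobeniusEquiv Om p s
  have hΨ : ∀ s x, Ψ s x = x ^ p ^ s := fun s x => iterateFrobeniusEquiv_def Om p s x
  have hrs : ∀ s a, (r ^ s) (P.ι a) = P.ι (a ^ p ^ s) := by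
    intro s
    induction s with
    | zero => intro a; simp [P.one_ap]
    | succ s ih => intro a; rw [pow_succ', P.mul_ap, ih, hr, ← pow_mul, ← pow_succ]
  have hΨ1 : ∀ x, Ψ 1 x = x ^ p := fun x => by rw [hΨ, pow_one]
  have p3 : p ≠ 3 := by
    rintro rfl
    exact P.h3 (by exact_mod_cast CharP.cast_eq_zero k 3)
  obtain ⟨d0, -, hd0⟩ := h8 k P
  have HH : ∀ u b0 b1 : ℤ, (p : ℤ) ∣ u →
      u • yy P m w p e (Ψ 1) r - b0 • xx P m w sw 1 - b1 • xx P m w sw P.iota ∈ Zc k m →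
      (p : ℤ) ∣ b0 ∧ (p : ℤ) ∣ b1 := by
    intro u b0 b1 hu h
    have h' := to_did P h5 H hp hΨ1 hr h d0
    haveI : CharP P.FF p := charP_of_injective_algebraMap (algebraMap k P.FF).injective p
    rw [← CharP.intCast_eq_zero_iff k p, ← CharP.intCast_eq_zero_iff k p]
    refine hd0 p r sw b0 b1 fun j hj => ?_
    rw [← h' j hj, (CharP.intCast_eq_zero_iff P.FF p u).2 hu, Int.cast_zero]
  obtain ⟨N, hN, hM⟩ := h7 _ be (Zc k m) (Inv P.FF m w) c0 p (xx P m w sw 1)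
    (xx P m w sw P.iota) c0p hp p3 sy bz zb bi (xx_inv P h2 H sw fun _ => rfl)
    (xx_inv P h2 H sw P.iota_c) (desc_ind sat hp.one_lt HH)
  have hM' := fun j : ℕ => hM _ (yy_inv P h2 H (pow_pos hp.pos (2 * j + 1)) (hΨ _) (hrs _)
    (e * (2 * j + 1))) (β j).1 (β j).2 fun n => by
      have ap : ∀ x : ℤ_[3], (3 : ℤ_[3]) ^ n ∣ x - ((x.appr n : ℕ) : ℤ) := fun x => by
        have := Ideal.mem_span_singleton.1 (PadicInt.appr_spec n x)
        simpa using this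
      obtain ⟨ψ, hψ, h⟩ := of_kill P h3 hc H (pow_pos hp.pos (2 * j + 1)) (hΨ _) (hrs _)
        (by rw [Nat.cast_pow]; exact pow_ne_zero _ (by exact_mod_cast P.h3))
        (hk j n _ _ (ap (β j).1) (ap (β j).2))
      exact ⟨_, _, ψ, hψ, ap _, ap _, h⟩
  obtain ⟨a, v0, v1, hv0, hv1⟩ := hint ⟨N, hN, fun j => by
    obtain ⟨a, u0, u1, c1, c2, -⟩ := hM' j
    exact ⟨a, u0, u1, c1, c2⟩⟩
  obtain ⟨a', u0, u1, c1, c2, c3⟩ := hM' 0
  simp only [mul_zero, zero_add, pow_one, mul_one] at c3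
  have ca : ∀ {x : ℤ_[3]} {u v : ℤ}, (N * p ^ a' : ℤ_[3]) * x = u → (p ^ a : ℤ_[3]) * x = v →
      (p : ℤ) ^ a * u = N * p ^ a' * v := fun {x u v} b1 b2 => by
    apply Int.cast_injective (α := ℤ_[3])
    push_cast
    rw [← b1, ← b2]; ring
  have p0 : (p : ℤ) ≠ 0 := by exact_mod_cast hp.ne_zero
  have z1 : ((p : ℤ) ^ a * 1) • yy P m w p e (Ψ 1) r - v0 • xx P m w sw 1 -
      v1 • xx P m w sw P.iota ∈ Zc k m := by
    refine sat (N * p ^ a') _ (mul_ne_zero (by exact_mod_cast hN.ne') (pow_ne_zero _ p0)) ?_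
    convert zsmul_mem c3 ((p : ℤ) ^ a) using 1
    simp only [smul_sub, smul_smul, ca c1 hv0, ca c2 hv1]
    module
  obtain ⟨⟨b0, rfl⟩, b1, rfl⟩ := desc_pow sat hp.ne_zero HH a 1 v0 v1 z1
  have z2 : yy P m w p e (Ψ 1) r - b0 • xx P m w sw 1 - b1 • xx P m w sw P.iota ∈ Zc k m :=
    sat (p ^ a) _ (pow_ne_zero _ p0) (by convert z1 using 1; module)
  have pa : (p : ℤ_[3]) ^ a ≠ 0 := pow_ne_zero _ (by exact_mod_cast hp.ne_zero)
  refine ⟨b0, b1, mul_left_cancel₀ pa (by rw [hv0]; push_cast; rfl),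
    mul_left_cancel₀ pa (by rw [hv1]; push_cast; rfl),
    fun d => to_did P h5 H hp hΨ1 hr (by rwa [one_smul]) d, fun n hn => ?_⟩
  exact to_kill P h4 hc H hp.pos hΨ1 hr (mt (CharP.cast_eq_zero_iff k p n).1 hn) z2

end Vale.Agent.P027M.FA
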