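import Vale.Agent.P027M.FA.Defs

/-! # P027, route M, block FAITH : the hyperelliptic curve exists -/

set_option linter.all false

open Polynomial Vale.Agent.P019P P025H492 P025H816 IntermediateField

noncomputable section

namespace Vale.Agent.P027M.FA

open B

namespace Exh

theorem cff_rat (k : Type) [Field k] [IsAlgClosed k] : CFF k (RatFunc k) := by
  refine ⟨inferInstance, RatFunc.X, RatFunc.transcendental_X, ?_⟩
  rw [RatFunc.adjoin_X]
  refine FiniteDimensional.of_finrank_pos ?_
  rw [IntermediateField.finrank_top]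
  exact one_pos

end Exh

theorem exh : EXH := by
  intro k _ _ F h2 hd hs
  have hF0 : F ≠ 0 := hs.ne_zero
  obtain ⟨a, ha⟩ := IsAlgClosed.exists_root F (by
    rw [degree_eq_natDegree hF0, hd]
    decide)
  obtain ⟨q, hq⟩ := dvd_iff_isRoot.2 ha
  have hqa : q.eval a ≠ 0 := by
    intro h
    obtain ⟨r, hr⟩ := dvd_iff_isRoot.2 h
    exact not_isUnit_X_sub_C a (hs.squarefree _ ⟨r, by rw [hq, hr, mul_assoc]⟩)
  let f : RatFunc k := algebraMap k[X] (RatFunc k) F
  haveI : Fact (Irreducible (X ^ 2 - C f : (RatFunc k)[X])) :=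
    ⟨X_pow_sub_C_irreducible_of_prime Nat.prime_two (P027M.F.not_sq_of_simple hq hqa)⟩
  let L := AdjoinRoot (X ^ 2 - C f : (RatFunc k)[X])
  haveI : CFF k (RatFunc k) := Exh.cff_rat k
  haveI : FiniteDimensional (RatFunc k) L :=
    (AdjoinRoot.powerBasis' (monic_X_pow_sub_C f (by norm_num : 2 ≠ 0))).finite
  have hp : ∀ p : k[X], aeval (algebraMap (RatFunc k) L RatFunc.X) p =
      algebraMap (RatFunc k) L (algebraMap k[X] (RatFunc k) p) := fun p => by
    rw [aeval_algebraMap_apply, RatFunc.aeval_X_left_eq_algebraMap]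
  refine ⟨L, inferInstance, inferInstance, cff_of_finite (K := RatFunc k),
    algebraMap (RatFunc k) L RatFunc.X, AdjoinRoot.root _, h2, hd, hs,
    (transcendental_algebraMap_iff (algebraMap (RatFunc k) L).injective).2
      RatFunc.transcendental_X, ?_, fun z => ?_⟩
  · have h := AdjoinRoot.eval₂_root (X ^ 2 - C f : (RatFunc k)[X])
    rw [eval₂_sub, eval₂_pow, eval₂_X, eval₂_C, sub_eq_zero] at h
    rw [hp]
    exact h
  · obtain ⟨u, v, h⟩ : ∃ u v : RatFunc k, z = algebraMap _ L u +
        algebraMap _ L v * AdjoinRoot.root _ := P027M.F.Par.quad_rep f z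
    have hu : algebraMap k[X] (RatFunc k) u.denom * u = algebraMap k[X] (RatFunc k) u.num := by
      rw [mul_comm]
      exact ((div_eq_iff (by simpa using u.denom_ne_zero)).1 u.num_div_denom).symm
    have hv : algebraMap k[X] (RatFunc k) v.denom * v = algebraMap k[X] (RatFunc k) v.num := by
      rw [mul_comm]
      exact ((div_eq_iff (by simpa using v.denom_ne_zero)).1 v.num_div_denom).symm
    refine ⟨u.num * v.denom, v.num * u.denom, u.denom * v.denom,
      mul_ne_zero u.denom_ne_zero v.denom_ne_zero, ?_⟩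
    rw [hp, hp, hp, h]
    simp only [map_mul]
    rw [← hu, ← hv]
    simp only [map_mul]
    ring

end Vale.Agent.P027M.FA
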