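import Vale.Agent.P027M.FA.Defs

/-! # P027, route M, block FAITH : the curve `FC` is hyperelliptic (row FA.HYPC) -/

set_option linter.all false

open Polynomial Vale.Agent.P019P P025H492

noncomputable section

namespace Vale.Agent.P027M.FA

namespace HypcP

variable {k : Type} [Field k]

theorem cop1 {a : k} (ha : a ≠ 0) : IsCoprime (X : k[X]) (X ^ 2 - C a) :=
  ⟨C a⁻¹ * X, -C a⁻¹, by
    have : (C a⁻¹ : k[X]) * C a = 1 := by rw [← map_mul, inv_mul_cancel₀ ha, map_one]
    linear_combination this⟩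

theorem cop2 {a b : k} (h : b - a ≠ 0) : IsCoprime (X ^ 2 - C a : k[X]) (X ^ 2 - C b) :=
  ⟨C (b - a)⁻¹, -C (b - a)⁻¹, by
    have : (C (b - a)⁻¹ : k[X]) * (C b - C a) = 1 := by
      rw [← map_sub, ← map_mul, inv_mul_cancel₀ h, map_one]
    linear_combination this⟩

theorem fP_sep (P : F.Par k) : P.fP.Separable := by
  have h2 : ((2 : ℕ) : k) ≠ 0 := by exact_mod_cast P.h2
  have a1 := P.hg0
  have a2 := mul_ne_zero P.c_ne P.hg0
  have a3 := mul_ne_zero P.d2_ne P.hg0
  have b1 : P.c * P.g0 - P.g0 ≠ 0 := by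
    rw [← sub_one_mul]; exact mul_ne_zero P.c_ne_one a1
  have b2 : P.d2 * P.g0 - P.g0 ≠ 0 := by
    rw [← sub_one_mul]; exact mul_ne_zero P.d2_ne_one a1
  have b3 : P.d2 * P.g0 - P.c * P.g0 ≠ 0 := by
    rw [← sub_mul, ← neg_sub]; exact mul_ne_zero (neg_ne_zero.2 P.c_ne_d2) a1
  exact ((separable_X.mul (separable_X_pow_sub_C _ h2 a1) (cop1 a1)).mul
    (separable_X_pow_sub_C _ h2 a2) ((cop1 a2).mul_left (cop2 b1))).mul
    (separable_X_pow_sub_C _ h2 a3) (((cop1 a3).mul_left (cop2 b2)).mul_left (cop2 b3))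

theorem fP_deg (P : F.Par k) : P.fP.natDegree = 7 := by
  unfold F.Par.fP
  compute_degree!

variable [IsAlgClosed k] (P : F.Par k)

theorem tau_poly (p : k[X]) : P.tau (aeval P.M1 p) = aeval P.M1 p := by
  induction p using Polynomial.induction_on' with
  | add p q hp hq => rw [map_add, map_add, hp, hq]
  | monomial n t =>
    rw [aeval_monomial, map_mul, map_pow, P.tau_M1]
    exact congrArg (· * P.M1 ^ n) (P.tau_c t)

theorem rat_eq (u : RatFunc k) :
    algebraMap _ P.FF u = aeval P.M1 u.num / aeval P.M1 u.denom := by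
  conv_lhs => rw [← RatFunc.num_div_denom u, map_div₀, P.poly_eq, P.poly_eq]

theorem tau_rat (u : RatFunc k) : P.tau (algebraMap _ P.FF u) = algebraMap _ P.FF u := by
  rw [rat_eq, map_div₀, tau_poly, tau_poly]

end HypcP

open HypcP in
theorem hypc : HYPC := by
  intro k _ _ P
  refine ⟨P.h2, fP_deg P, fP_sep P, P.tr_sub P.M1_tr, P.wC_sq, fun z => ?_⟩
  obtain ⟨a, b, c, d, h⟩ := P.FF_rep z
  have h1 := P.mem_FC.1 z.2
  have h2 : (2 : P.FF) ≠ 0 := by
    have := (_root_.map_ne_zero (algebraMap k P.FF)).2 P.h2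
    rwa [map_ofNat] at this
  have h3 : (z : P.FF) = algebraMap _ P.FF a + algebraMap _ P.FF b * P.W := by
    have h4 := congrArg P.tau h
    simp only [map_add, map_mul, tau_rat, P.tau_W, P.tau_Z] at h4
    apply mul_left_cancel₀ h2
    linear_combination h + h4 - h1
  have n : ∀ u : RatFunc k, aeval P.M1 u.denom ≠ 0 := fun u e =>
    P.M1_tr ⟨u.denom, u.denom_ne_zero, e⟩
  refine ⟨a.num * b.denom, b.num * a.denom, a.denom * b.denom,
    mul_ne_zero a.denom_ne_zero b.denom_ne_zero, Subtype.ext ?_⟩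
  push_cast
  rw [← IntermediateField.aeval_coe, ← IntermediateField.aeval_coe, ← IntermediateField.aeval_coe]
  change aeval P.M1 _ * (z : P.FF) = aeval P.M1 _ + aeval P.M1 _ * P.W
  rw [h3, rat_eq, rat_eq, map_mul, map_mul, map_mul]
  have := n a
  have := n b
  field_simp

end Vale.Agent.P027M.FA
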