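import Vale.Agent.P027M.FA.Defs

/-! # P027, route M, block FAITH : a derivation which sees the two differentials -/

set_option linter.all false

open Polynomial

noncomputable section

namespace Vale.Agent.P027M.FA

namespace Ind

open KaehlerDifferential in
theorem exists_ext {k R L : Type*} [CommRing k] [CommRing R] [CommRing L] [Algebra k R]
    [Algebra k L] [Algebra R L] [IsScalarTower k R L] [Algebra.FormallyEtale R L]
    (D : Derivation k R L) : ∃ D' : Derivation k L L, ∀ a, D' (algebraMap R L a) = D a := by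
  refine ⟨((D.liftKaehlerDifferential.liftBaseChange L) ∘ₗ
    (tensorKaehlerEquivOfFormallyEtale k R L).symm.toLinearMap).compDer
      (KaehlerDifferential.D k L), fun a => ?_⟩
  change (D.liftKaehlerDifferential.liftBaseChange L)
    ((tensorKaehlerEquivOfFormallyEtale k R L).symm (KaehlerDifferential.D k L (algebraMap R L a)))
      = _
  rw [tensorKaehlerEquivOfFormallyEtale_symm_D_algebraMap, LinearMap.liftBaseChange_tmul]
  simp

variable {k : Type} [Field k] [IsAlgClosed k] (P : F.Par k)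

theorem sep : Algebra.IsSeparable (RatFunc k) P.FF := by
  have h2 : ((2 : ℕ) : RatFunc k) ≠ 0 := by
    have := (_root_.map_ne_zero (algebraMap k (RatFunc k))).2 P.h2
    rwa [map_ofNat] at this
  have key : ∀ (x : P.FF) (p : k[X]), x ≠ 0 → x ^ 2 = aeval P.M1 p →
      x ∈ separableClosure (RatFunc k) P.FF := fun x p x0 h => by
    rw [← P.poly_eq] at h
    refine mem_separableClosure_iff.2 ((separable_X_pow_sub_C
      (algebraMap k[X] (RatFunc k) p) h2 fun z => ?_).of_dvd (minpoly.dvd _ _ ?_))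
    · rw [z, map_zero] at h
      exact x0 (pow_eq_zero_iff two_ne_zero |>.1 h)
    · rw [map_sub, map_pow, aeval_X, aeval_C, h, sub_self]
  have hW := key _ _ P.W_ne P.W_sq
  have hZ := key _ _ P.Z_ne P.Z_sq
  refine ⟨fun z => mem_separableClosure_iff.1 ?_⟩
  obtain ⟨a, b, c, d, rfl⟩ := P.FF_rep z
  have m := (separableClosure (RatFunc k) P.FF).algebraMap_mem
  exact add_mem (add_mem (m a) (mul_mem (m b) hW)) (mul_mem (add_mem (m c) (mul_mem (m d) hW)) hZ)

theorem exists_d : ∃ d : Derivation k P.FF P.FF, d P.M1 = 1 := by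
  haveI : Algebra.FormallyEtale k[X] (RatFunc k) :=
    Algebra.FormallyEtale.of_isLocalization (nonZeroDivisors k[X])
  haveI := sep P
  haveI : Algebra.FormallyEtale (RatFunc k) P.FF := Algebra.FormallyEtale.of_isSeparable _ _
  obtain ⟨d0, h0⟩ := exists_ext ((Algebra.linearMap k[X] (RatFunc k)).compDer derivative')
  obtain ⟨d, h⟩ := exists_ext ((Algebra.linearMap (RatFunc k) P.FF).compDer d0)
  refine ⟨d, (h _).trans ?_⟩
  show algebraMap (RatFunc k) P.FF (d0 RatFunc.X) = 1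
  rw [← RatFunc.algebraMap_X, h0]
  simp

/-- the second critical point -/
def g1 : k := (3 - P.g) / (P.g + 1)

/-- the coefficient of the differential -/
def ph (j : ℕ) (M : P.FF) : P.FF := M ^ j / (M ^ 2 - P.ι (g1 P * P.g0))

theorem nc_ne {M : P.FF} (hM : ∀ a : k, M ≠ P.ι a) (a : k) : M ^ 2 - P.ι a ≠ 0 :=
  F.sq_sub_ne (P.tr_of_nc (RingHom.id k) hM) a

theorem om_eq (d : Derivation k P.FF P.FF) (j : ℕ) (e : RingAut P.FF)
    (hc : ∀ a, e (P.ι a) = P.ι a) (hN : e P.N = P.N) (hY : e P.Y = P.Y)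
    (hM : ∀ a : k, e P.M1 ≠ P.ι a) : om P d j e = ph P j (e P.M1) * (d P.N / P.Y) := by
  have e1 := congrArg e P.N_eq
  have e2 := congrArg e P.W_eq
  simp only [map_div₀, map_mul e, map_sub, map_pow, hc, hN, hY] at e1 e2
  have n1 := nc_ne P hM P.g0
  have n2 := nc_ne P hM (P.g * P.g0)
  have n3 := nc_ne P hM (g1 P * P.g0)
  have y0 := P.Y_ne
  unfold om ph
  rw [e2]
  generalize e P.M1 = M at *
  have e3 := congrArg d ((eq_div_iff n1).1 e1)
  have z : ∀ a, d (P.ι a) = 0 := fun a => d.map_algebraMap a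
  simp only [Derivation.leibniz, map_sub, pow_two, z, smul_eq_mul] at e3
  have c1 : P.ι P.g * P.ι (g1 P) = P.ι P.c := by
    rw [← map_mul, g1, F.Par.c, mul_div_assoc]
  have c2 : P.ι P.g + P.ι (g1 P) = 3 - P.ι P.c := by
    have := P.hp1
    rw [← map_add, ← map_ofNat (algebraMap k P.FF) 3, ← map_sub, g1, F.Par.c]
    congr 1
    field_simp
    ring
  have e4 : d P.N * (M ^ 2 - P.ι P.g0) ^ 2 =
      d M * ((M ^ 2 - P.ι (P.g * P.g0)) * (M ^ 2 - P.ι (g1 P * P.g0))) := by
    have e5 := (eq_div_iff n1).1 e1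
    simp only [F.Par.ι, map_mul] at *
    linear_combination (M ^ 2 - algebraMap k P.FF P.g0) * e3 - 2 * M * d M * e5 -
      d M * (algebraMap k P.FF P.g0) ^ 2 * c1 + d M * algebraMap k P.FF P.g0 * M ^ 2 * c2
  rw [show d M = d P.N * (M ^ 2 - P.ι P.g0) ^ 2 /
    ((M ^ 2 - P.ι (P.g * P.g0)) * (M ^ 2 - P.ι (g1 P * P.g0))) from
      (eq_div_iff (mul_ne_zero n2 n3)).2 e4.symm]
  field_simp

theorem M1_ne_M2 : P.M1 ≠ P.M2 := fun h => P.M2_ne_M3 (by rw [← P.rho_M2, ← h, P.rho_M1, h])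

theorem M3_ne_M1 : P.M3 ≠ P.M1 := fun h => M1_ne_M2 P (by rw [← P.rho_M1, ← h, P.rho_M3, h])

theorem rho_ph (j : ℕ) (M : P.FF) : P.rho (ph P j M) = ph P j (P.rho M) := by
  simp only [ph, map_div₀, map_sub, map_pow, P.rho_c]

theorem ph_ne {j : ℕ} (hj : j < 2) : ph P j P.M2 ≠ ph P j P.M3 := fun h => by
  have h' := congrArg P.rho h
  rw [rho_ph, rho_ph, P.rho_M2, P.rho_M3] at h'
  have a := sub_ne_zero.2 P.M2_ne_M3
  have b := sub_ne_zero.2 (M3_ne_M1 P)
  have c := sub_ne_zero.2 (M1_ne_M2 P)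
  unfold ph at h h'
  rw [div_eq_div_iff (nc_ne P P.M2_nc _) (nc_ne P P.M3_nc _)] at h
  rw [div_eq_div_iff (nc_ne P P.M3_nc _) (nc_ne P P.M1_nc _)] at h'
  interval_cases j
  · have t : P.M2 + P.M3 = 0 := (mul_eq_zero.1 (by linear_combination -h)).resolve_left a
    have t' : P.M3 + P.M1 = 0 := (mul_eq_zero.1 (by linear_combination -h')).resolve_left b
    exact c (by linear_combination t' - t)
  · have t : P.M2 * P.M3 + P.ι (g1 P * P.g0) = 0 :=
      (mul_eq_zero.1 (by linear_combination -h)).resolve_left a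
    have t' : P.M3 * P.M1 + P.ι (g1 P * P.g0) = 0 :=
      (mul_eq_zero.1 (by linear_combination -h')).resolve_left b
    exact mul_ne_zero P.M3_ne c (by linear_combination t' - t)

theorem ph_ne' {j : ℕ} (hj : j < 2) :
    2 * ph P j P.M1 - ph P j P.M2 - ph P j P.M3 ≠ 0 := fun h => by
  have h' := congrArg P.rho h
  simp only [map_sub, map_mul, map_ofNat, map_zero, rho_ph, P.rho_M1, P.rho_M2, P.rho_M3] at h'
  have h3 : (3 : P.FF) ≠ 0 := by
    have := P.ι_ne P.h3
    rwa [F.Par.ι, map_ofNat] at this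
  have e : ph P j P.M1 = ph P j P.M2 := mul_left_cancel₀ h3 (by linear_combination h - h')
  exact ph_ne P hj (by linear_combination h - 2 * e)

/-- the behaviour under `ι` -/
structure Gd (g : RingAut P.FF) : Prop where
  m : P.iota (g P.M1) = -g P.M1
  w : P.iota (g P.W) = P.ι P.i * g P.W

variable {P}

theorem Gd.step {g : RingAut P.FF} (h : Gd P g) : Gd P (P.iota * g) :=
  ⟨by rw [P.mul_ap, h.m, map_neg, h.m], by rw [P.mul_ap, h.w, map_mul, P.iota_c, h.w]⟩

theorem Gd.om {g : RingAut P.FF} (h : Gd P g) (d : Derivation k P.FF P.FF) (j : ℕ) :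
    om P d j (P.iota * g) = (-1) ^ j * P.ι P.i * om P d j g := by
  have i0 := P.ι_ne P.i_ne
  have e : (P.ι P.i)⁻¹ = -P.ι P.i := inv_eq_of_mul_eq_one_right (by linear_combination -P.ιi_sq)
  unfold FA.om
  rw [P.mul_ap, P.mul_ap, h.m, h.w, map_neg, neg_pow, div_eq_mul_inv, mul_inv, e]
  ring

variable (P)

theorem gd_one : Gd P 1 := ⟨P.iota_M1, by
  rw [P.one_ap]
  conv_lhs => rw [P.W_eq]
  simp only [map_div₀, map_mul P.iota, map_pow, map_sub, P.iota_c, P.iota_M1, P.iota_Y, neg_sq]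
  rw [P.W_eq]
  ring⟩

theorem Gd.rho {g : RingAut P.FF} (h : Gd P g) : Gd P (P.rho * g) := by
  have e : ∀ z, P.iota (P.rho z) = P.rho (P.iota z) := fun z => by
    rw [← P.mul_ap, P.iota_rho, P.mul_ap]
  exact ⟨by rw [P.mul_ap, e, h.m, map_neg], by rw [P.mul_ap, e, h.w, map_mul, P.rho_c]⟩

theorem main (d : Derivation k P.FF P.FF) (hd : d P.M1 = 1) {j : ℕ} (hj : j < 2) (sw : Bool)
    (b0 b1 : P.FF) (h : 0 = ∑ a, (cs a : P.FF) * ∑ b, (cc sw b : P.FF) *
      (b0 * om P d j (gs P a * hs P sw b) + b1 * om P d j (gs P a * hs P sw b * P.iota))) :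
    b0 + (-1) ^ j * P.ι P.i * b1 = 0 := by
  have G1 := gd_one P
  have Gi : Gd P P.iota := mul_one P.iota ▸ G1.step
  have G2 : Gd P P.rho := mul_one P.rho ▸ G1.rho
  have G3 := G2.rho
  have o1 := om_eq P d j 1 (fun _ => rfl) rfl rfl P.M1_nc
  have o2 := om_eq P d j P.rho P.rho_c P.rho_N P.rho_Y (P.rho_M1 ▸ P.M2_nc)
  have m3 : (P.rho * P.rho) P.M1 = P.M3 := by rw [P.mul_ap, P.rho_M1, P.rho_M2]
  have o3 := om_eq P d j (P.rho * P.rho) (fun a => by rw [P.mul_ap, P.rho_c, P.rho_c])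
    (by rw [P.mul_ap, P.rho_N, P.rho_N]) (by rw [P.mul_ap, P.rho_Y, P.rho_Y]) (m3 ▸ P.M3_nc)
  rw [P.one_ap] at o1
  rw [P.rho_M1] at o2
  rw [m3] at o3
  have η0 : d P.N / P.Y ≠ 0 := fun z => by
    rw [z, mul_zero, om, P.one_ap, P.one_ap, hd, mul_one] at o1
    exact div_ne_zero (pow_ne_zero _ P.M1_ne) P.W_ne o1
  have oi : om P d j P.iota = (-1) ^ j * P.ι P.i * om P d j 1 := by
    rw [← G1.om, mul_one]
  have ri : ∀ x, P.rho * (P.iota * x) = P.iota * (P.rho * x) := fun x => by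
    rw [← mul_assoc, ← P.iota_rho, mul_assoc]
  have r3 : P.rho * (P.rho * P.rho) = 1 := by rw [← mul_assoc, P.rho_cube]
  have r4 : ∀ x, P.rho * (P.rho * (P.rho * x)) = x := fun x => by
    rw [← mul_assoc, ← mul_assoc, P.rho_cube, one_mul]
  have a1 := Gi.om d j
  have a2 := Gi.step.om d j
  have a3 := Gi.step.step.om d j
  have b1' := G2.om d j
  have b2 := G2.step.om d j
  have b3 := G2.step.step.om d j
  have b4 := G2.step.step.step.om d j
  have c1 := G3.om d j
  have c2 := G3.step.om d j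
  have c3 := G3.step.step.om d j
  have c4 := G3.step.step.step.om d j
  have s2 : ((-1) ^ j * P.ι P.i) ^ 2 = -1 := by
    rw [mul_pow, P.ιi_sq, ← pow_mul, mul_comm j, pow_mul]
    simp
  have s0 : (-1) ^ j * P.ι P.i ≠ 0 := fun z => by
    rw [z] at s2
    norm_num at s2
  generalize (-1) ^ j * P.ι P.i = s at *
  have ss : ∀ x, s * (s * x) = -x := fun x => by linear_combination x * s2
  have h2 := P.two_ne
  have h3 : (3 : P.FF) ≠ 0 := by
    have := P.ι_ne P.h3
    rwa [F.Par.ι, map_ofNat] at this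
  cases sw <;>
    simp only [Fin.sum_univ_six, Fin.sum_univ_two, gs, cs, hs, cc, Bool.false_eq_true, if_false,
      if_true, Matrix.cons_val_zero, Matrix.cons_val_one, Matrix.cons_val, mul_assoc, one_mul,
      mul_one, ri, ← P.iota_rho, r3, r4, a1, a2, a3, b1', b2, b3, b4, c1, c2, c3, c4, oi, ss,
      o1, o2, o3] at h <;> push_cast at h
  · refine (mul_eq_zero.1 ?_).resolve_right (mul_ne_zero h2 (mul_ne_zero (ph_ne' P hj) η0))
    linear_combination -h
  · refine (mul_eq_zero.1 ?_).resolve_right (mul_ne_zero (mul_ne_zero h2 h3) (mul_ne_zero s0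
      (mul_ne_zero (sub_ne_zero.2 (ph_ne P hj)) η0)))
    linear_combination -h + 6 * b1 * (ph P j P.M2 - ph P j P.M3) * (d P.N / P.Y) * s2

end Ind

theorem ind : IND := by
  intro k _ _ P
  obtain ⟨d, hd⟩ := Ind.exists_d P
  refine ⟨d, hd, fun p r sw b0 b1 h => ?_⟩
  have h0 := Ind.main P d hd (j := 0) (by norm_num) sw b0 b1 (by simpa using h 0 (by norm_num))
  have h1 := Ind.main P d hd (j := 1) (by norm_num) sw b0 b1 (by simpa using h 1 (by norm_num))
  have e0 : (b0 : P.FF) = 0 := mul_left_cancel₀ P.two_ne (by linear_combination h0 + h1)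
  have e1 : (b1 : P.FF) = 0 := mul_left_cancel₀ (P.ι_ne P.i_ne) (by linear_combination h0 - e0)
  exact ⟨(algebraMap k P.FF).injective (by rw [map_intCast, e0, map_zero]),
    (algebraMap k P.FF).injective (by rw [map_intCast, e1, map_zero])⟩

end Vale.Agent.P027M.FA
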