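import Vale.Agent.P027M.FA.Defs

/-! # P027, route M, block FAITH : bounded denominators -/

set_option linter.all false

noncomputable section

namespace Vale.Agent.P027M.FA

namespace Intg

open IsDedekindDomain

/-- a recurrence with bounded values has an integral coefficient -/
theorem grow {K : Type*} [Field K] (v : Valuation K (WithZero (Multiplicative ℤ))) (s : ℕ → K)
    (T q : K) (B : WithZero (Multiplicative ℤ)) (hq : v q ≤ 1) (h0 : s 0 ≠ 0)
    (h1 : s 1 = s 0 * (T - q)) (h2 : ∀ j, s (j + 2) = T * s (j + 1) - q ^ 2 * s j)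
    (hb : ∀ j, v (s j) ≤ B) : v T ≤ 1 := by
  by_contra c
  have c : 1 < v T := not_le.1 c
  have p0 : 0 < v (s 0) := zero_lt_iff.2 ((Valuation.ne_zero_iff v).2 h0)
  have t0 : 0 < v T := zero_lt_one.trans c
  have key : ∀ j, v (s j) = v (s 0) * v T ^ j ∧ v (s (j + 1)) = v (s 0) * v T ^ (j + 1) := by
    intro j
    induction j with
    | zero =>
      refine ⟨by simp, ?_⟩
      rw [h1, map_mul, Valuation.map_sub_eq_of_lt_left v (hq.trans_lt c)]
      simp
    | succ j ih =>
      refine ⟨ih.2, ?_⟩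
      have pj : 0 < v (s 0) * v T ^ j := mul_pos p0 (pow_pos t0 j)
      have l : v (q ^ 2 * s j) < v (T * s (j + 1)) := by
        rw [map_mul, map_mul, map_pow, ih.1, ih.2]
        calc v q ^ 2 * (v (s 0) * v T ^ j) ≤ 1 * (v (s 0) * v T ^ j) :=
              mul_le_mul_left (pow_le_one₀ zero_le hq) _
          _ < v T ^ 2 * (v (s 0) * v T ^ j) :=
              mul_lt_mul_of_pos_right (one_lt_pow₀ c two_ne_zero) pj
          _ = _ := by rw [pow_succ (v T) j, pow_two]; ac_rfl
      rw [h2, Valuation.map_sub_eq_of_lt_left v l, map_mul, ih.2, pow_succ (v T) (j + 1)]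
      ac_rfl
  obtain ⟨n, hn⟩ := MulArchimedean.arch (B / v (s 0)) c
  have k := hb (n + 1)
  rw [(key n).2, mul_comm, ← le_div_iff₀ p0] at k
  exact absurd (k.trans hn) (not_le.2 (pow_lt_pow_right₀ c n.lt_succ_self))

/-- the statement in the field of fractions of a Dedekind domain -/
theorem core {A K : Type*} [CommRing A] [IsDedekindDomain A] [Field K] [Algebra A K]
    [IsFractionRing A K] (s : ℕ → K) (ε : A) (p γ N : ℕ) (hp : p.Prime) (N0 : (N : A) ≠ 0)
    (N1 : 0 < N) (h1 : s 1 = s 0 * (γ * s 0 ^ 2 - 3 * (algebraMap A K ε * p)))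
    (h2 : ∀ j, s (j + 2) = (γ * s 0 ^ 2 - 2 * (algebraMap A K ε * p)) * s (j + 1) -
      (algebraMap A K ε * p) ^ 2 * s j)
    (hb : ∀ j, ∃ (a : ℕ) (u : A), (N * p ^ a : K) * s j = algebraMap A K u) :
    ∃ (a : ℕ) (u : A), (γ * p ^ a : K) * s 0 = algebraMap A K u := by
  obtain ⟨c, N', n1, n2⟩ := Nat.exists_eq_pow_mul_and_not_dvd N1.ne' p hp.ne_one
  obtain ⟨a, u, hu⟩ := hb 0
  by_cases h0 : s 0 = 0
  · exact ⟨0, 0, by simp [h0]⟩
  refine ⟨c + a, ?_⟩
  obtain ⟨y, hy⟩ := HeightOneSpectrum.mem_integers_of_valuation_le_one (R := A) K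
    ((γ * p ^ (c + a) : K) * s 0) fun v => by
      have nat : ∀ n : ℕ, v.valuation K (n : K) ≤ 1 := fun n => by
        rw [← map_natCast (algebraMap A K)]; exact v.valuation_le_one _
      have one : ∀ n : ℕ, (n : A) ∉ v.asIdeal → v.valuation K (n : K) = 1 := fun n h => by
        rw [← map_natCast (algebraMap A K)]; exact v.valuation_eq_one_iff_notMem.2 h
      by_cases hv : (p : A) ∈ v.asIdeal
      · have n3 : (N' : A) ∉ v.asIdeal := fun h => by
          have co : IsCoprime (p : A) (N' : A) := Nat.Coprime.cast ((hp.coprime_iff_not_dvd).2 n1)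
          obtain ⟨x, z, e⟩ := co
          exact v.isPrime.ne_top ((Ideal.eq_top_iff_one _).2
            (e ▸ add_mem (Ideal.mul_mem_left _ _ hv) (Ideal.mul_mem_left _ _ h)))
        have e : (N' : K) * ((γ * p ^ (c + a) : K) * s 0) = γ * algebraMap A K u := by
          rw [← hu, n2]; push_cast; ring
        have k := congrArg (v.valuation K) e
        rw [map_mul, one _ n3, one_mul] at k
        rw [k, map_mul]
        exact mul_le_one' (nat γ) (v.valuation_le_one u)
      · have vp := one p hv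
        have vq : v.valuation K (algebraMap A K ε * p) ≤ 1 := by
          rw [map_mul, vp, mul_one]; exact v.valuation_le_one ε
        have vN : 0 < v.valuation K (N : K) := by
          refine zero_lt_iff.2 ((Valuation.ne_zero_iff _).2 ?_)
          rw [← map_natCast (algebraMap A K)]
          exact (map_ne_zero_iff _ (IsFractionRing.injective A K)).2 N0
        have g := grow (v.valuation K) s (γ * s 0 ^ 2 - 2 * (algebraMap A K ε * p))
          (algebraMap A K ε * p) (1 / v.valuation K (N : K)) vq h0 (by rw [h1]; ring) h2 fun j => by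
            obtain ⟨b, w, hw⟩ := hb j
            have k := congrArg (v.valuation K) hw
            rw [map_mul, map_mul, map_pow, vp, one_pow, mul_one] at k
            rw [le_div_iff₀ vN, mul_comm, k]
            exact v.valuation_le_one w
        have g2 : v.valuation K (γ * s 0 ^ 2) ≤ 1 := by
          have e : (γ * s 0 ^ 2 : K) = (γ * s 0 ^ 2 - 2 * (algebraMap A K ε * p)) +
              (algebraMap A K ε * p + algebraMap A K ε * p) := by ring
          rw [e]
          exact Valuation.map_add_le _ g (Valuation.map_add_le _ vq vq)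
        have g3 : v.valuation K (γ * s 0) ^ 2 ≤ 1 := by
          have e : (γ * s 0 : K) ^ 2 = γ * (γ * s 0 ^ 2) := by ring
          rw [← map_pow, e, map_mul]
          exact mul_le_one' (nat γ) g2
        have e : (γ * p ^ (c + a) : K) * s 0 = p ^ (c + a) * (γ * s 0) := by ring
        rw [e, map_mul, map_pow, vp, one_pow, one_mul]
        exact (pow_le_one_iff_of_nonneg zero_le two_ne_zero).1 g3
  exact ⟨y, hy.symm⟩

end Intg

theorem intg : INTG := by
  intro R _ _ _ i p γ e N β σ hi hp p3 hγ N0 ind hσ h1 h2 hb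
  let φ : GaussianInt →+* R := Zsqrtd.lift ⟨i, by rw [← pow_two, hi]; simp⟩
  have φa : ∀ u : GaussianInt, φ u = u.re + u.im * i := fun u => rfl
  have cmp : ∀ (c : ℤ_[3]) (j : ℕ) (u : GaussianInt), algebraMap _ R c * σ j = φ u ↔
      c * (β j).1 = u.re ∧ c * (β j).2 = u.im := fun c j u => by
    rw [hσ, φa]
    constructor
    · intro h
      have k := ind (c * (β j).1 - u.re) (c * (β j).2 - u.im) (by
        simp only [map_sub, map_mul, map_intCast]
        linear_combination h)
      exact ⟨sub_eq_zero.1 k.1, sub_eq_zero.1 k.2⟩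
    · rintro ⟨a, b⟩
      rw [← map_intCast (algebraMap ℤ_[3] R), ← map_intCast (algebraMap ℤ_[3] R) u.im, ← a, ← b,
        map_mul, map_mul]
      ring
  have φi : Function.Injective φ := (injective_iff_map_eq_zero φ).2 fun u h => by
    have k := ind u.re u.im (by rw [map_intCast, map_intCast, ← φa, h])
    exact Zsqrtd.ext (by exact_mod_cast k.1) (by exact_mod_cast k.2)
  have jR := IsFractionRing.injective R (FractionRing R)
  let ψ : FractionRing GaussianInt →+* FractionRing R :=
    IsFractionRing.lift (g := (algebraMap R (FractionRing R)).comp φ) (jR.comp φi)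
  have ψa : ∀ u : GaussianInt, ψ (algebraMap _ _ u) = algebraMap R (FractionRing R) (φ u) :=
    fun u => IsFractionRing.lift_algebraMap _ u
  have ψi := ψ.injective
  choose a u0 u1 hu using hb
  have c0 : ∀ j, (N * p ^ a j : FractionRing GaussianInt) ≠ 0 := fun j =>
    mul_ne_zero (Nat.cast_ne_zero.2 N0.ne') (pow_ne_zero _ (Nat.cast_ne_zero.2 hp.ne_zero))
  obtain ⟨s, hs⟩ : ∃ s : ℕ → FractionRing GaussianInt, ∀ j,
      (N * p ^ a j : FractionRing GaussianInt) * s j = algebraMap GaussianInt _ ⟨u0 j, u1 j⟩ :=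
    ⟨fun j => algebraMap GaussianInt _ ⟨u0 j, u1 j⟩ / (N * p ^ a j), fun j =>
      mul_div_cancel₀ _ (c0 j)⟩
  have ss : ∀ j, ψ (s j) = algebraMap R (FractionRing R) (σ j) := fun j => by
    have k := congrArg ψ (hs j)
    rw [ψa, ← (cmp (N * p ^ a j) j ⟨u0 j, u1 j⟩).2 (hu j), map_mul ψ] at k
    have n := (map_ne_zero_iff ψ ψi).2 (c0 j)
    refine mul_left_cancel₀ n (k.trans ?_)
    simp only [map_mul, map_pow, map_natCast]
  have ψe : ψ (algebraMap GaussianInt _ (Zsqrtd.sqrtd ^ e)) =
      algebraMap R (FractionRing R) (i ^ e) := by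
    rw [ψa, map_pow φ, φa]; simp
  obtain ⟨b, u, h⟩ := Intg.core s (Zsqrtd.sqrtd ^ e : GaussianInt) p γ N hp
    (Nat.cast_ne_zero.2 N0.ne') N0
    (ψi (by
      simp only [map_mul ψ, map_sub ψ, map_pow ψ, ss, ψe, map_natCast, map_ofNat]
      rw [h1]
      simp only [map_mul, map_sub, map_pow, map_natCast, map_ofNat]))
    (fun j => ψi (by
      simp only [map_mul ψ, map_sub ψ, map_pow ψ, ss, ψe, map_natCast, map_ofNat]
      rw [h2]
      simp only [map_mul, map_sub, map_pow, map_natCast, map_ofNat]))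
    (fun j => ⟨a j, _, hs j⟩)
  have k := congrArg ψ h
  rw [ψa, map_mul, ss] at k
  obtain ⟨k1, k2⟩ := (cmp (γ * p ^ b) 0 u).1 (jR (by
    rw [← k]
    simp only [map_mul, map_pow, map_natCast]))
  rcases hγ with rfl | rfl
  · exact ⟨b, u.re, u.im, by simpa using k1, by simpa using k2⟩
  · have dv : ∀ (x : ℤ_[3]) (z : ℤ), ((3 : ℕ) * p ^ b : ℤ_[3]) * x = z →
        ∃ w : ℤ, (p ^ b : ℤ_[3]) * x = w := fun x z hz => by
      obtain ⟨w, rfl⟩ : ((3 : ℕ) ^ 1 : ℤ) ∣ z :=
        (PadicInt.pow_p_dvd_int_iff 1 z).1 ⟨p ^ b * x, by rw [← hz]; ring⟩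
      refine ⟨w, mul_left_cancel₀ (a := ((3 : ℕ) : ℤ_[3])) (by norm_num) ?_⟩
      rw [← mul_assoc, hz]
      push_cast
      ring
    obtain ⟨w0, e0⟩ := dv _ _ k1
    obtain ⟨w1, e1⟩ := dv _ _ k2
    exact ⟨b, w0, w1, e0, e1⟩

end Vale.Agent.P027M.FA
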