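import Vale.Agent.P027M.FA.Kum1
import Vale.Agent.P027M.B.Gen3

/-! # P027, route M, block FAITH : the rows `KUM` and `KUM2` (helper53) -/

set_option linter.all false

open Polynomial Vale.Agent.P019P P025H492 P025H816

noncomputable section

namespace Vale.Agent.P027M.FA

open B B.PtsAux _root_.P027M.K Kum

theorem Kum.fx {K Om : Type} [Field K] [Field Om] [Algebra K Om] {y : Om} (h : Fx K y)
    {s₀ : Om ≃+* Om} (e : ∀ a : K, s₀ (algebraMap K Om a) = algebraMap K Om a) : s₀ y = y :=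
  h (AlgEquiv.ofRingEquiv (f := s₀) e)

theorem Kum.ord_supp {Om L ι : Type} [Field Om] [Field L] [Algebra Om L] [CFF Om L] [Fintype ι]
    {c : ι → ℤ} {P : ι → Plk Om L} {p : Plk Om L → Prop} (h : ∀ a, p (P a)) {Q : Plk Om L}
    (hQ : (∑ a, c a • Finsupp.single (P a) (1 : ℤ)) Q ≠ 0) : p Q := by
  rw [Finsupp.finset_sum_apply] at hQ
  obtain ⟨a, -, ha⟩ := Finset.exists_ne_zero_of_sum_ne_zero hQ
  by_cases e : P a = Q
  · exact e ▸ h a
  · simp [e] at ha

theorem kum : KUM := by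
  intro k K Om L _ _ _ _ _ _ _ _ _ _ _ _ F m w H C _ _ _ m0 w0 h n ι _ α c hn hc hα hv
  obtain ⟨j, bc, a1, a2⟩ := ex_bc h H
  choose P p0 p1 p2 p3 p4 using fun a => val_gen h H bc a1 a2 (α a)
  have hn' : (n : Om) ≠ 0 := by
    rw [← map_natCast (algebraMap k Om) n]
    exact (_root_.map_ne_zero _).2 hn
  simp only [p0]
  obtain ⟨φ, ψ, φ0, -, e⟩ := exists_dv hn' (D := ∑ a, c a • Finsupp.single (P a) (1 : ℤ)) (by
    simpa [map_sum, dg] using hc)
  refine ⟨ψ, fun s s₀ hs e0 e1 e2 => ?_, φ, φ0, by rw [e]; abel⟩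
  have e0' : ∀ a, s₀ (algebraMap k Om a) = algebraMap k Om a := fun a => by
    rw [IsScalarTower.algebraMap_apply k K Om, e0]
  obtain ⟨χ, χ0, hχ⟩ := kum0 bc ((gen3 pts Om L _ m w H).trans (gen3 pts k C F m0 w0 h).symm) hn hs
    (j_fix h bc a1 a2 hs e1 e2 e0') φ0 e
    (map_fix fun Q => ord_supp (p := fun Q => plEquiv s s₀ hs Q = Q) fun a =>
      pl_fix H hs e1 e2 fun _ => by rw [p2, p3]; exact ⟨fx (hα a _) e0, fx (hα a _) e0⟩)
    fun f hf u => by
      obtain ⟨y, y1, y2⟩ := hv f hf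
      exact ⟨y, fx y1 e0, by
        rw [← y2, ← ev_corr c p4 f]
        exact (ev_val (x := Units.map (j : C →* L) f) u).symm⟩
  exact ⟨χ, χ0, by rw [← hχ]; abel⟩

theorem kum2 : KUM2 := by
  classical
  intro k K Om L _ _ _ _ _ _ _ _ _ _ _ _ F m w H C _ _ _ m0 w0 h n ι _ α c hn hα hD f hf
  have : IsAlgClosed k := CFF.ac C
  have n0 : n ≠ 0 := by
    rintro rfl
    simp at hn
  obtain ⟨j, bc, a1, a2⟩ := ex_bc h H
  choose P p0 p1 p2 p3 p4 using fun a => val_gen h H bc a1 a2 (α a)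
  simp only [p0] at hD
  obtain ⟨D, hD'⟩ : ∃ D, D = ∑ a, c a • Finsupp.single (P a) (1 : ℤ) := ⟨_, rfl⟩
  rw [← hD'] at hD
  obtain ⟨φ, φ0, hE⟩ := hD
  obtain ⟨u, hu⟩ := bc_move bc.comm hf ((D - dv Om φ).support ∪ (dv Om φ).support)
  have m1 : f * u ^ n ∈ divU k C n := mul_mem hf (powU_le n ⟨u, rfl⟩)
  obtain ⟨g, hg⟩ : ∃ g, g = Units.map (j : C →* L) (f * u ^ n) := ⟨_, rfl⟩
  have m2 : g ∈ divU Om L n := hg ▸ units_map_mem bc.comm n ⟨_, m1⟩
  have gv : (g : L) = j ((f * u ^ n : Cˣ) : C) := by rw [hg]; rfl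
  obtain ⟨B, hB⟩ := exists_halfdiv m2
  have nz : (n : ℤ) ≠ 0 := by exact_mod_cast n0
  have bφ : ∀ Q, dv Om φ Q = 0 ∨ B Q = 0 := fun Q => by
    by_cases e : Q ∈ (dv Om φ).support
    · have := DFunLike.congr_fun hB Q
      rw [dv_apply, gv, hu Q (Finset.mem_union_right _ e), Finsupp.smul_apply, nsmul_eq_mul] at this
      exact Or.inr ((mul_eq_zero.1 this).resolve_left nz)
    · exact Or.inl (Finsupp.notMem_support_iff.1 e)
  have w1 := e_ev (k := Om) one_ne_zero (f := Units.mk0 φ φ0) (g := g) (A := dv Om φ) (B := n • B)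
    (one_smul _ _) (by rw [one_smul, hB]) fun Q => (bφ Q).imp id fun e => by simp [e]
  rw [weil, map_nsmul, eq_comm, sub_eq_zero] at w1
  obtain ⟨t, ht⟩ : ∃ t : k, algebraMap k Om t = ((ev g (D - dv Om φ)).toMul : Omˣ) := by
    rw [ev_val fun Q hQ => gv ▸ hu Q (Finset.mem_union_left _ hQ)]
    refine Subring.prod_mem (algebraMap k Om).fieldRange.toSubring fun Q hQ => ?_
    obtain ⟨t, ht⟩ := val_cst H bc a1 (hE Q (Finsupp.mem_support_iff.1 hQ))
      (hu Q (Finset.mem_union_left _ hQ))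
    beta_reduce
    rw [gv, vl_eq ht]
    exact zpow_mem (show algebraMap k Om t ∈ (algebraMap k Om).fieldRange from ⟨t, rfl⟩) _
  obtain ⟨r, rfl⟩ := IsAlgClosed.exists_pow_nat_eq t (Nat.pos_of_ne_zero n0)
  have w2 := ev_corr c p4 (f * u ^ n)
  rw [← hg, ← hD', ← sub_add_cancel D (dv Om φ), map_add, ← w1, toMul_add, toMul_nsmul,
    Units.val_mul, Units.val_pow_eq_pow_val, ← ht, map_pow, ← mul_pow] at w2
  have u0 : ∏ a, α a (u : C) ^ c a ≠ 0 := Finset.prod_ne_zero_iff.2 fun a _ =>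
    zpow_ne_zero _ ((_root_.map_ne_zero (α a)).2 u.ne_zero)
  refine ⟨algebraMap k Om r * ((ev (Units.mk0 φ φ0) B).toMul : Omˣ) / ∏ a, α a (u : C) ^ c a,
    fun s₀ => ?_, ?_⟩
  · have e0 : ∀ a, s₀.toRingEquiv (algebraMap k Om a) = algebraMap k Om a := fun a => by
      rw [IsScalarTower.algebraMap_apply k K Om]
      exact s₀.commutes _
    obtain ⟨s, hs, e1, e2⟩ := ex_aut H s₀.toRingEquiv (by
      rw [Polynomial.map_map]
      exact congrArg (fun i => F.map i) (RingHom.ext e0))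
    have sD : D.mapDomain (plEquiv s _ hs) = D := by
      rw [hD']
      exact map_fix fun Q => ord_supp (p := fun Q => plEquiv s _ hs Q = Q) fun a =>
        pl_fix H hs e1 e2 fun _ => by rw [p2, p3]; exact ⟨hα a _ s₀, hα a _ s₀⟩
    have sE := map_fix (hs := hs) fun Q hQ => cst_fix H hs e1 e2 e0 (hE Q hQ)
    rw [Finsupp.mapDomain_sub, sD, ← dv_plEquiv, sub_right_inj] at sE
    have sB : B.mapDomain (plEquiv s _ hs) = B := by
      refine smul_inj' n0 ?_
      rw [← Finsupp.mapDomain_smul, hB, ← dv_plEquiv, gv, j_fix h bc a1 a2 hs e1 e2 e0]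
    have s0 : s φ ≠ 0 := (_root_.map_ne_zero s).2 φ0
    obtain ⟨x, hx⟩ := (dv_eq_zero_iff (k := Om) (mul_ne_zero s0 (inv_ne_zero φ0))).1 (by
      rw [dv_mul s0 (inv_ne_zero φ0), dv_inv, sE, add_neg_cancel])
    have x0 : x ≠ 0 := by
      rintro rfl
      rw [map_zero] at hx
      exact mul_ne_zero s0 (inv_ne_zero φ0) hx
    have w3 := ev_semi hs (x := Units.mk0 φ φ0) (E := B) fun Q hQ =>
      (dv_apply φ Q).symm.trans ((bφ Q).resolve_right (Finsupp.mem_support_iff.1 hQ))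
    have dB : dg B = 0 := by
      have := congrArg dg hB
      rw [dg_dv, map_nsmul, nsmul_eq_mul] at this
      exact (mul_eq_zero.1 this).resolve_left nz
    have w4 : ev (cU L (Units.mk0 x x0)) B = 0 := by
      rw [ev_eq_sum _ (subset_refl _)]
      simp only [lc_cU]
      rw [← zsum_smul, show ∑ Q ∈ B.support, B Q = 0 from dB, zero_smul]
    rw [sB, show mU s (Units.mk0 φ φ0) = cU L (Units.mk0 x x0) * Units.mk0 φ φ0 from Units.ext (by
      rw [Units.val_mul, cU_val, Units.val_mk0, ← hx]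
      exact (inv_mul_cancel_right₀ φ0 _).symm), ev_mul, w4, zero_add] at w3
    rw [map_div₀, map_mul, map_prod]
    congr 1
    · congr 1
      · exact e0 r
      · exact (congrArg (fun z : Additive Omˣ => ((z.toMul : Omˣ) : Om)) w3).symm
    · exact Finset.prod_congr rfl fun a _ => by rw [map_zpow₀, hα a _ s₀]
  · rw [div_pow, w2, eq_div_iff (pow_ne_zero _ u0), ← Finset.prod_pow, ← Finset.prod_mul_distrib]
    refine Finset.prod_congr rfl fun a _ => ?_
    rw [Units.val_mul, Units.val_pow_eq_pow_val, map_mul, map_pow, mul_zpow, ← zpow_natCast,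
      ← zpow_natCast, ← zpow_mul, ← zpow_mul, mul_comm (c a)]

end Vale.Agent.P027M.FA
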