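import Vale.Agent.P027M.FA.Defs

/-! # P027, route M, block FAITH : row MUM -/

set_option linter.all false

noncomputable section

namespace Vale.Agent.P027M.FA

namespace Mum

theorem zero_of_dvd {p : ℕ} (hp : p.Prime) (h3 : p ≠ 3) (X : ℤ_[3])
    (h : ∀ n : ℕ, ∃ f : ℕ, (3 : ℤ_[3]) ^ n ∣ (p : ℤ_[3]) ^ f * X) : X = 0 := by
  by_contra h0
  have hpr : Prime (3 : ℤ_[3]) := by exact_mod_cast PadicInt.prime_p (p := 3)
  obtain ⟨n, hn⟩ := FiniteMultiplicity.of_prime_left hpr h0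
  obtain ⟨f, hf⟩ := h (n + 1)
  have hc : IsCoprime (3 : ℤ_[3]) (p : ℤ_[3]) := by
    have h1 : Nat.Coprime 3 p := (Nat.coprime_primes Nat.prime_three hp).2 h3.symm
    exact_mod_cast h1.cast (R := ℤ_[3])
  exact hn (hc.pow.dvd_of_dvd_mul_left hf)

theorem common2 {c0 p : ℕ} {q r : ℚ} (h : ∃ (a : ℕ) (z : ℤ), (c0 : ℚ) * p ^ a * q = z)
    (h' : ∃ (a : ℕ) (z : ℤ), (c0 : ℚ) * p ^ a * r = z) :
    ∃ (a : ℕ) (z z' : ℤ), (c0 : ℚ) * p ^ a * q = z ∧ (c0 : ℚ) * p ^ a * r = z' := by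
  obtain ⟨a, z, h⟩ := h
  obtain ⟨b, w, h'⟩ := h'
  refine ⟨a + b, p ^ b * z, p ^ a * w, ?_, ?_⟩
  · push_cast
    rw [← h]
    ring
  · push_cast
    rw [← h']
    ring

theorem common3 {c0 p : ℕ} {q r s : ℚ} (h : ∃ (a : ℕ) (z : ℤ), (c0 : ℚ) * p ^ a * q = z)
    (h' : ∃ (a : ℕ) (z : ℤ), (c0 : ℚ) * p ^ a * r = z)
    (h'' : ∃ (a : ℕ) (z : ℤ), (c0 : ℚ) * p ^ a * s = z) :
    ∃ (a : ℕ) (z z' z'' : ℤ), (c0 : ℚ) * p ^ a * q = z ∧ (c0 : ℚ) * p ^ a * r = z' ∧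
      (c0 : ℚ) * p ^ a * s = z'' := by
  obtain ⟨a, z, w, h, h'⟩ := common2 h h'
  obtain ⟨b, t, h''⟩ := h''
  refine ⟨a + b, p ^ b * z, p ^ b * w, p ^ a * t, ?_, ?_, ?_⟩
  · push_cast
    rw [← h]
    ring
  · push_cast
    rw [← h']
    ring
  · push_cast
    rw [← h'']
    ring

/-- one row of the linear system -/
theorem row {c0 p : ℕ} (hp : p.Prime) (h3 : p ≠ 3) {k e : ℕ} {g0 g1 v : ℚ} {z0 z1 w : ℤ}
    (h0 : (c0 : ℚ) * p ^ k * g0 = z0) (h1 : (c0 : ℚ) * p ^ k * g1 = z1)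
    (hv : (c0 : ℚ) * p ^ e * v = w) (β0 β1 : ℤ_[3])
    (h : ∀ n : ℕ, ∃ (a0 a1 : ℤ) (s : ℚ), (3 : ℤ_[3]) ^ n ∣ β0 - a0 ∧ (3 : ℤ_[3]) ^ n ∣ β1 - a1 ∧
      v = a0 * g0 + a1 * g1 + 3 ^ n * s ∧ ∃ (f : ℕ) (t : ℤ), (c0 : ℚ) * p ^ f * s = t) :
    (p : ℤ_[3]) ^ e * (z0 * β0 + z1 * β1) = p ^ k * w := by
  refine sub_eq_zero.1 (zero_of_dvd hp h3 _ fun n => ?_)
  obtain ⟨a0, a1, s, ⟨b0, hb0⟩, ⟨b1, hb1⟩, hs, f, t, ht⟩ := h n
  have e1 : ((p ^ (k + f) * w : ℤ) : ℚ) =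
      ((p ^ (e + f) * (a0 * z0 + a1 * z1) + 3 ^ n * (p ^ (e + k) * t) : ℤ) : ℚ) := by
    push_cast
    rw [← hv, ← h0, ← h1, ← ht, hs]
    ring
  have e2 := congrArg (Int.cast : ℤ → ℤ_[3]) (Int.cast_injective e1)
  push_cast at e2
  refine ⟨f, p ^ (e + f) * (z0 * b0 + z1 * b1) - p ^ (e + k) * t, ?_⟩
  linear_combination (p : ℤ_[3]) ^ (e + f) * z0 * hb0 + (p : ℤ_[3]) ^ (e + f) * z1 * hb1 - e2

end Mum

open Mum

theorem mum : MUM := by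
  intro A _ be Z I c0 p x0 x1 hc hp h3 hsy hZ han hI h0 h1 hind
  obtain ⟨k, z00, z01, z11, e00, e01, e11⟩ := common3 (hI x0 h0 x0 h0) (hI x0 h0 x1 h1)
    (hI x1 h1 x1 h1)
  have hcq : (c0 : ℚ) ≠ 0 := by exact_mod_cast hc.ne'
  have hpq : (p : ℚ) ≠ 0 := by exact_mod_cast hp.ne_zero
  have hM : ∀ a : ℕ, (c0 : ℚ) * p ^ a ≠ 0 := fun a => mul_ne_zero hcq (pow_ne_zero _ hpq)
  have h10 : be x1 x0 = be x0 x1 := hsy _ _
  have hD : z00 * z11 - z01 ^ 2 ≠ 0 := by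
    intro hD
    have hq : (z00 : ℚ) * z11 - z01 ^ 2 = 0 := by exact_mod_cast hD
    have h4 : be ((-z01) • x0 + z00 • x1) ((-z01) • x0 + z00 • x1) = 0 := by
      refine mul_left_cancel₀ (hM k) ?_
      simp only [map_add, map_zsmul, AddMonoidHom.add_apply, AddMonoidHom.zsmul_apply,
        zsmul_eq_mul, h10]
      push_cast
      linear_combination (z01 : ℚ) ^ 2 * e00 - 2 * z00 * z01 * e01 + (z00 : ℚ) ^ 2 * e11 +
        z00 * hq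
    have h5 := (hind _ _ (han _ h4)).2
    have h6 : be x0 x0 = 0 := by
      refine mul_left_cancel₀ (hM k) ?_
      rw [e00, h5]
      simp
    have h7 := (hind 1 0 (by simpa using han _ h6)).1
    exact one_ne_zero h7
  set D := z00 * z11 - z01 ^ 2 with hDd
  refine ⟨D.natAbs * D.natAbs, Nat.mul_pos (Int.natAbs_pos.2 hD) (Int.natAbs_pos.2 hD), ?_⟩
  intro y hy β0 β1 hβ
  obtain ⟨e, w0, w1, f0, f1⟩ := common2 (hI y hy x0 h0) (hI y hy x1 h1)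
  have hexp : ∀ (n : ℕ) (a0 a1 : ℤ) (ψ : A), y - a0 • x0 - a1 • x1 - 3 ^ n • ψ ∈ Z → ∀ x,
      be y x = a0 * be x0 x + a1 * be x1 x + 3 ^ n * be ψ x := by
    intro n a0 a1 ψ h x
    have h4 := hZ _ h x
    simp only [map_sub, map_zsmul, map_nsmul, AddMonoidHom.sub_apply, AddMonoidHom.zsmul_apply,
      AddMonoidHom.nsmul_apply, zsmul_eq_mul, nsmul_eq_mul] at h4
    push_cast at h4
    linear_combination h4
  have r0 := row hp h3 e00 e01 f0 β0 β1 fun n => by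
    obtain ⟨a0, a1, ψ, hψ, d0, d1, hz⟩ := hβ n
    exact ⟨a0, a1, be ψ x0, d0, d1, by rw [hexp n a0 a1 ψ hz x0, h10], hI ψ hψ x0 h0⟩
  have r1 := row hp h3 e01 e11 f1 β0 β1 fun n => by
    obtain ⟨a0, a1, ψ, hψ, d0, d1, hz⟩ := hβ n
    exact ⟨a0, a1, be ψ x1, d0, d1, hexp n a0 a1 ψ hz x1, hI ψ hψ x1 h1⟩
  have hN : ((D.natAbs * D.natAbs : ℕ) : ℤ) = D * D := by
    push_cast
    rw [abs_mul_abs_self]
  have hN3 : ((D.natAbs * D.natAbs : ℕ) : ℤ_[3]) = ((z00 : ℤ_[3]) * z11 - z01 ^ 2) ^ 2 := by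
    have h4 := congrArg (Int.cast : ℤ → ℤ_[3]) hN
    rw [Int.cast_natCast, hDd] at h4
    rw [h4]
    push_cast
    ring
  have hNq : ((D.natAbs * D.natAbs : ℕ) : ℚ) = ((z00 : ℚ) * z11 - z01 ^ 2) ^ 2 := by
    have h4 := congrArg (Int.cast : ℤ → ℚ) hN
    rw [Int.cast_natCast, hDd] at h4
    rw [h4]
    push_cast
    ring
  refine ⟨e, D * (p ^ k * (z11 * w0 - z01 * w1)), D * (p ^ k * (z00 * w1 - z01 * w0)), ?_, ?_, ?_⟩
  · rw [hN3, hDd]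
    push_cast
    linear_combination ((z00 : ℤ_[3]) * z11 - z01 ^ 2) * (z11 * r0 - z01 * r1)
  · rw [hN3, hDd]
    push_cast
    linear_combination ((z00 : ℤ_[3]) * z11 - z01 ^ 2) * (z00 * r1 - z01 * r0)
  · set x := (D.natAbs * D.natAbs * p ^ e) • y - (D * (p ^ k * (z11 * w0 - z01 * w1))) • x0 -
      (D * (p ^ k * (z00 * w1 - z01 * w0))) • x1 with hx
    have hxI : x ∈ I := sub_mem (sub_mem (nsmul_mem hy _) (zsmul_mem h0 _)) (zsmul_mem h1 _)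
    have hbx : ∀ t, be x t = ((z00 : ℚ) * z11 - z01 ^ 2) ^ 2 * p ^ e * be y t -
        ((z00 : ℚ) * z11 - z01 ^ 2) * (p ^ k * (z11 * w0 - z01 * w1)) * be x0 t -
        ((z00 : ℚ) * z11 - z01 ^ 2) * (p ^ k * (z00 * w1 - z01 * w0)) * be x1 t := by
      intro t
      rw [hx, ← hNq]
      simp only [map_sub, map_zsmul, map_nsmul, AddMonoidHom.sub_apply, AddMonoidHom.zsmul_apply,
        AddMonoidHom.nsmul_apply, zsmul_eq_mul, nsmul_eq_mul, hDd]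
      push_cast
      ring
    have b0 : be x0 x = 0 := by
      refine mul_left_cancel₀ (hM k) ?_
      rw [hsy, hbx, h10]
      linear_combination ((z00 : ℚ) * z11 - z01 ^ 2) ^ 2 * p ^ k * f0 -
        ((z00 : ℚ) * z11 - z01 ^ 2) * (p ^ k * (z11 * w0 - z01 * w1)) * e00 -
        ((z00 : ℚ) * z11 - z01 ^ 2) * (p ^ k * (z00 * w1 - z01 * w0)) * e01
    have b1 : be x1 x = 0 := by
      refine mul_left_cancel₀ (hM k) ?_
      rw [hsy, hbx]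
      linear_combination ((z00 : ℚ) * z11 - z01 ^ 2) ^ 2 * p ^ k * f1 -
        ((z00 : ℚ) * z11 - z01 ^ 2) * (p ^ k * (z11 * w0 - z01 * w1)) * e01 -
        ((z00 : ℚ) * z11 - z01 ^ 2) * (p ^ k * (z00 * w1 - z01 * w0)) * e11
    obtain ⟨s, r, hr⟩ := hI y hy x hxI
    have hr0 : (r : ℤ_[3]) = 0 := by
      refine zero_of_dvd hp h3 _ fun n => ?_
      obtain ⟨a0, a1, ψ, hψ, -, -, hz⟩ := hβ n
      obtain ⟨f, t, ht⟩ := hI ψ hψ x hxI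
      have h4 := hexp n a0 a1 ψ hz x
      rw [b0, b1] at h4
      have e1 : ((p ^ f * r : ℤ) : ℚ) = ((3 ^ n * (p ^ s * t) : ℤ) : ℚ) := by
        push_cast
        rw [← hr, ← ht, h4]
        ring
      have e2 := congrArg (Int.cast : ℤ → ℤ_[3]) (Int.cast_injective e1)
      push_cast at e2
      exact ⟨f, _, e2⟩
    have hyx : be y x = 0 := by
      refine mul_left_cancel₀ (hM s) ?_
      rw [hr, Int.cast_eq_zero.1 hr0]
      simp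
    refine han _ ?_
    rw [hbx, hyx, b0, b1]
    simp

end Vale.Agent.P027M.FA
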