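import Vale.Agent.P027M.FA.Spec
import Vale.Agent.P022.H20.Frob

/-! # P027, route M, block FAITH : the output at a good prime -/

set_option linter.all false

open Polynomial NumberField Vale.Agent.P022 Vale.Agent.P019P P025H492 P025H816

noncomputable section

namespace Vale.Agent.P027M.FA

open F

namespace Out

theorem tr_step {R : Type} [CommRing R] (A B : Matrix (Fin 2) (Fin 2) R) :
    (A * A * B).trace = A.trace * (A * B).trace - A.det * B.trace := by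
  simp only [Matrix.trace_fin_two, Matrix.det_fin_two, Matrix.mul_apply, Fin.sum_univ_two]
  ring

theorem tr_two {R : Type} [CommRing R] (A : Matrix (Fin 2) (Fin 2) R) :
    (A * A).trace = A.trace ^ 2 - 2 * A.det := by
  simp only [Matrix.trace_fin_two, Matrix.det_fin_two, Matrix.mul_apply, Fin.sum_univ_two]
  ring

theorem tr_three {R : Type} [CommRing R] (A : Matrix (Fin 2) (Fin 2) R) :
    (A ^ (2 * 1 + 1)).trace = A.trace * (A.trace ^ 2 - 3 * A.det) := by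
  rw [show A ^ (2 * 1 + 1) = A * A * A by rw [show 2 * 1 + 1 = 3 from rfl, pow_three, mul_assoc],
    tr_step, tr_two]
  ring

theorem tr_odd {R : Type} [CommRing R] (A : Matrix (Fin 2) (Fin 2) R) (j : ℕ) :
    (A ^ (2 * (j + 2) + 1)).trace = (A.trace ^ 2 - 2 * A.det) * (A ^ (2 * (j + 1) + 1)).trace -
      A.det ^ 2 * (A ^ (2 * j + 1)).trace := by
  have e1 : A ^ (2 * (j + 1) + 1) = A * A * A ^ (2 * j + 1) := by
    rw [← sq, ← pow_add]; congr 1; ring
  have e2 : A ^ (2 * (j + 2) + 1) = A * A * (A * A) * A ^ (2 * j + 1) := by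
    rw [← sq A, ← pow_add, ← pow_add]; congr 1; ring
  rw [e1, e2, tr_step, tr_two, Matrix.det_mul, sq A.det]

theorem alg_inj (a b : ℤ_[3]) (h : algebraMap _ O3 a + algebraMap _ O3 b * iO = 0) :
    a = 0 ∧ b = 0 := by
  have e : algebraMap _ O3 a + algebraMap _ O3 b * iO = ⟨⟨a, b⟩, 0⟩ := by
    show (⟨⟨a, 0⟩, 0⟩ : O3) + (⟨⟨b, 0⟩, 0⟩ : O3) * iO = _
    ext <;> simp [iO]
  rw [e] at h
  exact ⟨congrArg (·.re.re) h, congrArg (·.re.im) h⟩

theorem cw_sq (sw : Bool) : cw sw ^ 2 = ((if sw then 3 else 1 : ℕ) : O3) := by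
  cases sw
  · simp [cw]
  · simp [cw, wO_sq]

theorem cw_ne (sw : Bool) : cw sw ≠ 0 := by
  cases sw
  · simp [cw]
  · exact fun h => one_ne_zero (wO_mul (z := 1) (by rw [mul_one]; exact h))

theorem gi_co (b : GaussianInt) : gi (iO : O3) b = co ((b.re : ℤ_[3]), (b.im : ℤ_[3])) := by
  simp only [gi, co, map_intCast]

theorem gi_inj {b b' : GaussianInt} (h : gi (iO : O3) b = gi iO b') : b = b' := by
  rw [gi_co, gi_co] at h
  obtain ⟨h1, h2⟩ := alg_inj ((b.re : ℤ_[3]) - b'.re) ((b.im : ℤ_[3]) - b'.im) (by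
    simp only [co] at h
    rw [map_sub, map_sub]
    linear_combination h)
  exact Zsqrtd.ext (Int.cast_injective (sub_eq_zero.1 h1)) (Int.cast_injective (sub_eq_zero.1 h2))

theorem gi_mul (z w : GaussianInt) : gi (iO : O3) (z * w) = gi iO z * gi iO w := by
  simp only [gi, Zsqrtd.re_mul, Zsqrtd.im_mul]
  push_cast
  linear_combination (-(z.im : O3) * w.im) * (iO_sq (R := ℤ_[3]))

theorem ex_e {z : GaussianInt} (h : z ^ 4 = 1) : ∃ e : ℕ, gi (iO : O3) z = iO ^ e := by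
  have h1 : gi (iO : O3) (z * z * (z * z)) = 1 := by
    rw [show z * z * (z * z) = 1 by rw [← h]; ring]
    simp [gi]
  rw [gi_mul, gi_mul] at h1
  generalize gi (iO : O3) z = y at h1 ⊢
  have hi := iO_sq (R := ℤ_[3])
  have h2 : (y - iO ^ 0) * ((y - iO ^ 1) * ((y - iO ^ 2) * (y - iO ^ 3))) = 0 := by
    rw [show (iO : O3) ^ 3 = iO ^ 2 * iO by ring, hi]
    linear_combination h1 - (y ^ 2 - 1) * hi
  rcases mul_eq_zero.1 h2 with k | k
  · exact ⟨0, sub_eq_zero.1 k⟩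
  rcases mul_eq_zero.1 k with k | k
  · exact ⟨1, sub_eq_zero.1 k⟩
  rcases mul_eq_zero.1 k with k | k
  · exact ⟨2, sub_eq_zero.1 k⟩
  · exact ⟨3, sub_eq_zero.1 k⟩

theorem not_dvd {N p : ℕ} (hp : GoodP N p) : p ≠ 2 ∧ p ≠ 3 ∧ ¬ p ∣ N :=
  ⟨fun h => hp.2 (h ▸ ⟨3 * N, by ring⟩), fun h => hp.2 (h ▸ ⟨2 * N, by ring⟩),
    fun h => hp.2 (h.mul_left 6)⟩

/-- the action of the odd powers of a Frobenius element on `i` -/
theorem frob_i {i : 𝓞 Qb} (hi : i ^ 2 = -1) {p : ℕ} (hp : p.Prime) (h2 : p ≠ 2)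
    {Q : Ideal (𝓞 Qb)} {φ : GQ} (h : FrobAt p Q φ) (j : ℕ) :
    decide (p % 4 = 3) = true ↔ (φ ^ (2 * j + 1)) (i : Qb) ≠ i := by
  have hQ := h.pr
  have t : 2 * i ∉ Q := fun k => by
    have k2 : (2 : 𝓞 Qb) ∈ Q := by
      convert Q.mul_mem_left (-i) k using 1
      linear_combination 2 * hi
    obtain ⟨u, v, huv⟩ := Nat.isCoprime_iff_coprime.2 ((Nat.coprime_primes hp Nat.prime_two).2 h2)
    have : (1 : 𝓞 Qb) ∈ Q := by
      convert Q.add_mem (Q.mul_mem_left (u : 𝓞 Qb) h.mem) (Q.mul_mem_left (v : 𝓞 Qb) k2) using 1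
      exact_mod_cast congrArg (Int.cast : ℤ → 𝓞 Qb) huv.symm
    exact hQ.ne_top ((Ideal.eq_top_iff_one _).2 this)
  have h4 : i ^ 4 = 1 := by rw [show 4 = 2 * 2 from rfl, pow_mul, hi]; norm_num
  have hl4 : i ^ p = i ^ (p % 4) := by
    conv_lhs => rw [← Nat.div_add_mod p 4, pow_add, pow_mul, h4, one_pow, one_mul]
  have k := h.fr i
  rw [hl4] at k
  have hs : (φ • i) ^ 2 = -1 := by rw [← smul_pow', hi, smul_neg, smul_one]
  have hc : φ • i = i ∨ φ • i = -i := sq_eq_sq_iff_eq_or_eq_neg.1 (hs.trans hi.symm)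
  have ne : -(i : Qb) ≠ i := fun e => t (by
    have : -i = i := RingOfIntegers.ext e
    convert Q.zero_mem using 1
    linear_combination -this)
  have od : p % 4 = 1 ∨ p % 4 = 3 := by
    have := hp.eq_two_or_odd
    omega
  rcases hc with c | c
  · have c' : φ (i : Qb) = i := congrArg (fun x : 𝓞 Qb => (x : Qb)) c
    have c1 : ∀ m : ℕ, (φ ^ m) (i : Qb) = i := fun m => by
      induction m with
      | zero => rfl
      | succ m ih => rw [pow_succ, AlgEquiv.mul_apply, c', ih]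
    refine ⟨fun e => absurd ?_ t, fun e => absurd (c1 _) e⟩
    rw [of_decide_eq_true e, c] at k
    convert k using 1
    linear_combination i * hi
  · have c' : φ (i : Qb) = -i := congrArg (fun x : 𝓞 Qb => (x : Qb)) c
    have c1 : ∀ m : ℕ, (φ ^ (2 * m + 1)) (i : Qb) = -i := fun m => by
      induction m with
      | zero => simpa using c'
      | succ m ih =>
        rw [show 2 * (m + 1) + 1 = 2 * m + 1 + 1 + 1 by ring, pow_succ, pow_succ,
          AlgEquiv.mul_apply, AlgEquiv.mul_apply, c', map_neg, c', neg_neg, ih]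
    refine ⟨fun _ => by rw [c1]; exact ne, fun _ => decide_eq_true (od.resolve_left fun e => t ?_)⟩
    rw [e, c] at k
    convert Q.neg_mem k using 1
    ring

/-- the output for one reduction -/
theorem one (hC : COREP) (hI : INTG) (hS : SYM) (hH : CH) {g : ℚ} {X : Cfg g}
    {ρ : GQ →* TW.M2 O3} {emb} {N : ℕ} {ε : ZMod N →* GaussianInt} {M ξ c} {a : ℕ → O3}
    (hm : Mod X ρ emb) (hG : GalA X.i N ε M ξ c a ρ) {p : ℕ} (hp : GoodP N p)
    {Q : Ideal (𝓞 Qb)} {φ : GQ} (hF : FrobAt p Q φ) (D : RedD X p Q φ) (e : ℕ)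
    (he : gi (iO : O3) (ε p) = iO ^ e) : ∃ b : GaussianInt, a p = cw (p % 4 = 3) * gi iO b ∧
      (∀ d : Derivation D.k D.P.FF D.P.FF, DId D.P d p (D.T.rr D.f) (p % 4 = 3) 1 b.re b.im) ∧
      ∀ n : ℕ, ¬ p ∣ n → ∀ h ∈ divU D.k D.P.FC n, ∃ y : D.P.FF,
        ∏ a, ((gs D.P a * D.T.rr D.f) ((h : D.P.FC) : D.P.FF) *
          (gs D.P a * D.P.iota ^ e * (D.T.rr D.f)⁻¹) ((h : D.P.FC) : D.P.FF) ^ p *
          ∏ c, ((gs D.P a * hs D.P (p % 4 = 3) c) ((h : D.P.FC) : D.P.FF) ^ b.re *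
            (gs D.P a * hs D.P (p % 4 = 3) c * D.P.iota) ((h : D.P.FC) : D.P.FF) ^ b.im) ^
              (-cc (p % 4 = 3) c)) ^ cs a = y ^ n := by
  obtain ⟨h2, h3, -⟩ := not_dvd hp
  have fr : IsFrob p φ := ⟨Q, hF.pr, hF.mem, hF.fr⟩
  have sw := frob_i X.hi hp.1 h2 hF
  generalize decide (p % 4 = 3) = s at sw ⊢
  choose β hβ using fun j : ℕ => hS g X ρ emb hm (φ ^ (2 * j + 1)) s (sw j)
  have hd : (ρ φ).det = (iO : O3) ^ e * p := by rw [hG.det p φ hp fr, he, mul_comm]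
  have h0 : (ρ φ).trace = cw s * co (β 0) := by simpa using hβ 0
  have q := cw_sq s
  have c0 := cw_ne s
  obtain ⟨b0, b1, e0, e1, k1, k2⟩ := hC D.k D.P p e (D.T.rr D.f) s β hp.1
    (fun x => by rw [Tw.rr_c, D.hf])
    (fun j n a0 a1 d0 d1 => D.kill _ _ _ _ _ _ _
      (fun h => h3 ((Nat.prime_dvd_prime_iff_eq hp.1 Nat.prime_three).1 (hp.1.dvd_of_dvd_pow h)))
      (by
        rw [← map_pow]
        refine hH g X ρ emb hm _ s _ _ n (β j) a0 a1 (hβ j) ?_ d0 d1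
        rw [map_pow, Matrix.det_pow, hd, mul_pow, ← pow_mul, Nat.cast_pow, mul_comm]))
    (fun ⟨N', hN', hb⟩ => hI O3 iO p (if s then 3 else 1) e N' β (fun j => co (β j)) iO_sq hp.1 h3
      (by cases s <;> simp) hN' alg_inj (fun _ => rfl)
      (mul_left_cancel₀ c0 (by
        rw [← hβ, map_pow, tr_three, h0, hd, ← q]
        ring))
      (fun j => mul_left_cancel₀ c0 (by
        have a1 := hβ (j + 1)
        have a2 := hβ j
        rw [map_pow] at a1 a2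
        rw [← hβ, map_pow, tr_odd, a1, a2, h0, hd, ← q]
        ring)) hb)
  refine ⟨⟨b0, b1⟩, ?_, k1, k2⟩
  rw [← hG.tr p φ hp fr, h0, gi_co, ← e0, ← e1]

end Out

open Out

/-- **[FA.out]** -/
theorem out (hC : COREP) (hI : INTG) (hS : SYM) (hH : CH) (hT : TR) : OUT := by
  intro g X ρ emb N ε M ξ c a hm hG p hp hU
  obtain ⟨φ, Q, q1, q2, q3⟩ := H20.exists_isFrob hp.1
  have hF : FrobAt p Q φ := ⟨q1, q2, q3⟩
  obtain ⟨D⟩ := hT g X p Q φ hp.1 hU hF
  obtain ⟨e, he⟩ := ex_e (hG.hk.eps4 (ZMod.unitOfCoprime p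
    ((Nat.Prime.coprime_iff_not_dvd hp.1).2 (not_dvd hp).2.2)))
  rw [ZMod.coe_unitOfCoprime] at he
  obtain ⟨b, hb, -⟩ := one hC hI hS hH hm hG hp hF D e he
  refine ⟨b, hb, fun Q' φ' hF' D' e' he' => ?_⟩
  obtain ⟨b', hb', k⟩ := one hC hI hS hH hm hG hp hF' D' e' he'
  rwa [gi_inj (mul_left_cancel₀ (cw_ne _) (hb.symm.trans hb'))]

end Vale.Agent.P027M.FA
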