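import Vale.Agent.P027M.FA.Defs

/-! # P027, route M, row FA.PTI : fixed points and classes of constant divisors are invariant -/

open Polynomial Vale.Agent.P019P P025H492 P025H816

noncomputable section

namespace Vale.Agent.P027M.FA

open B

namespace PtiAux

variable {Om L : Type} [Field Om] [Field L] [Algebra Om L] [CFF Om L]
  {s : L ≃+* L} {s₀ : Om ≃+* Om} (hs : ∀ a, s (algebraMap Om L a) = algebraMap Om L (s₀ a))

theorem vl_pl {P : Plk Om L} {z : L} (h : 0 ≤ ord P z) :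
    vl (plEquiv s s₀ hs P) (s z) = s₀ (vl P z) := by
  refine vl_eq ?_
  rw [← hs, ← map_sub]
  rcases mem_Mge.1 (sub_vl_mem h) with h | h
  · rw [h, map_zero]; exact zero_mem _
  · exact mem_Mge.2 (Or.inr (by rwa [ord_plEquiv]))

theorem fix {G : Om[X]} {m w : L} (H : Pts G m w) (hm : s m = m) (hw : s w = w) {P : Plk Om L}
    (h : 0 ≤ ord P m → s₀ (vl P m) = vl P m ∧ s₀ (vl P w) = vl P w) :
    plEquiv s s₀ hs P = P := by
  have e := ord_plEquiv s s₀ hs P m
  rw [hm] at e
  rcases lt_or_ge (ord P m) 0 with h0 | h0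
  · obtain ⟨Q, -, -, hQ⟩ := H.inf
    rw [hQ _ (e.trans_lt h0), hQ _ h0]
  · have e1 := vl_pl hs h0
    have e2 := vl_pl hs (H.pt P h0).1
    rw [hm] at e1
    rw [hw] at e2
    exact H.inj _ _ (e.symm ▸ h0) h0 (e1.trans (h h0).1) (e2.trans (h h0).2)

end PtiAux

open PtiAux in
theorem pti (pts : PTS) : PTI := by
  intro k K Om L _ _ _ _ _ _ _ _ _ hk _ _ F m w hyp
  have H := pts Om L _ m w hyp
  refine ⟨fun μ t hμ ht s s₀ hs hK hm hw => ⟨1, one_ne_zero, ?_⟩, ?_⟩
  · have e0 : dv Om (1 : L) = 0 := by ext P; simp [dv_apply, ord_one]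
    rw [e0, add_zero, pt]
    split_ifs with h
    · obtain ⟨-, h1, h2⟩ := h.choose_spec
      rw [Finsupp.mapDomain_single, fix hs H hm hw fun _ => ?_]
      rw [h1, h2]
      exact ⟨hμ { s₀ with commutes' := hK }, ht { s₀ with commutes' := hK }⟩
    · exact Finsupp.mapDomain_zero
  · rintro D ⟨φ, h0, hD⟩ s s₀ hs hK hm hw
    have := hk.ac
    have hk' : ∀ a : k, s₀ (algebraMap k Om a) = algebraMap k Om a := fun a => by
      rw [IsScalarTower.algebraMap_apply k K Om, hK]
    have e : (D - dv Om φ).mapDomain (plEquiv s s₀ hs) = D - dv Om φ := by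
      rw [Finsupp.mapDomain_congr (g := id), Finsupp.mapDomain_id]
      intro P hP
      refine fix hs H hm hw fun h1 => ?_
      obtain h2 | ⟨a, ha⟩ := hD P (Finsupp.mem_support_iff.1 hP)
      · exact absurd h1 (not_le.2 h2)
      · obtain ⟨b, hb⟩ := IsAlgClosed.exists_pow_nat_eq (F.eval a) two_pos
        have e1 := (H.pt P h1).2
        rw [ha, eval_map, eval₂_at_apply, ← hb, map_pow] at e1
        refine ⟨by rw [ha, hk'], ?_⟩
        rcases sq_eq_sq_iff_eq_or_eq_neg.1 e1 with e2 | e2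
        · rw [e2, hk']
        · rw [e2, map_neg, hk']
    have h1 : s φ ≠ 0 := (map_ne_zero s).2 h0
    refine ⟨s φ * φ⁻¹, mul_ne_zero h1 (inv_ne_zero h0), ?_⟩
    rw [dv_mul h1 (inv_ne_zero h0), dv_inv, dv_plEquiv s s₀ hs]
    conv_lhs => rw [← sub_add_cancel D (dv Om φ), Finsupp.mapDomain_add, e]
    abel

end Vale.Agent.P027M.FA
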