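import Vale.Agent.P027M.FA.Spec

/-! # P027, route M, row FA.sym : the traces lie in `ℤ₃[i]` or in `w ℤ₃[i]` -/

set_option linter.all false

open Vale.Agent.P022 _root_.P027M.K

noncomputable section

namespace Vale.Agent.P027M.FA.Sym

open F

/-- the conjugation `w ↦ -w` -/
def kp : O3 →+* O3 := starRingEnd O3

theorem kp_re (z : O3) : (kp z).re = z.re := by simp [kp, starRingEnd_apply]

theorem kp_im (z : O3) : (kp z).im = -z.im := by simp [kp, starRingEnd_apply]

theorem neg_self {z : G9 ℤ_[3]} (h : -z = z) : z = 0 := by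
  ext
  · exact neg_eq_self.1 (congrArg QuadraticAlgebra.re h)
  · exact neg_eq_self.1 (congrArg QuadraticAlgebra.im h)

theorem kp_eq (z : O3) :
    kp z = z.re.re • 1 + z.re.im • iO - z.im.re • wO - z.im.im • (iO * wO) := by
  ext <;> simp [kp_re, kp_im, iO, wO, QuadraticAlgebra.re_one, QuadraticAlgebra.im_one]

theorem tr_sym (t : (Fin 2 → O3) →ₗ[ℤ_[3]] (Fin 2 → O3))
    (hi : ∀ v, t ((iO : O3) • v) = (iO : O3) • t v)
    (hw : ∀ v, t ((wO : O3) • v) = -((wO : O3) • t v)) (ht : ∀ v, t (t v) = v) (A : TW.M2 O3)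
    (ε : O3)
    (hA : ∀ v, t (A.mulVec v) = ε • A.mulVec (t v)) : kp A.trace = ε * A.trace := by
  have hz : ∀ (z : O3) v, t (z • v) = kp z • t v := by
    intro z v
    rw [kp_eq]
    conv_lhs => rw [QO.eq z]
    simp only [add_smul, sub_smul, smul_assoc, one_smul, map_add, map_smul, mul_smul, hi, hw,
      smul_neg]
    abel
  let B : TW.M2 O3 := Matrix.of fun a b => t (Pi.single b 1) a
  have hB : ∀ v, t v = B.mulVec (kp ∘ v) := by
    intro v
    have e : v = v 0 • Pi.single 0 1 + v 1 • Pi.single 1 1 := by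
      funext a; fin_cases a <;> simp
    conv_lhs => rw [e, map_add, hz, hz]
    funext a
    simp [B, Matrix.mulVec, dotProduct, mul_comm]
  have kk : ∀ v : Fin 2 → O3, kp ∘ kp ∘ v = v := fun v => by
    funext a; simp [kp]
  have km : ∀ (M : TW.M2 O3) v, kp ∘ M.mulVec v = (M.map kp).mulVec (kp ∘ v) := fun M v => by
    funext a; exact RingHom.map_mulVec kp M v a
  have h1 : B * B.map kp = 1 := Matrix.ext_iff_mulVec.2 fun v => by
    have := ht v
    rw [hB, hB, km, kk, Matrix.mulVec_mulVec] at this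
    rw [this, Matrix.one_mulVec]
  have h2 : B * A.map kp = ε • (A * B) := Matrix.ext_iff_mulVec.2 fun v => by
    have := hA (kp ∘ v)
    rwa [hB, hB, km, kk, Matrix.mulVec_mulVec, Matrix.mulVec_mulVec, ← Matrix.smul_mulVec] at this
  have h3 : B.map kp * B = 1 := mul_eq_one_comm.1 h1
  have h4 : A.map kp = ε • (B.map kp * (A * B)) := by
    rw [← Matrix.mul_smul, ← h2, ← mul_assoc, h3, one_mul]
  rw [AddMonoidHom.map_trace kp, h4, Matrix.trace_smul, Matrix.trace_mul_comm, mul_assoc, h1,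
    mul_one, smul_eq_mul]

theorem sym : SYM := by
  intro g X ρ emb hM σ sw hsw
  have hb := hM.bas
  have hex : ∀ v, ∃ u, emb u = X.P.aT (emb v) := fun v => by
    obtain ⟨u, hu⟩ := hb.tau v
    exact ⟨_, hu.symm⟩
  choose t0 ht0 using hex
  let t : (Fin 2 → O3) →ₗ[ℤ_[3]] (Fin 2 → O3) :=
    { toFun := t0
      map_add' := fun v v' => hb.inj (by rw [ht0, map_add, map_add, map_add, ht0, ht0])
      map_smul' := fun c v => hb.inj (by
        rw [ht0, map_smul, map_smul, RingHom.id_apply, map_smul, ht0]) }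
  have ht : ∀ v, emb (t v) = X.P.aT (emb v) := ht0
  have mul : ∀ (a b : SL Qb X.P.FF) x, act 3 Qb X.P.FF a (act 3 Qb X.P.FF b x) =
      act 3 Qb X.P.FF (a * b) x := fun a b x => by rw [map_mul]; rfl
  have cTI : ∀ x, X.P.aT (X.P.aI x) = X.P.aI (X.P.aT x) := fun x => by
    rw [Par.aT, Par.aI, mul, mul, show X.P.sT * X.P.sI = X.P.sI * X.P.sT from
      Subtype.ext X.P.iota_tau.symm]
  have cTR : ∀ x, X.P.aT (X.P.aR x) = X.P.aR (X.P.aR (X.P.aT x)) := fun x => by
    rw [Par.aT, Par.aR, mul, mul, mul, show X.P.sT * X.P.sR = X.P.sR * X.P.sR * X.P.sT from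
      Subtype.ext X.P.tau_rho]
  have cTT : ∀ x, X.P.aT (X.P.aT x) = x := fun x => by
    rw [Par.aT, mul, show X.P.sT * X.P.sT = 1 from Subtype.ext X.P.tau_sq, map_one]
    rfl
  have cR : ∀ v, X.P.aR (X.P.aR (X.P.aR (emb v))) = emb v := fun v => by
    have h := ((hb.rng _).1 ⟨v, rfl⟩).2
    have h' := congrArg X.P.aR h
    rw [map_add, map_add, map_zero] at h'
    rw [← sub_eq_zero, ← sub_self (0 : X.P.H)]
    conv_rhs => rw [← h']; arg 2; rw [h', ← h]
    abel
  have key := fun ε => tr_sym t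
    (fun v => hb.inj (by rw [ht, hb.mi, hb.mi, ht, cTI]))
    (fun v => hb.inj (by
      rw [ht, hb.mw, map_neg, hb.mw, cTI, map_sub, cTR, cTR, cTR, ← ht, cR, ← map_neg, neg_sub]))
    (fun v => hb.inj (by rw [ht, ht, cTT])) (ρ σ) ε
  cases sw
  · have h0 : σ (X.i : Qb) = X.i := by
      by_contra h; exact Bool.false_ne_true (hsw.2 h)
    have h1 := key 1 fun v => hb.inj (by
      rw [one_smul, ht, hM.act, hM.act, ht, Par.aT, mul, mul,
        show X.P.sT * X.R σ = X.R σ * X.P.sT from Subtype.ext (Tw.rr_tau_fx (X.fx h0)).symm])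
    have h2 := congrArg QuadraticAlgebra.im h1
    rw [one_mul, kp_im] at h2
    replace h2 := neg_self h2
    refine ⟨((ρ σ).trace.re.re, (ρ σ).trace.re.im), ?_⟩
    conv_lhs => rw [QO.eq (ρ σ).trace]
    simp [cw, co, h2, Algebra.smul_def]
  · have h1 := key (-1) fun v => hb.inj (by
      rw [neg_one_smul, map_neg, ht, hM.act, hM.act, ht, Par.aT, mul,
        show X.P.sT * X.R σ = X.R σ * X.P.sT * (X.P.sI * X.P.sI) from
          Subtype.ext (Tw.rr_tau_sw (X.sw (hsw.1 rfl))), ← mul, ← mul, ← mul, ← map_neg, ← map_neg]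
      exact congrArg _ (congrArg _ ((hb.rng _).1 ⟨v, rfl⟩).1))
    have h2 := congrArg QuadraticAlgebra.re h1
    rw [neg_one_mul, kp_re, QuadraticAlgebra.re_neg] at h2
    replace h2 := neg_self h2.symm
    refine ⟨((ρ σ).trace.im.re, (ρ σ).trace.im.im), ?_⟩
    conv_lhs => rw [QO.eq (ρ σ).trace]
    simp [cw, co, h2, Algebra.smul_def]
    ring

end Vale.Agent.P027M.FA.Sym
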