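import Vale.Agent.P027M.FA.CartDef

/-! # P027, route M, block FAITH : the integral model exists (row FA.ZEX) -/

set_option linter.all false

open Polynomial NumberField Vale.Agent.P022

noncomputable section

namespace Vale.Agent.P027M.FA

open B F

namespace Zex

/-- the quotients of the values of `φ` by natural numbers -/
def sub (φ : GaussianInt →+* Qb) : Subfield Qb where
  carrier := {z | ∃ n : ℕ, n ≠ 0 ∧ ∃ u, φ u = n * z}
  one_mem' := ⟨1, one_ne_zero, 1, by simp⟩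
  zero_mem' := ⟨1, one_ne_zero, 0, by simp⟩
  mul_mem' := by
    rintro a b ⟨n, hn, u, hu⟩ ⟨m, hm, v, hv⟩
    exact ⟨n * m, mul_ne_zero hn hm, u * v, by rw [map_mul, hu, hv]; push_cast; ring⟩
  add_mem' := by
    rintro a b ⟨n, hn, u, hu⟩ ⟨m, hm, v, hv⟩
    exact ⟨n * m, mul_ne_zero hn hm, m * u + n * v, by
      rw [map_add, map_mul, map_mul, map_natCast, map_natCast, hu, hv]; push_cast; ring⟩
  neg_mem' := by
    rintro a ⟨n, hn, u, hu⟩
    exact ⟨n, hn, -u, by rw [map_neg, hu]; ring⟩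
  inv_mem' := by
    rintro a ⟨n, hn, u, hu⟩
    by_cases ha : a = 0
    · exact ⟨1, one_ne_zero, 0, by simp [ha]⟩
    have u0 : u ≠ 0 := by
      rintro rfl
      rw [map_zero] at hu
      exact mul_ne_zero (Nat.cast_ne_zero.2 hn) ha hu.symm
    refine ⟨u.norm.natAbs, fun e => u0 (GaussianInt.norm_eq_zero.1 (Int.natAbs_eq_zero.1 e)),
      n * star u, ?_⟩
    have e : ((u.norm.natAbs : ℕ) : Qb) = φ u * φ (star u) := by
      rw [← map_mul, ← Zsqrtd.norm_eq_mul_conj, map_intCast, ← Int.cast_natCast,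
        Int.natAbs_of_nonneg (GaussianInt.norm_nonneg u)]
    rw [e, hu, map_mul, map_natCast]
    field_simp

theorem fixed (φ : GaussianInt →+* Qb) {z : Qb} (h : ∀ σ : GQ, σ z = z) : z ∈ sub φ := by
  haveI : IsAlgClosure ℚ Qb := AlgebraicClosure.instIsAlgClosure ℚ
  haveI : IsGalois ℚ Qb := IsAlgClosure.isGalois ℚ Qb
  obtain ⟨q, rfl⟩ := (InfiniteGalois.mem_range_algebraMap_iff_fixed (k := ℚ) z).2 h
  exact SubfieldClass.ratCast_mem (sub φ) q

end Zex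

open Zex

/-- [FA.zex] -/
theorem zex : ZEX := by
  intro g X
  have hi : (X.i : Qb) * X.i = ((-1 : ℤ) : Qb) := by
    have := X.P.hi
    rw [X.P_i] at this
    push_cast
    linear_combination this
  obtain ⟨φ, hφ⟩ : ∃ φ : GaussianInt →+* Qb, ∀ z, gi (X.i : Qb) z = φ z :=
    ⟨Zsqrtd.lift ⟨(X.i : Qb), hi⟩, fun z => rfl⟩
  have nat : ∀ n : ℕ, (n : Qb) ∈ sub φ := fun n => natCast_mem _ n
  have m1 := nat 1
  have m2 := nat 2
  have m3 := nat 3
  have m4 := nat 4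
  push_cast at m1 m2 m3 m4
  have mg : X.P.g ∈ sub φ := by rw [X.P_g]; exact SubfieldClass.ratCast_mem _ g
  have mν : X.T.ν ∈ sub φ := fixed φ fun σ => by rw [← X.hs]; exact (X.s σ).2.2.1
  have mx : X.T.x ∈ sub φ := fixed φ fun σ => by rw [← X.hs]; exact (X.s σ).2.2.2.1
  have mp := add_mem mg m1
  have mc : X.P.c ∈ sub φ := div_mem (mul_mem mg (sub_mem m3 mg)) mp
  have md : X.P.d2 ∈ sub φ := div_mem (mul_mem m4 mg) (pow_mem mp 2)
  have mb : X.P.b2 ∈ sub φ := div_mem (mul_mem m4 (pow_mem mg 3)) (pow_mem mp 2)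
  have mD : X.P.D ∈ sub φ := ⟨1, one_ne_zero, _, by rw [X.P_D, hφ, Nat.cast_one, one_mul]⟩
  have m0 : X.P.g0 ∈ sub φ := by
    have : X.P.g0 = X.P.D / X.P.b2 := by
      rw [eq_div_iff X.P.b2_ne, Par.D, mul_comm]
    rw [this]; exact div_mem mD mb
  have m0' : X.T.g0' ∈ sub φ := by
    have : X.T.g0' = X.T.ν ^ 2 / (X.P.c * X.P.g0) := by
      rw [eq_div_iff (mul_ne_zero X.P.c_ne X.P.hg0), X.T.hν, mul_comm]
    rw [this]; exact div_mem (pow_mem mν 2) (mul_mem mc m0)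
  have ml : lam X.P X.T X.P.g0 X.T.g0' ∈ sub φ :=
    neg_mem (div_mem (mul_mem (mul_mem (mul_mem m2 mν) (pow_mem mg 2)) m0')
      (mul_mem (mul_mem (mul_mem m3 mp) mx) m0))
  have me : ee X.P X.P.g0 ∈ sub φ := mul_mem (div_mem (sub_mem m3 mg) mp) m0
  obtain ⟨n1, h1, u1, e1⟩ := m0
  obtain ⟨n2, h2, u2, e2⟩ := mul_mem mc ⟨n1, h1, u1, e1⟩
  obtain ⟨n3, h3, u3, e3⟩ := mul_mem md ⟨n1, h1, u1, e1⟩
  obtain ⟨s1, k1, v1, f1⟩ := ml
  obtain ⟨s2, k2, v2, f2⟩ := me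
  refine ⟨⟨C ((n1 * n2 * n3 : ℕ) : GaussianInt) * (Polynomial.X *
    (C (n1 : GaussianInt) * Polynomial.X ^ 2 - C u1) *
    (C (n2 : GaussianInt) * Polynomial.X ^ 2 - C u2) *
    (C (n3 : GaussianInt) * Polynomial.X ^ 2 - C u3)), n1 * n2 * n3, s1 * s2, v1 * s2, v2 * v1,
    mul_ne_zero (mul_ne_zero h1 h2) h3, mul_ne_zero k1 k2, fun j => ?_, ?_, ?_⟩⟩
  · rw [hφ, ← coeff_map, ← coeff_C_mul]
    congr 1
    simp only [Polynomial.map_mul, Polynomial.map_sub, Polynomial.map_pow, map_C, map_X,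
      map_natCast, e1, e2, e3, Par.fP, Nat.cast_mul, C_mul, C_pow, Polynomial.map_natCast]
    ring
  · rw [hφ, map_mul, map_natCast, f1]; push_cast; ring
  · rw [hφ, hφ, map_mul, map_mul, map_natCast, f1, f2]; ring

end Vale.Agent.P027M.FA
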