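import Vale.Agent.P027M.FA.All0
import Vale.Agent.P027M.FA.Corep
import Vale.Agent.P027M.FA.Pti
import Vale.Agent.P027M.FA.Kum
import Vale.Agent.P027M.FA.Exh
import Vale.Agent.P027M.FA.Mum
import Vale.Agent.P027M.FA.Ind
import Vale.Agent.P027M.FA.Hypc
import Vale.Agent.P027M.FA.Intg
import Vale.Agent.P027M.FA.Sym
import Vale.Agent.P027M.FA.Ch
import Vale.Agent.P027M.FA.Tr
import Vale.Agent.P027M.FA.Unit
import Vale.Agent.P027M.FA.Out
import Vale.Agent.P027M.FA.Cart
import Vale.Agent.P027M.FA.Ck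
import Vale.Agent.P027M.FA.Zex
import Vale.Agent.P027M.B.Pts

/-! # P027, route M, block FAITH : assembly -/

namespace Vale.Agent.P027M.FA

theorem out1 (h1 : BE) (h2 : DIFF) : OUT :=
  out (corep h1 (pti B.pts) kum kum2 h2 exh mum ind hypc) intg Sym.sym ch tr

theorem ck10 : CK1 := ck1 ind

theorem ck30 : CK3 := ck3 ind

theorem cart0 : CART := cart ck10 ck30

theorem faith1 (h1 : BE) (h2 : DIFF) : FAITH := faith (out1 h1 h2) tr unit cart0

end Vale.Agent.P027M.FA
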