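import Vale.Agent.P027M.K.Fun
import Vale.Agent.P025.R2.H816.BC3

/-!
# P027, route M, block FAITH: an `n`-th part of a divisor class is Galois invariant (helper53)
-/

set_option linter.unusedSectionVars false

namespace Vale.Agent.P027M.FA

open Vale.Agent.P019P P025H492 P025H816 _root_.P027M.K

universe u

section one

variable {k F : Type u} [Field k] [Field F] [Algebra k F] [CFF k F]

theorem dv_npow (z : F) (n : ℕ) : dv k (z ^ n) = n • dv k z := by
  ext P
  rw [Finsupp.smul_apply, dv_apply, dv_apply, ord_pow, nsmul_eq_mul]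

/-- the value of a function on a divisor, additively -/
noncomputable def ev (x : Fˣ) : (Plk k F →₀ ℤ) →+ Additive kˣ :=
  Finsupp.liftAddHom fun P => zmultiplesHom _ (lc P x)

theorem ev_single (x : Fˣ) (P : Plk k F) (m : ℤ) : ev x (Finsupp.single P m) = m • lc P x := by
  simp [ev]

theorem ev_eq_sum (x : Fˣ) {E : Plk k F →₀ ℤ} {S : Finset (Plk k F)} (h : E.support ⊆ S) :
    ev x E = ∑ P ∈ S, E P • lc P x := by
  rw [ev, Finsupp.liftAddHom_apply, Finsupp.sum_of_support_subset E h _ (by simp)]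
  rfl

theorem ev_mul (x y : Fˣ) (E : Plk k F →₀ ℤ) : ev (x * y) E = ev x E + ev y E := by
  simp only [ev_eq_sum _ (subset_refl E.support), lc_mul, zsmul_add, Finset.sum_add_distrib]

theorem ev_div (x y : Fˣ) (E : Plk k F →₀ ℤ) : ev (x / y) E = ev x E - ev y E := by
  simp only [ev_eq_sum _ (subset_refl E.support), lc_div, zsmul_sub, Finset.sum_sub_distrib]

theorem ev_val {x : Fˣ} {E : Plk k F →₀ ℤ} (h : ∀ P ∈ E.support, ord P (x : F) = 0) :
    (((ev x E).toMul : kˣ) : k) = E.prod fun P m => vl P (x : F) ^ m := by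
  rw [ev_eq_sum x (subset_refl _), toMul_sum, Units.coe_prod]
  refine Finset.prod_congr rfl fun P hP => ?_
  simp [vl_eq (lc_val (h P hP))]

/-- the symbol for disjoint supports -/
theorem e_ev {n : ℕ} (hn : n ≠ 0) {f g : Fˣ} {A B : Plk k F →₀ ℤ}
    (hA : n • A = dv k (f : F)) (hB : n • B = dv k (g : F)) (h : ∀ P, A P = 0 ∨ B P = 0) :
    e k n f g = ev f B - ev g A := by
  classical
  have ha : ∀ P, ord P (f : F) = n * A P := fun P => by
    rw [← dv_apply, ← hA, Finsupp.smul_apply, nsmul_eq_mul]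
  have hb : ∀ P, ord P (g : F) = n * B P := fun P => by
    rw [← dv_apply, ← hB, Finsupp.smul_apply, nsmul_eq_mul]
  rw [e_eq_sum n (S := A.support ∪ B.support) fun P hP => by
      rw [Finset.mem_union, not_or, Finsupp.notMem_support_iff, Finsupp.notMem_support_iff] at hP
      rw [ha, hb, hP.1, hP.2]; simp,
    ev_eq_sum f Finset.subset_union_right, ev_eq_sum g Finset.subset_union_left,
    ← Finset.sum_sub_distrib]
  refine Finset.sum_congr rfl fun P _ => ?_
  rw [w_eq hn (ha P) (hb P)]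
  rcases h P with h1 | h1 <;> simp [h1]

theorem ev_semi {s : F ≃+* F} {s₀ : k ≃+* k}
    (hs : ∀ a, s (algebraMap k F a) = algebraMap k F (s₀ a)) {x : Fˣ} {E : Plk k F →₀ ℤ}
    (h : ∀ P ∈ E.support, ord P (x : F) = 0) :
    ev (mU s x) (E.mapDomain (plEquiv s s₀ hs)) = aU s₀ (ev x E) := by
  rw [ev_eq_sum x (subset_refl _), map_sum, Finsupp.mapDomain, Finsupp.sum, map_sum]
  refine Finset.sum_congr rfl fun P hP => ?_
  rw [ev_single, lc_semi hs (h P hP), map_zsmul]

/-- the core: `g` is fixed by `s` and a unit on the supports -/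
theorem e_fix {n : ℕ} (hn : n ≠ 0) {s : F ≃+* F} {s₀ : k ≃+* k}
    (hs : ∀ a, s (algebraMap k F a) = algebraMap k F (s₀ a))
    (hμ : ∀ c : Additive kˣ, n • c = 0 → aU s₀ c = c) {D ψ : Plk k F →₀ ℤ} {φ g : Fˣ}
    (h : dv k (φ : F) = D - n • ψ) (hD : D.mapDomain (plEquiv s s₀ hs) = D)
    (hg : g ∈ divU k F n) (sg : mU s g = g) (u1 : ∀ P ∈ D.support, ord P (g : F) = 0)
    (u2 : ∀ P ∈ ψ.support, ord P (g : F) = 0) {z : Additive kˣ} (hz : aU s₀ z = z)
    (hv : ev g D = n • z) : e k n (mU s φ / φ) g = 0 := by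
  obtain ⟨B, hB⟩ := exists_halfdiv hg
  have n0 : (n : ℤ) ≠ 0 := by exact_mod_cast hn
  have b0 : ∀ P, ord P (g : F) = 0 → B P = 0 := fun P e => by
    have := DFunLike.congr_fun hB P
    rw [dv_apply, e, Finsupp.smul_apply, nsmul_eq_mul] at this
    exact (mul_eq_zero.1 this).resolve_left n0
  have sB : B.mapDomain (plEquiv s s₀ hs) = B := by
    refine smul_inj' hn ?_
    rw [← Finsupp.mapDomain_smul, hB, ← dv_plEquiv, ← mU_val, sg]
  have bD : ∀ P, D P = 0 ∨ B P = 0 := fun P => by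
    by_cases c : P ∈ D.support
    · exact Or.inr (b0 P (u1 P c))
    · exact Or.inl (Finsupp.notMem_support_iff.1 c)
  have bψ : ∀ P, ψ P = 0 ∨ B P = 0 := fun P => by
    by_cases c : P ∈ ψ.support
    · exact Or.inr (b0 P (u2 P c))
    · exact Or.inl (Finsupp.notMem_support_iff.1 c)
  have bψ' : ∀ P, ψ.mapDomain (plEquiv s s₀ hs) P = 0 ∨ B P = 0 := fun Q => by
    obtain ⟨P, rfl⟩ := (plEquiv s s₀ hs).surjective Q
    rw [← sB, Finsupp.mapDomain_apply (plEquiv s s₀ hs).injective,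
      Finsupp.mapDomain_apply (plEquiv s s₀ hs).injective]
    exact bψ P
  have w1 := e_ev (k := k) one_ne_zero (f := φ) (g := g) (A := D - n • ψ) (B := n • B)
    (by rw [one_smul, h]) (by rw [one_smul, hB]) fun P => by
      rcases bD P with c | c
      · rcases bψ P with d | d
        · exact Or.inl (by simp [c, d])
        · exact Or.inr (by simp [d])
      · exact Or.inr (by simp [c])
  rw [weil, map_sub, map_nsmul, map_nsmul, hv] at w1
  have w2 := hμ (ev φ B + ev g ψ - z) (by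
    rw [nsmul_sub, nsmul_add, ← sub_eq_zero.2 w1.symm]
    abel)
  have w3 := ev_semi hs (x := φ) (E := B) fun P hP => by
    have c := Finsupp.mem_support_iff.1 hP
    rw [← dv_apply, h]
    simp [(bD P).resolve_right c, (bψ P).resolve_right c]
  have w4 := ev_semi hs u2
  rw [sB] at w3
  rw [sg] at w4
  rw [map_sub, map_add, hz, ← w3, ← w4, sub_left_inj] at w2
  rw [e_ev hn (A := ψ - ψ.mapDomain (plEquiv s s₀ hs)) ?_ hB fun P => ?_, ev_div, map_sub]
  · rw [← sub_eq_zero.2 w2]
    abel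
  · rw [Units.val_div_eq_div_val, div_eq_mul_inv, dv_mul (mU s φ).ne_zero (inv_ne_zero φ.ne_zero),
      dv_inv, mU_val, dv_plEquiv s s₀ hs, h, Finsupp.mapDomain_sub, hD, Finsupp.mapDomain_smul,
      nsmul_sub]
    abel
  · rcases bψ P with c | c
    · rcases bψ' P with d | d
      · exact Or.inl (by simp [c, d])
      · exact Or.inr d
    · exact Or.inr c

end one

variable {k F Om L : Type u} [Field k] [Field F] [Algebra k F] [CFF k F]
  [Field Om] [Field L] [Algebra Om L] [CFF Om L] {i : k →+* Om} {j : F →+* L}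

/-- every class of the upper field comes from the lower field -/
theorem bc_onto (bc : IsBC i j) (hg : gen Om L = gen k F) {n : ℕ} (hn : (n : k) ≠ 0) {g : Lˣ}
    (hd : g ∈ divU Om L n) :
    ∃ f ∈ divU k F n, ∃ y : Lˣ, g = Units.map (j : F →* L) f * y ^ n := by
  have n0 : n ≠ 0 := by
    rintro rfl
    simp at hn
  have hn' : (n : Om) ≠ 0 := by
    rw [← map_natCast i n]
    exact (_root_.map_ne_zero _).2 hn
  have hc := card_HK (k := k) (F := F) hn
  have hc' := card_HK (k := Om) (F := L) hn'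
  rw [hg] at hc'
  have hfin : Finite (HK Om L n) := Nat.finite_of_card_ne_zero (by rw [hc']; positivity)
  have hfin' : Finite (HK k F n) := Nat.finite_of_card_ne_zero (by rw [hc]; positivity)
  have bj : Function.Bijective (hkMap bc.comm n) :=
    (Nat.bijective_iff_injective_and_card _).2 ⟨hkMap_injective bc n0, by rw [hc, hc']⟩
  obtain ⟨x, hx⟩ := bj.2 (QuotientGroup.mk ⟨g, hd⟩)
  obtain ⟨f, rfl⟩ := QuotientGroup.mk_surjective x
  have h1 : (QuotientGroup.mk (((((Units.map (j : F →* L)).comp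
      (divU k F n).subtype).codRestrict (divU Om L n) (units_map_mem bc.comm n))) f) :
        HK Om L n) = QuotientGroup.mk ⟨g, hd⟩ := hx
  rw [QuotientGroup.eq, Subgroup.mem_subgroupOf] at h1
  obtain ⟨y, hy⟩ := h1
  exact ⟨f, f.2, y, (mul_inv_cancel_left _ g).symm.trans (congrArg _ hy.symm)⟩

/-- moving a class of the lower field off a finite set of places -/
theorem bc_move (hc : ∀ a, j (algebraMap k F a) = algebraMap Om L (i a)) {n : ℕ} {f : Fˣ}
    (hf : f ∈ divU k F n) (S : Finset (Plk Om L)) :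
    ∃ y : Fˣ, ∀ P ∈ S, ord P (j ((f * y ^ n : Fˣ) : F)) = 0 := by
  classical
  have r : ∀ P' : Plk Om L, ∃ T : Finset (Plk k F), ∀ z : F, (∀ P ∈ T, ord P z = 0) →
      ord P' (j z) = 0 := fun P' => by
    rcases restr hc P' with c | ⟨P, e, -, -, c⟩
    · exact ⟨∅, fun z _ => c z⟩
    · exact ⟨{P}, fun z hz => by rw [c, hz P (Finset.mem_singleton_self P), mul_zero]⟩
  choose T hT using r
  obtain ⟨y, y0, hy⟩ := exists_ord_eq (S.biUnion T) fun P => -(ord P (f : F) / n)
  refine ⟨Units.mk0 y y0, fun P' hP' => hT P' _ fun P hP => ?_⟩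
  rw [ou_mul, ou_pow, Units.val_mk0, hy P (Finset.mem_biUnion.2 ⟨P', hP', hP⟩), mul_neg,
    Int.mul_ediv_cancel' (hf P), add_neg_cancel]

/-- **KUM**: if all Kummer classes of the lower field have an invariant `n`-th root of their value
on the invariant divisor `D`, the class `ψ` with `n ψ ~ D` is invariant. -/
theorem kum0 (bc : IsBC i j) (hg : gen Om L = gen k F) {n : ℕ} (hn : (n : k) ≠ 0)
    {s : L ≃+* L} {s₀ : Om ≃+* Om} (hs : ∀ a, s (algebraMap Om L a) = algebraMap Om L (s₀ a))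
    (hj : ∀ z, s (j z) = j z) {D ψ : Plk Om L →₀ ℤ} {φ : L} (φ0 : φ ≠ 0)
    (h : dv Om φ = D - n • ψ) (hD : D.mapDomain (plEquiv s s₀ hs) = D)
    (hv : ∀ f ∈ divU k F n, (∀ P ∈ D.support, ord P (j (f : F)) = 0) →
      ∃ z : Om, s₀ z = z ∧ (D.prod fun P m => vl P (j (f : F)) ^ m) = z ^ n) :
    ∃ χ : L, χ ≠ 0 ∧ ψ.mapDomain (plEquiv s s₀ hs) - ψ = dv Om χ := by
  classical
  have n0 : n ≠ 0 := by
    rintro rfl
    simp at hn
  have hn' : (n : Om) ≠ 0 := by
    rw [← map_natCast i n]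
    exact (_root_.map_ne_zero _).2 hn
  have hμ : ∀ c : Additive Omˣ, n • c = 0 → aU s₀ c = c := fun c hc => by
    have c1 : (algebraMap Om L (c.toMul : Omˣ)) ^ n = j 1 := by
      rw [← map_pow, ← Units.val_pow_eq_pow_val, ← toMul_nsmul, hc]
      simp
    obtain ⟨z, hz⟩ := bc.mem_range_of_pow n0 c1
    refine Additive.toMul.injective (Units.ext ((algebraMap Om L).injective ?_))
    rw [← hz, ← hj z, hz, hs]
    rfl
  have hA : n • (ψ - ψ.mapDomain (plEquiv s s₀ hs)) =
      dv Om ((mU s (Units.mk0 φ φ0) / Units.mk0 φ φ0 : Lˣ) : L) := by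
    rw [Units.val_div_eq_div_val, div_eq_mul_inv,
      dv_mul (Units.ne_zero _) (inv_ne_zero (Units.ne_zero _)), dv_inv, mU_val, dv_plEquiv s s₀ hs, Units.val_mk0, h, Finsupp.mapDomain_sub, hD,
      Finsupp.mapDomain_smul, nsmul_sub]
    abel
  have hf : mU s (Units.mk0 φ φ0) / Units.mk0 φ φ0 ∈ divU Om L n := fun P => by
    rw [← dv_apply, ← hA, Finsupp.smul_apply, nsmul_eq_mul]
    exact Dvd.intro _ rfl
  obtain ⟨χ, hχ⟩ := mem_powU.1 (nondeg hn' hf fun g hg' => by
    obtain ⟨f, hf', y, rfl⟩ := bc_onto bc hg hn hg'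
    obtain ⟨u, hu⟩ := bc_move bc.comm hf' (D.support ∪ ψ.support)
    have m1 : f * u ^ n ∈ divU k F n := mul_mem hf' (powU_le n ⟨u, rfl⟩)
    have m2 : Units.map (j : F →* L) (f * u ^ n) ∈ divU Om L n := units_map_mem bc.comm n ⟨_, m1⟩
    have m3 : (y / Units.map (j : F →* L) u) ^ n ∈ divU Om L n := powU_le n ⟨_, rfl⟩
    obtain ⟨z, z1, z2⟩ := hv _ m1 fun P hP => hu P (Finset.mem_union_left _ hP)
    have v := ev_val (x := Units.map (j : F →* L) (f * u ^ n)) (E := D)
      fun P hP => hu P (Finset.mem_union_left _ hP)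
    have z0 : z ≠ 0 := by
      rintro rfl
      rw [zero_pow n0] at z2
      exact Units.ne_zero _ (v.trans z2)
    have e1 : Units.map (j : F →* L) f * y ^ n =
        Units.map (j : F →* L) (f * u ^ n) * (y / Units.map (j : F →* L) u) ^ n := by
      rw [map_mul, map_pow, div_pow, mul_assoc, mul_div_cancel]
    rw [e1, e_mul_right n0 _ m2 m3, e_pow_eq_zero n0 hf, add_zero]
    exact e_fix n0 hs hμ h hD m2 (Units.ext (hj _))
      (fun P hP => hu P (Finset.mem_union_left _ hP))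
      (fun P hP => hu P (Finset.mem_union_right _ hP)) (z := Additive.ofMul (Units.mk0 z z0))
      (Additive.toMul.injective (Units.ext z1))
      (Additive.toMul.injective (Units.ext (v.trans z2))))
  refine ⟨(χ⁻¹ : Lˣ), Units.ne_zero _, smul_inj' n0 ?_⟩
  rw [← neg_sub, smul_neg, hA, ← hχ, Units.val_inv_eq_inv_val, dv_inv, smul_neg,
    Units.val_pow_eq_pow_val, dv_npow]

end Vale.Agent.P027M.FA
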