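import Vale.Agent.P027M.FA.Defs
import Vale.Agent.P027M.FA.Kum0
import Vale.Agent.P027M.B.Pts

/-! # P027, route M, block FAITH : maps between hyperelliptic function fields (helper53) -/

set_option linter.all false

open Polynomial Vale.Agent.P019P P025H492 P025H816

noncomputable section

namespace Vale.Agent.P027M.FA.Kum

open B B.PtsAux _root_.P027M.K

section alg

variable {k L E : Type*} [Field k] [Field L] [Algebra k L] [Field E] {F : k[X]} {m w : L}

/-- a generic point gives a homomorphism -/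
theorem ex_hom (h : Hyp F m w) (i : k →+* E) {μ s : E} (hμ : ∀ c : k[X], c ≠ 0 → c.eval₂ i μ ≠ 0)
    (hs : s ^ 2 = F.eval₂ i μ) :
    ∃ j : L →+* E, (∀ a, j (algebraMap k L a) = i a) ∧ j m = μ ∧ j w = s := by
  obtain ⟨v, hv⟩ : ∃ v : k[X] →+* E, v = eval₂RingHom i μ := ⟨_, rfl⟩
  have v0 : ∀ c, c ≠ 0 → v c ≠ 0 := hv ▸ hμ
  have vs : s ^ 2 = v F := hv ▸ hs
  have ex : ∀ z : L, ∃ z' : E, ∀ a b c : k[X],
      aeval m c * z = aeval m a + aeval m b * w → v c * z' = v a + v b * s := fun z => by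
    obtain ⟨a₀, b₀, c₀, h0, e0⟩ := h.top z
    refine ⟨(v a₀ + v b₀ * s) / v c₀, fun a b c e => ?_⟩
    obtain ⟨h1, h2⟩ := indep h (c₀ * a - c * a₀) (c₀ * b - c * b₀) (by
      simp only [map_sub, map_mul]
      linear_combination aeval m c * e0 - aeval m c₀ * e)
    have h3 := congrArg v h1
    have h4 := congrArg v h2
    simp only [map_sub, map_mul, map_zero] at h3 h4
    have := v0 _ h0
    field_simp
    linear_combination -s * h4 - h3
  choose f hf using ex
  have hc : ∀ r : k, f (algebraMap k L r) = i r := fun r => by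
    simpa [hv] using hf (algebraMap k L r) (C r) 0 1 (by simp)
  have hadd : ∀ x y, f (x + y) = f x + f y := by
    intro x y
    obtain ⟨a, b, c, h0, e⟩ := h.top x
    obtain ⟨a', b', c', h0', e'⟩ := h.top y
    have h1 := hf (x + y) (c' * a + c * a') (c' * b + c * b') (c * c') (by
      simp only [map_add, map_mul]
      linear_combination aeval m c' * e + aeval m c * e')
    refine mul_left_cancel₀ (v0 _ (mul_ne_zero h0 h0')) ?_
    simp only [map_add, map_mul] at h1 ⊢
    linear_combination h1 - v c' * hf x a b c e - v c * hf y a' b' c' e'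
  have hmul : ∀ x y, f (x * y) = f x * f y := by
    intro x y
    obtain ⟨a, b, c, h0, e⟩ := h.top x
    obtain ⟨a', b', c', h0', e'⟩ := h.top y
    have h1 := hf (x * y) (a * a' + b * b' * F) (a * b' + a' * b) (c * c') (by
      simp only [map_add, map_mul, ← h.sq]
      linear_combination (aeval m c' * y) * e + (aeval m a + aeval m b * w) * e')
    refine mul_left_cancel₀ (v0 _ (mul_ne_zero h0 h0')) ?_
    simp only [map_add, map_mul, ← vs] at h1 ⊢
    linear_combination h1 - (v c' * f y) * hf x a b c e - (v a + v b * s) * hf y a' b' c' e'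
  refine ⟨{ toFun := f
            map_one' := by simpa using hc 1
            map_mul' := hmul
            map_zero' := by simpa using hc 0
            map_add' := hadd }, hc, ?_, ?_⟩
  · show f m = μ
    simpa [hv] using hf m X 0 1 (by simp)
  · show f w = s
    simpa using hf w 0 1 1 (by simp)

theorem hom_aeval (j : L →+* E) (m : L) (c : k[X]) :
    j (aeval m c) = c.eval₂ (j.comp (algebraMap k L)) (j m) := by
  rw [aeval_def, hom_eval₂]

theorem hom_ext (h : Hyp F m w) {j j' : L →+* E}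
    (e0 : ∀ a, j (algebraMap k L a) = j' (algebraMap k L a)) (e1 : j m = j' m) (e2 : j w = j' w) :
    j = j' := by
  ext z
  obtain ⟨a, b, c, h0, e⟩ := h.top z
  have e3 : ∀ c : k[X], j (aeval m c) = j' (aeval m c) := fun c => by
    rw [hom_aeval, hom_aeval, e1, show j.comp (algebraMap k L) = j'.comp (algebraMap k L) from
      RingHom.ext e0]
  have h1 := congrArg j e
  have h2 := congrArg j' e
  simp only [map_add, map_mul, e3, e2] at h1 h2
  exact mul_left_cancel₀ ((map_ne_zero j').2 (ne0 h h0)) (h1.trans h2.symm)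

/-- an automorphism of the constants which fixes the curve extends to the function field -/
theorem ex_aut (h : Hyp F m w) (s₀ : k ≃+* k) (hF : F.map (s₀ : k →+* k) = F) :
    ∃ s : L ≃+* L, (∀ a, s (algebraMap k L a) = algebraMap k L (s₀ a)) ∧ s m = m ∧ s w = w := by
  have ex : ∀ t : k ≃+* k, F.map (t : k →+* k) = F → ∃ j : L →+* L,
      (∀ a, j (algebraMap k L a) = algebraMap k L (t a)) ∧ j m = m ∧ j w = w := fun t ht =>
    ex_hom h ((algebraMap k L).comp (t : k →+* k)) (fun c hc => by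
      rw [← eval₂_map, ← aeval_def]
      exact ne0 h ((Polynomial.map_ne_zero_iff t.injective).2 hc))
      (by rw [← eval₂_map, ht, ← aeval_def, h.sq])
  obtain ⟨j, a0, a1, a2⟩ := ex s₀ hF
  obtain ⟨j', b0, b1, b2⟩ := ex s₀.symm (by
    conv_lhs => rw [← hF]
    rw [Polynomial.map_map, RingEquiv.symm_comp, Polynomial.map_id])
  exact ⟨RingEquiv.ofRingHom j j' (hom_ext h (fun a => by simp [a0, b0]) (by simp [a1, b1])
    (by simp [a2, b2])) (hom_ext h (fun a => by simp [a0, b0]) (by simp [a1, b1])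
    (by simp [a2, b2])), a0, a1, a2⟩

end alg

section one

variable {Om L : Type} [Field Om] [Field L] [Algebra Om L] [CFF Om L] {G : Om[X]} {m w : L}

theorem val_inv {P : Plk Om L} {u : L} {c : Om} (h : Val P u c) (hc : c ≠ 0) :
    Val P u⁻¹ c⁻¹ := by
  have h1 := val_vl (P := P) (z := u⁻¹) (by rw [ord_inv, (h.unit hc).2, neg_zero])
  have h2 := h.mul h1
  rw [mul_inv_cancel₀ (h.unit hc).1] at h2
  rwa [← eq_inv_of_mul_eq_one_right (h2.unique (Val.one P))]

theorem pt_eq (H : Hyp G m w) {μ t : Om} (e : t ^ 2 = G.eval μ) :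
    ∃ P : Plk Om L, FA.pt m w μ t = Finsupp.single P 1 ∧ 0 ≤ ord P m ∧ vl P m = μ ∧ vl P w = t :=
  ⟨_, dif_pos (surj H μ t e), (surj H μ t e).choose_spec⟩

/-- places with fixed coordinates are fixed -/
theorem pl_fix (H : Hyp G m w) {s : L ≃+* L} {s₀ : Om ≃+* Om}
    (hs : ∀ a, s (algebraMap Om L a) = algebraMap Om L (s₀ a)) (e1 : s m = m) (e2 : s w = w)
    {P : Plk Om L} (h : 0 ≤ ord P m → s₀ (vl P m) = vl P m ∧ s₀ (vl P w) = vl P w) :
    plEquiv s s₀ hs P = P := by
  have o := ord_plEquiv s s₀ hs P m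
  rw [e1] at o
  rcases le_or_gt 0 (ord P m) with c | c
  · have a1 := (val_vl c).semi hs
    have a2 := (val_vl (PtsAux.pt H P c).1).semi hs
    rw [e1, (h c).1] at a1
    rw [e2, (h c).2] at a2
    exact injP H _ _ (o ▸ c) c (vl_eq a1) (vl_eq a2)
  · obtain ⟨Q, -, -, q⟩ := inf H
    rw [q _ c] at o ⊢
    exact q _ (by rw [o, ← q _ c]; exact c)

theorem map_fix {s : L ≃+* L} {s₀ : Om ≃+* Om}
    {hs : ∀ a, s (algebraMap Om L a) = algebraMap Om L (s₀ a)} {E : Plk Om L →₀ ℤ}
    (h : ∀ P, E P ≠ 0 → plEquiv s s₀ hs P = P) : E.mapDomain (plEquiv s s₀ hs) = E :=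
  (Finsupp.mapDomain_congr (g := id) fun P hP => h P (Finsupp.mem_support_iff.1 hP)).trans
    Finsupp.mapDomain_id

end one

variable {k C Om L : Type} [Field k] [Field C] [Algebra k C] [CFF k C] [Field Om] [Field L]
  [Algebra k Om] [Algebra Om L] [CFF Om L] {F : k[X]} {m0 w0 : C} {m w : L}

/-- the constant field extension -/
theorem ex_bc (h : Hyp F m0 w0) (H : Hyp (F.map (algebraMap k Om)) m w) :
    ∃ j : C →+* L, IsBC (algebraMap k Om) j ∧ j m0 = m ∧ j w0 = w := by
  obtain ⟨j, a0, a1, a2⟩ := ex_hom h ((algebraMap Om L).comp (algebraMap k Om)) (μ := m) (s := w)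
    (fun c hc => by
      rw [← eval₂_map, ← aeval_def]
      exact ne0 H ((Polynomial.map_ne_zero_iff (algebraMap k Om).injective).2 hc))
    (by rw [← eval₂_map, ← aeval_def, H.sq])
  refine ⟨j, ⟨a0, fun S s0 s1 => eq_top_iff.2 fun z _ => ?_⟩, a1, a2⟩
  obtain ⟨a, b, c, h0, e⟩ := H.top z
  have p : ∀ c : Om[X], aeval m c ∈ S := fun c => by
    rw [aeval_eq_sum_range]
    exact sum_mem fun i _ => by
      rw [Algebra.smul_def]
      exact mul_mem (s0 _) (pow_mem (a1 ▸ s1 m0) _)
  rw [eq_div_of_mul_eq (ne0 H h0) ((mul_comm _ _).trans e)]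
  exact div_mem (add_mem (p a) (mul_mem (p b) (a2 ▸ s1 w0))) (p c)

variable {j : C →+* L}

/-- values at a generic point -/
theorem val_gen (h : Hyp F m0 w0) (H : Hyp (F.map (algebraMap k Om)) m w)
    (bc : IsBC (algebraMap k Om) j) (a1 : j m0 = m) (a2 : j w0 = w) (α : C →ₐ[k] Om) :
    ∃ P : Plk Om L, FA.pt m w (α m0) (α w0) = Finsupp.single P 1 ∧ 0 ≤ ord P m ∧
      vl P m = α m0 ∧ vl P w = α w0 ∧ ∀ z, Val P (j z) (α z) := by
  have ev : ∀ c : k[X], (c.map (algebraMap k Om)).eval (α m0) = α (aeval m0 c) := fun c => by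
    rw [eval_map_algebraMap, aeval_algHom_apply]
  obtain ⟨P, p0, p1, p2, p3⟩ := pt_eq H (μ := α m0) (t := α w0) (by rw [ev, ← h.sq, map_pow])
  refine ⟨P, p0, p1, p2, p3, fun z => ?_⟩
  have v : ∀ c : k[X], Val P (j (aeval m0 c)) (α (aeval m0 c)) := fun c => by
    have := val1 p1 (c.map (algebraMap k Om))
    rw [p2, ev, aeval_def m, eval₂_map] at this
    rw [hom_aeval, a1, show j.comp (algebraMap k C) = (algebraMap Om L).comp (algebraMap k Om) from
      RingHom.ext bc.comm]
    exact this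
  have vw := val_vl (PtsAux.pt H P p1).1
  rw [p3, ← a2] at vw
  obtain ⟨a, b, c, h0, e⟩ := h.top z
  have := ((v a).add ((v b).mul vw)).mul (val_inv (v c) ((map_ne_zero α).2 (ne0 h h0)))
  rw [eq_div_of_mul_eq (ne0 h h0) ((mul_comm _ _).trans e)]
  simpa only [map_add, map_mul, div_eq_mul_inv, map_inv₀] using this

/-- values at constant places -/
theorem val_cst (H : Hyp (F.map (algebraMap k Om)) m w) (bc : IsBC (algebraMap k Om) j)
    (a1 : j m0 = m) {P : Plk Om L} (hP : CstP k m P) {z : C} (hz : ord P (j z) = 0) :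
    ∃ c : k, Val P (j z) (algebraMap k Om c) := by
  rcases restr bc.comm P with c | ⟨Q, e, e0, -, c⟩
  · have c1 := c m0
    rw [a1] at c1
    obtain ⟨a, ha⟩ := hP.resolve_left (by omega)
    have c2 := c (m0 - algebraMap k C a)
    have c3 := ord_sub_vl_pos (nc H) c1.ge
    rw [map_sub, a1, bc.comm, ← ha] at c2
    omega
  · rw [c] at hz
    have v := val_vl ((mul_eq_zero.1 hz).resolve_left e0.ne').ge
    refine ⟨vl Q z, ?_⟩
    unfold Val at v ⊢
    rw [← bc.comm, ← map_sub]
    rcases mem_Mge.1 v with d | d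
    · rw [d, map_zero]; exact zero_mem _
    · exact mem_Mge.2 (Or.inr (by rw [c]; nlinarith))

theorem cst_fix [IsAlgClosed k] (H : Hyp (F.map (algebraMap k Om)) m w) {s : L ≃+* L}
    {s₀ : Om ≃+* Om} (hs : ∀ a, s (algebraMap Om L a) = algebraMap Om L (s₀ a)) (e1 : s m = m)
    (e2 : s w = w) (e0 : ∀ a, s₀ (algebraMap k Om a) = algebraMap k Om a) {P : Plk Om L}
    (hP : CstP k m P) : plEquiv s s₀ hs P = P := by
  refine pl_fix H hs e1 e2 fun c => ?_
  obtain ⟨a, ha⟩ := hP.resolve_left (by omega)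
  obtain ⟨b, hb⟩ := IsAlgClosed.exists_pow_nat_eq (F.eval a) two_pos
  have q := (PtsAux.pt H P c).2
  rw [ha, eval_map_algebraMap, aeval_algebraMap_apply, coe_aeval_eq_eval, ← hb, map_pow,
    sq_eq_sq_iff_eq_or_eq_neg] at q
  rcases q with q | q <;> simp [ha, q, e0]

theorem j_fix (h : Hyp F m0 w0) (bc : IsBC (algebraMap k Om) j) (a1 : j m0 = m) (a2 : j w0 = w)
    {s : L ≃+* L} {s₀ : Om ≃+* Om} (hs : ∀ a, s (algebraMap Om L a) = algebraMap Om L (s₀ a))
    (e1 : s m = m) (e2 : s w = w) (e0 : ∀ a, s₀ (algebraMap k Om a) = algebraMap k Om a) (z : C) :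
    s (j z) = j z :=
  DFunLike.congr_fun (hom_ext h (j := (s : L →+* L).comp j) (j' := j)
    (fun a => by simp [bc.comm, hs, e0]) (by simp [a1, e1]) (by simp [a2, e2])) z

/-- the value on the divisor of a correspondence -/
theorem ev_corr {ι : Type} [Fintype ι] {α : ι → C →ₐ[k] Om} (c : ι → ℤ) {P : ι → Plk Om L}
    (v : ∀ a z, Val (P a) (j z) (α a z)) (f : Cˣ) :
    (((ev (Units.map (j : C →* L) f) (∑ a, c a • Finsupp.single (P a) (1 : ℤ))).toMul : Omˣ) : Om) =
      ∏ a, α a (f : C) ^ c a := by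
  rw [map_sum, toMul_sum, Units.coe_prod]
  refine Finset.prod_congr rfl fun a _ => ?_
  rw [map_zsmul, ev_single, one_smul,
    lc_eq (c := Units.mk0 _ ((map_ne_zero (α a)).2 f.ne_zero)) (v a f)]
  simp

end Vale.Agent.P027M.FA.Kum
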