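import Vale.Agent.P027M.FA.BeDef
import Vale.Agent.P027M.FA.Kum1

/-! # P027, route M, block FAITH : the height pairing from its parts -/

set_option linter.all false

open Polynomial Vale.Agent.P019P P025H492 Vale.Agent.P027M.B

noncomputable section

namespace Vale.Agent.P027M.FA.Be

open scoped Classical

namespace Asm

theorem rad {G : Type*} [AddCommGroup G] (be : G →+ G →+ ℚ) (hs : ∀ a b, be a b = be b a)
    (hp : ∀ a, 0 ≤ be a a) {a : G} (h : be a a = 0) (b : G) : be a b = 0 := by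
  by_contra c
  have key : ∀ t : ℤ, 0 ≤ 2 * t * be a b + be b b := fun t => by
    have := hp (t • a + b)
    simp only [map_add, map_zsmul, AddMonoidHom.add_apply, AddMonoidHom.zsmul_apply, h, hs b a,
      zsmul_eq_mul] at this
    linarith
  obtain ⟨n, hn⟩ := exists_nat_gt (be b b / |be a b|)
  have h0 : 0 < |be a b| := abs_pos.2 c
  rw [div_lt_iff₀ h0] at hn
  have h1 := hp b
  rcases abs_cases (be a b) with ⟨e, _⟩ | ⟨e, _⟩
  · have := key (-n)
    push_cast at this
    rw [e] at hn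
    nlinarith
  · have := key n
    push_cast at this
    rw [e] at hn
    nlinarith

variable {Om E : Type} [Field Om] [Field E] [Algebra Om E] [CFF Om E] {m w : E}
  {β : Om × Om → Om × Om → ℚ}

theorem bb_single (P Q : Plk Om E) (a b : ℤ) :
    bb β m w (Finsupp.single P a) (Finsupp.single Q b) = a * (b * b0 β m w P Q) := by
  unfold bb
  rw [Finsupp.liftAddHom_apply_single, zmultiplesHom_apply, AddMonoidHom.zsmul_apply,
    Finsupp.liftAddHom_apply_single, zmultiplesHom_apply, zsmul_eq_mul, zsmul_eq_mul]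

theorem bb_inf {o : Plk Om E} (ho : ord o m < 0) (j : ℤ) : bb β m w (Finsupp.single o j) = 0 := by
  refine Finsupp.addHom_ext fun Q b => ?_
  rw [bb_single, b0, if_neg fun h => absurd h.1 (not_le.2 ho)]
  simp

theorem bb_sum (D D' : Plk Om E →₀ ℤ) :
    bb β m w D D' = ∑ P ∈ D.support, ∑ Q ∈ D'.support, D P * (D' Q * b0 β m w P Q) := by
  conv_lhs => rw [← Finsupp.sum_single D, ← Finsupp.sum_single D']
  unfold Finsupp.sum
  rw [map_sum (bb β m w), AddMonoidHom.finset_sum_apply]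
  refine Finset.sum_congr rfl fun P _ => ?_
  rw [map_sum]
  exact Finset.sum_congr rfl fun Q _ => bb_single P Q _ _

variable {s : E ≃+* E} {s₀ : Om ≃+* Om}
  (hs : ∀ a, s (algebraMap Om E a) = algebraMap Om E (s₀ a))

theorem mn_map {o : Plk Om E} (ho : plEquiv s s₀ hs o = o) {D : Plk Om E →₀ ℤ} (h : Mn o D) :
    Mn o (D.mapDomain (plEquiv s s₀ hs)) := by
  have ap : ∀ P, D.mapDomain (plEquiv s s₀ hs) (plEquiv s s₀ hs P) = D P := fun P =>
    Finsupp.mapDomain_apply (plEquiv s s₀ hs).injective _ _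
  refine ⟨fun Q => ?_, (Submodule.eq_bot_iff _).2 fun z hz => ?_⟩
  · obtain ⟨P, rfl⟩ := (plEquiv s s₀ hs).surjective Q
    rw [ap]
    exact h.1 P
  · obtain ⟨y, rfl⟩ := s.surjective z
    have : y ∈ LL Om (D - Finsupp.single o 1) := by
      rcases mem_LL.1 hz with k | k
      · exact mem_LL.2 (Or.inl ((map_eq_zero s).1 k))
      · refine mem_LL.2 (Or.inr fun P => ?_)
        have k := k (plEquiv s s₀ hs P)
        rw [ord_plEquiv, Finsupp.sub_apply, ap] at k
        have e : (Finsupp.single o (1 : ℤ)) (plEquiv s s₀ hs P) = Finsupp.single o (1 : ℤ) P := by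
          conv_lhs => rw [← ho]
          exact Finsupp.single_apply_left (plEquiv s s₀ hs).injective _ _ _
        rw [Finsupp.sub_apply, ← e]
        exact k
    rw [h.2] at this
    rw [(Submodule.mem_bot _).1 this, map_zero]

theorem vl_map {P : Plk Om E} {z : E} (h : 0 ≤ ord P z) :
    vl (plEquiv s s₀ hs P) (s z) = s₀ (vl P z) := by
  refine vl_eq ?_
  rw [← hs, ← map_sub]
  rcases mem_Mge.1 (sub_vl_mem h) with k | k
  · rw [k, map_zero]
    exact Submodule.zero_mem _
  · exact mem_Mge.2 (Or.inr (by rwa [ord_plEquiv]))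

end Asm

open Asm in
theorem be_of (hP : PTS) (h3 : GEN3) (hL : LEV) (hB : BETA) (hI : INV) (hR : RED) (hO : POS)
    (hF : FIN) : BE := by
  intro k K Om L _ _ _ _ _ _ _ _ _ _ _ _ F m w H p hp hc
  have G : GF F := by
    refine ⟨fun c => H.two ?_, ?_, (separable_map _).1 H.sep⟩
    · rw [← map_ofNat (algebraMap k Om) 2, c, map_zero]
    · rw [← H.deg, natDegree_map]
  have T := hP Om L _ m w H
  obtain ⟨β, η, hβ⟩ := hL k K Om F G
  have B := hB k K Om F β η G hβ
  have inv := hI k K Om L F m w β η H T B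
  obtain ⟨sy, cs, po⟩ := hO k K Om L F m w β η T B
  obtain ⟨o, o2, -, ou⟩ := T.inf
  have ho : ord o m < 0 := by omega
  obtain ⟨ex, un, dg', pr⟩ := hR Om L o
  have aff : ∀ D, Mn o D → ∀ P, D P ≠ 0 → 0 ≤ ord P m := fun D h P c => by
    by_contra d
    exact c (ou P (not_le.1 d) ▸ (dg' D h).1)
  have po' : ∀ D, Mn o D → 0 ≤ bb β m w D D ∧ (bb β m w D D = 0 → Cst k m D) := fun D h =>
    po D h.1 (by have := (dg' D h).2; rwa [h3 Om L _ m w H] at this) (aff D h)
      fun P Q a b c => (pr _ m w H T ho D h P Q a b c).1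
  have red : ∀ D, ∃ (D₀ : Plk Om L →₀ ℤ) (j : ℤ) (φ : L), Mn o D₀ ∧ φ ≠ 0 ∧
      D = D₀ + Finsupp.single o j + dv Om φ ∧ bb β m w D D = bb β m w D₀ D₀ := fun D => by
    obtain ⟨D₀, j, h, φ, h0, e⟩ := ex D
    have e' : D = D₀ + Finsupp.single o j + dv Om φ := by rw [← e]; abel
    have e2 : bb β m w D = bb β m w D₀ := by
      rw [e', map_add, map_add, bb_inf ho, inv φ h0, add_zero, add_zero]
    exact ⟨D₀, j, φ, h, h0, e', by rw [e2, sy, e2]⟩
  have pos : ∀ D, 0 ≤ bb β m w D D := fun D => by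
    obtain ⟨D₀, j, φ, h, -, -, e⟩ := red D
    rw [e]
    exact (po' D₀ h).1
  haveI : Fact p.Prime := ⟨hp⟩
  haveI : CharP K p := charP_of_injective_algebraMap (algebraMap k K).injective p
  have den : ∀ D ∈ Inv K m w, ∃ (a : ℕ) (z : ℤ),
      (Nat.factorial 27 : ℚ) * p ^ a * bb β m w D D = z := fun D hD => by
    obtain ⟨D₀, j, φ, h, h0, e, e2⟩ := red D
    have st : ∀ s₀ : Om ≃ₐ[K] Om, ∀ P ∈ D₀.support.image (co m w),
        (s₀ P.1, s₀ P.2) ∈ D₀.support.image (co m w) := fun s₀ P hP' => by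
      obtain ⟨P, hQ, rfl⟩ := Finset.mem_image.1 hP'
      have fk : ∀ a : k, s₀ (algebraMap k Om a) = algebraMap k Om a := fun a => by
        rw [IsScalarTower.algebraMap_apply k K Om, s₀.commutes]
      obtain ⟨s, hs, e1, e2⟩ := Kum.ex_aut H s₀.toRingEquiv (by
        rw [Polynomial.map_map]
        congr 1
        exact RingHom.ext fk)
      have fo : plEquiv s s₀.toRingEquiv hs o = o :=
        Kum.pl_fix H hs e1 e2 fun c => absurd c (not_le.2 ho)
      obtain ⟨ψ, k0, k1⟩ := hD s s₀.toRingEquiv hs (fun a => s₀.commutes a) e1 e2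
      have eq : D₀.mapDomain (plEquiv s s₀.toRingEquiv hs) = D₀ := by
        refine un _ _ 0 (mn_map hs fo h) h ⟨φ * ψ * (s φ)⁻¹, mul_ne_zero (mul_ne_zero h0 k0)
          (inv_ne_zero ((map_ne_zero s).2 h0)), ?_⟩
        rw [dv_mul (mul_ne_zero h0 k0) (inv_ne_zero ((map_ne_zero s).2 h0)), dv_mul h0 k0, dv_inv,
          dv_plEquiv s s₀.toRingEquiv hs]
        rw [e, Finsupp.mapDomain_add, Finsupp.mapDomain_add, Finsupp.mapDomain_single, fo] at k1
        rw [Finsupp.single_zero, add_zero]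
        ext Q
        have := DFunLike.congr_fun k1 Q
        simp only [Finsupp.add_apply, Finsupp.sub_apply, Finsupp.neg_apply] at this ⊢
        omega
      have a := aff D₀ h P (Finsupp.mem_support_iff.1 hQ)
      refine Finset.mem_image.2 ⟨plEquiv s s₀.toRingEquiv hs P, Finsupp.mem_support_iff.2 ?_, ?_⟩
      · rw [← eq, Finsupp.mapDomain_apply (plEquiv s s₀.toRingEquiv hs).injective]
        exact Finsupp.mem_support_iff.1 hQ
      · have b1 := vl_map hs a
        have b2 := vl_map hs (T.pt P a).1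
        rw [e1] at b1
        rw [e2] at b2
        exact Prod.ext b1 b2
    have cd : (D₀.support.image (co m w)).card ≤ 3 := by
      have a := (dg' D₀ h).2
      rw [h3 Om L _ m w H, dg_eq_sum (S := D₀.support) fun P c => Finsupp.notMem_support_iff.1 c]
        at a
      have b : ∑ P ∈ D₀.support, (1 : ℤ) ≤ ∑ P ∈ D₀.support, D₀ P :=
        Finset.sum_le_sum fun P c => by
          have c1 := Finsupp.mem_support_iff.1 c
          have c2 : 0 ≤ D₀ P := h.1 P
          omega
      rw [Finset.sum_const, nsmul_eq_mul, mul_one] at b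
      exact Finset.card_image_le.trans (by exact_mod_cast b.trans a)
    obtain ⟨M, a, fin, ⟨c, hc⟩, mem⟩ := hF K Om p _ cd st
    have on : ∀ P ∈ D₀.support, On F (co m w P) := fun P c => by
      have := (T.pt P (aff D₀ h P (Finsupp.mem_support_iff.1 c))).2
      rwa [eval_map_algebraMap] at this
    have int : ∃ z : ℤ, bb β m w D₀ D₀ * Module.finrank K M = z := by
      rw [bb_sum, Finset.sum_mul]
      refine (AddSubgroup.sum_mem (Int.castAddHom ℚ).range fun P c => ?_).imp fun _ => Eq.symm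
      rw [Finset.sum_mul]
      refine AddSubgroup.sum_mem _ fun Q d => ?_
      obtain ⟨z, hz⟩ := B.den M _ _ (on P c) (on Q d) (mem _ (Finset.mem_image_of_mem _ c)).1
        (mem _ (Finset.mem_image_of_mem _ c)).2 (mem _ (Finset.mem_image_of_mem _ d)).1
        (mem _ (Finset.mem_image_of_mem _ d)).2
      refine ⟨D₀ P * (D₀ Q * z), ?_⟩
      rw [b0, if_pos ⟨aff D₀ h P (Finsupp.mem_support_iff.1 c),
        aff D₀ h Q (Finsupp.mem_support_iff.1 d)⟩, mul_assoc, mul_assoc, hz]
      simp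
    obtain ⟨z, hz⟩ := int
    refine ⟨a, z * c, ?_⟩
    have hc' : (Nat.factorial 27 : ℚ) * p ^ a = Module.finrank K M * c := by exact_mod_cast hc
    rw [hc', e2, Int.cast_mul, ← hz, Int.cast_natCast]
    ring
  refine ⟨bb β m w, 2 * Nat.factorial 27, by positivity, sy, ?_, fun D h => ?_,
    fun D hD E hE => ?_⟩
  · rintro D ⟨φ, h0, h⟩ E
    have c : Cst k m (D - dv Om φ) := fun P a b => by
      rcases h P a with d | ⟨x, d⟩
      · exact absurd b (not_le.2 d)
      · exact ⟨x, d.symm⟩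
    have := rad _ sy pos (cs _ c) E
    rwa [map_sub, inv φ h0, sub_zero] at this
  · obtain ⟨D₀, j, φ, h1, h0, e, e2⟩ := red D
    refine ⟨φ, h0, fun P c => ?_⟩
    by_cases d : ord P m < 0
    · exact Or.inl d
    have ne : o ≠ P := fun x => d (x ▸ ho)
    rw [e, add_sub_cancel_right, Finsupp.add_apply, Finsupp.single_eq_of_ne' ne, add_zero] at c
    obtain ⟨x, hx⟩ := (po' D₀ h1).2 (e2 ▸ h) P c (not_lt.1 d)
    exact Or.inr ⟨x, hx.symm⟩
  · obtain ⟨a1, z1, k1⟩ := den D hD
    obtain ⟨a2, z2, k2⟩ := den E hE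
    obtain ⟨a3, z3, k3⟩ := den (D + E) ((Inv K m w).add_mem hD hE)
    refine ⟨a1 + a2 + a3, z3 * p ^ (a1 + a2) - z1 * p ^ (a2 + a3) - z2 * p ^ (a1 + a3), ?_⟩
    simp only [map_add, AddMonoidHom.add_apply, sy E D] at k3
    push_cast
    rw [← k1, ← k2, ← k3]
    ring

end Vale.Agent.P027M.FA.Be
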