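import Vale.Agent.P027M.FA.BeDef

/-! # P027, route M, block FAITH : the chart lemma for the zeros of `A + B w` (helper89) -/

open Polynomial Vale.Agent.P019P P025H492 Vale.Agent.P027M.B

noncomputable section

namespace Vale.Agent.P027M.FA.Be

namespace Chart

variable {k L : Type*} [Field k] [Field L] [Algebra k L] [CFF k L] {P : Plk k L}

theorem mem0 {x : L} {a : k} (h : x - algebraMap k L a ∈ Mge P 1) : x ∈ Mge P 0 :=
  Or.inr (ord_nonneg_of_sub h)

theorem m01 {x y : L} {n : ℤ} (hx : x ∈ Mge P 0) (hy : y ∈ Mge P n) : x * y ∈ Mge P n := by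
  have := mul_mem_Mge hx hy
  rwa [zero_add] at this

theorem m10 {x y : L} {n : ℤ} (hx : x ∈ Mge P n) (hy : y ∈ Mge P 0) : x * y ∈ Mge P n := by
  rw [mul_comm]
  exact m01 hy hx

theorem c0 (a : k) : algebraMap k L a ∈ Mge P 0 := Or.inr (ord_const P a).ge

theorem ev_sub {x : L} {a : k} (h : x - algebraMap k L a ∈ Mge P 1) (q : k[X]) :
    aeval x q - algebraMap k L (q.eval a) ∈ Mge P 1 := by
  obtain ⟨r, hr⟩ := X_sub_C_dvd_sub_C_eval (p := q) (a := a)
  have e := congrArg (aeval x) hr
  rw [map_sub, map_mul, map_sub, aeval_C, aeval_X, aeval_C] at e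
  rw [e]
  exact m10 h (aeval_mem_zero (ord_nonneg_of_sub h) r)

/-- a polynomial in a uniformizer -/
theorem dvd_of_mem {x : L} {a : k} (hx : ord P (x - algebraMap k L a) = 1) (n : ℕ) :
    ∀ q : k[X], aeval x q ∈ Mge P n → (X - C a) ^ n ∣ q := by
  have h1 : x - algebraMap k L a ∈ Mge P 1 := Or.inr hx.ge
  have h0 : x - algebraMap k L a ≠ 0 := fun h => by
    rw [h, ord_zero] at hx
    exact zero_ne_one hx
  induction n with
  | zero => exact fun q _ => by simp
  | succ n ih =>
    intro q hq
    have e : q.eval a = 0 := const_notMem (P := P) (by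
      have := sub_mem (Mge_mono P (by push_cast; omega) hq) (ev_sub h1 q)
      rwa [sub_sub_cancel] at this)
    obtain ⟨r, rfl⟩ := dvd_iff_isRoot.2 e
    rw [map_mul, map_sub, aeval_X, aeval_C, mul_mem_Mge_iff h0, hx] at hq
    rw [pow_succ']
    exact mul_dvd_mul_left _ (ih r (by simpa using hq))

/-- the divided difference -/
theorem diff {u v : L} {a : k} (hu : u - algebraMap k L a ∈ Mge P 1)
    (hv : v - algebraMap k L a ∈ Mge P 1) (q : k[X]) :
    ∃ e : L, e - algebraMap k L (q.derivative.eval a) ∈ Mge P 1 ∧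
      aeval u q - aeval v q = (u - v) * e := by
  induction q using Polynomial.induction_on with
  | C c => exact ⟨0, by simp, by simp⟩
  | add p q hp hq =>
    obtain ⟨e, e1, e2⟩ := hp
    obtain ⟨f, f1, f2⟩ := hq
    refine ⟨e + f, ?_, by rw [map_add, map_add]; linear_combination e2 + f2⟩
    rw [derivative_add, eval_add, map_add, add_sub_add_comm]
    exact add_mem e1 f1
  | monomial n c h =>
    obtain ⟨e, e1, e2⟩ := h
    rw [pow_succ, ← mul_assoc]
    generalize C c * X ^ n = q at e1 e2
    refine ⟨e * u + aeval v q, ?_, by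
      rw [map_mul, map_mul, aeval_X, aeval_X]
      linear_combination u * e2⟩
    have := add_mem (add_mem (m10 e1 (mem0 hu)) (m01 (c0 (q.derivative.eval a)) hu)) (ev_sub hv q)
    rw [derivative_mul, derivative_X, mul_one, eval_add, eval_mul, eval_X, map_add, map_mul]
    rwa [show e * u + aeval v q - (algebraMap k L (eval a (derivative q)) * algebraMap k L a +
      algebraMap k L (eval a q)) = (e - algebraMap k L (eval a (derivative q))) * u +
      algebraMap k L (eval a (derivative q)) * (u - algebraMap k L a) +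
      (aeval v q - algebraMap k L (eval a q)) by ring]

theorem unit {e : L} {c : k} (hc : c ≠ 0) (h : e - algebraMap k L c ∈ Mge P 1) :
    e ≠ 0 ∧ ord P e = 0 := by
  have := ord_add_of_lt (P := P) ((_root_.map_ne_zero (algebraMap k L)).2 hc)
    (w := e - algebraMap k L c) (by rwa [ord_const, zero_add])
  rwa [add_sub_cancel, ord_const] at this

end Chart

open Chart in
/-- the chart lemma -/
theorem chart {k L : Type*} [Field k] [Field L] [Algebra k L] [CFF k L] (P : Plk k L)
    (G A B : k[X]) (x y : L) (p : k × k) (n : ℕ) (hx : ord P (x - algebraMap k L p.2) = 1)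
    (hy : y - algebraMap k L p.1 ∈ Mge P 1) (he : x ^ 2 = aeval y G)
    (hG : G.derivative.eval p.1 ≠ 0) (h : aeval y A + aeval y B * x ∈ Mge P n) :
    Vb G A B p n := by
  intro V hV e
  have h1 : x - algebraMap k L p.2 ∈ Mge P 1 := Or.inr hx.ge
  have hv := ev_sub h1 V
  rw [e] at hv
  obtain ⟨g, g1, g2⟩ := diff hy hv G
  obtain ⟨a, a1, a2⟩ := diff hy hv A
  obtain ⟨b, b1, b2⟩ := diff hy hv B
  obtain ⟨g3, g4⟩ := unit hG g1
  obtain ⟨r, hr⟩ := hV
  have e1 := congrArg (aeval x) hr
  rw [map_sub, aeval_comp, map_pow, aeval_X, map_mul, map_pow, map_sub, aeval_X, aeval_C] at e1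
  have d : y - aeval x V ∈ Mge P n := by
    have : g * (y - aeval x V) ∈ Mge P n := by
      rw [show g * (y - aeval x V) = -((x - algebraMap k L p.2) ^ n * aeval x r) by
        linear_combination -g2 - he - e1]
      exact neg_mem (m10 (Or.inr (by rw [ord_pow, hx, mul_one]))
        (aeval_mem_zero (ord_nonneg_of_sub h1) r))
    rwa [mul_mem_Mge_iff g3, g4, sub_zero] at this
  refine dvd_of_mem hx n _ ?_
  rw [map_add, map_mul, aeval_comp, aeval_comp, aeval_X,
    show aeval (aeval x V) A + aeval (aeval x V) B * x =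
      aeval y A + aeval y B * x - (y - aeval x V) * (a + b * x) by
        linear_combination -a2 - x * b2]
  exact sub_mem h (m10 d (add_mem (mem0 a1) (m01 (mem0 b1) (mem0 h1))))

end Vale.Agent.P027M.FA.Be
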