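import Vale.Agent.P027M.FA.BeChart

/-! # P027, route M, block FAITH : the charts of the hyperelliptic curve (helper89) -/

open Polynomial Vale.Agent.P019P P025H492 Vale.Agent.P027M.B

noncomputable section

namespace Vale.Agent.P027M.FA.Be

namespace Chart

variable {k L : Type*} [Field k] [Field L] [Algebra k L] [CFF k L] {P : Plk k L}

theorem ord_one' {G : k[X]} {x y : L} {a s : k} (h2 : (2 : k) ≠ 0)
    (hx : x - algebraMap k L s ∈ Mge P 1) (hy : y - algebraMap k L a ∈ Mge P 1)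
    (he : x ^ 2 = aeval y G) (hG : G.derivative.eval a ≠ 0)
    (h1 : s ≠ 0 → ord P (y - algebraMap k L a) = 1)
    (h0 : s = 0 → ord P (y - algebraMap k L a) = 2) : ord P (x - algebraMap k L s) = 1 := by
  obtain ⟨g, g1, g2⟩ := diff hy (v := algebraMap k L a) (by rw [sub_self]; exact zero_mem _) G
  obtain ⟨g3, g4⟩ := unit hG g1
  rw [aeval_algebraMap_apply, coe_aeval_eq_eval] at g2
  have y0 : y - algebraMap k L a ≠ 0 := fun h => by
    rw [h, ord_zero] at h1 h0
    by_cases c : s = 0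
    · exact absurd (h0 c) (by norm_num)
    · exact absurd (h1 c) (by norm_num)
  have p : x + algebraMap k L s - algebraMap k L (2 * s) ∈ Mge P 1 := by
    rwa [map_mul, map_ofNat, show x + algebraMap k L s - 2 * algebraMap k L s =
      x - algebraMap k L s by ring]
  have e : s ^ 2 - G.eval a = 0 := const_notMem (P := P) (by
    rw [map_sub, map_pow, show algebraMap k L s ^ 2 - algebraMap k L (G.eval a) =
      (aeval y G - algebraMap k L (G.eval a)) - (x - algebraMap k L s) * (x + algebraMap k L s) by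
        linear_combination he]
    exact sub_mem (ev_sub hy G) (m10 hx (mem0 p)))
  have e1 : (x - algebraMap k L s) * (x + algebraMap k L s) = (y - algebraMap k L a) * g := by
    have := congrArg (algebraMap k L) e
    rw [map_sub, map_pow, map_zero] at this
    linear_combination he + g2 - this
  have n := mul_ne_zero y0 g3
  rw [← e1] at n
  have e2 := congrArg (ord P) e1
  rw [ord_mul P (left_ne_zero_of_mul n) (right_ne_zero_of_mul n), ord_mul P y0 g3, g4] at e2
  by_cases c : s = 0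
  · rw [h0 c] at e2
    simp only [c, map_zero, add_zero, sub_zero] at e2 ⊢
    omega
  · rw [h1 c, (unit (mul_ne_zero h2 c) p).2] at e2
    omega

omit [CFF k L] in
theorem refl_ev {m : L} (hm : m ≠ 0) {N : ℕ} {f : k[X]} (hf : f.natDegree ≤ N) :
    aeval m⁻¹ (reflect N f) = aeval m f * m⁻¹ ^ N := by
  let _ := invertibleOfNonzero hm
  have := eval₂_reflect_mul_pow (algebraMap k L) m N f hf
  rw [invOf_eq_inv] at this
  rw [aeval_def, aeval_def, ← this, mul_assoc, ← mul_pow, mul_inv_cancel₀ hm, one_pow, mul_one]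

omit [CFF k L] in
theorem refl_sq {F : k[X]} {m w : L} (hH : Hyp F m w) (hm : m ≠ 0) :
    (w / m ^ 4) ^ 2 = aeval m⁻¹ (reflect 8 F) := by
  rw [refl_ev hm (by rw [hH.deg]; norm_num), ← hH.sq]
  field_simp

omit [CFF k L] in
theorem refl_fn {A B : k[X]} {m : L} (w : L) (hm : m ≠ 0) {d : ℕ} (hA : A.natDegree ≤ d + 4)
    (hB : B.natDegree ≤ d) : aeval m⁻¹ (reflect (d + 4) A) + aeval m⁻¹ (reflect d B) * (w / m ^ 4) =
      m⁻¹ ^ (d + 4) * (aeval m A + aeval m B * w) := by
  rw [refl_ev hm hA, refl_ev hm hB, pow_add, div_eq_mul_inv, ← inv_pow]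
  ring

end Chart

open Chart

variable {k L : Type*} [Field k] [Field L] [Algebra k L] [CFF k L] {F A B : k[X]} {m w : L}

/-- the chart `(w, m)` -/
theorem zer_vb (hH : Hyp F m w) (hP : Pts F m w) (P : Plk k L) (h0 : 0 ≤ ord P m) (n : ℕ)
    (h : aeval m A + aeval m B * w ∈ Mge P n) (hd : F.derivative.eval (vl P m) ≠ 0) :
    Vb F A B (co m w P) n :=
  chart P F A B w m (co m w P) n (ord_one' hH.two (sub_vl_mem (hP.pt P h0).1) (sub_vl_mem h0)
    hH.sq hd (hP.unif P h0) fun c => (hP.bra P h0 c).1) (sub_vl_mem h0) hH.sq hd h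

/-- the chart `(w / m ^ 4, 1 / m)` at an affine place -/
theorem zer_vc1 (hH : Hyp F m w) (hP : Pts F m w) (P : Plk k L) (h0 : 0 ≤ ord P m) (n : ℕ)
    (h : aeval m A + aeval m B * w ∈ Mge P n) (d : ℕ) (hA : A.natDegree ≤ d + 4)
    (hB : B.natDegree ≤ d) (h1 : vl P m ≠ 0)
    (hd : (reflect 8 F).derivative.eval (vl P m)⁻¹ ≠ 0) :
    Vb (reflect 8 F) (reflect (d + 4) A) (reflect d B) ((vl P m)⁻¹, vl P w / vl P m ^ 4) n := by
  obtain ⟨m0, m1⟩ := unit h1 (sub_vl_mem h0)
  have c0' := (_root_.map_ne_zero (algebraMap k L)).2 h1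
  have e : m⁻¹ - algebraMap k L (vl P m)⁻¹ =
      (-(m * algebraMap k L (vl P m))⁻¹) * (m - algebraMap k L (vl P m)) := by
    rw [map_inv₀]
    field_simp
    ring
  have u0 : -(m * algebraMap k L (vl P m))⁻¹ ≠ 0 := neg_ne_zero.2 (inv_ne_zero (mul_ne_zero m0 c0'))
  have u1 : ord P (-(m * algebraMap k L (vl P m))⁻¹) = 0 := by
    rw [ord_neg, ord_inv, ord_mul P m0 c0', m1, ord_const, add_zero, neg_zero]
  have hy : m⁻¹ - algebraMap k L (vl P m)⁻¹ ∈ Mge P 1 := by
    rw [e]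
    exact m01 (Or.inr u1.ge) (sub_vl_mem h0)
  have eo : ord P (m⁻¹ - algebraMap k L (vl P m)⁻¹) = ord P (m - algebraMap k L (vl P m)) := by
    have nz : m - algebraMap k L (vl P m) ≠ 0 := sub_ne_zero.2 fun c => hH.tr (by
      rw [c]
      exact isAlgebraic_algebraMap _)
    rw [e, ord_mul P u0 nz, u1, zero_add]
  have hx : w / m ^ 4 - algebraMap k L (vl P w / vl P m ^ 4) ∈ Mge P 1 := by
    have a := ev_sub hy (X ^ 4)
    rw [map_pow, aeval_X, eval_pow, eval_X] at a
    have b := add_mem (m10 (sub_vl_mem (hP.pt P h0).1) (mem0 a)) (m01 (c0 (vl P w)) a)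
    rwa [div_eq_mul_inv, div_eq_mul_inv, ← inv_pow, ← inv_pow, map_mul,
      show w * m⁻¹ ^ 4 - algebraMap k L (vl P w) * algebraMap k L ((vl P m)⁻¹ ^ 4) =
        (w - algebraMap k L (vl P w)) * m⁻¹ ^ 4 +
          algebraMap k L (vl P w) * (m⁻¹ ^ 4 - algebraMap k L ((vl P m)⁻¹ ^ 4)) by ring]
  have z : vl P w / vl P m ^ 4 = 0 ↔ vl P w = 0 := by simp [h1]
  refine chart P _ _ _ (w / m ^ 4) m⁻¹ _ n (ord_one' hH.two hx hy (refl_sq hH m0) hd
    (fun c => eo.trans (hP.unif P h0 (mt z.2 c))) fun c => eo.trans (hP.bra P h0 (z.1 c)).1) hy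
    (refl_sq hH m0) hd ?_
  rw [refl_fn w m0 hA hB]
  exact m01 (Or.inr (by rw [ord_pow, ord_inv, m1, neg_zero, mul_zero])) h

/-- the chart `(w / m ^ 4, 1 / m)` at infinity -/
theorem zer_vc0 (hH : Hyp F m w) (hP : Pts F m w) (o : Plk k L) (ho : ord o m < 0) (d : ℕ)
    (hA : A.natDegree ≤ d + 4) (hB : B.natDegree ≤ d) (h : aeval m A + aeval m B * w ≠ 0) :
    ∃ e : ℕ, (e : ℤ) = 2 * d + 8 + ord o (aeval m A + aeval m B * w) ∧
      Vb (reflect 8 F) (reflect (d + 4) A) (reflect d B) (0, 0) e := by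
  obtain ⟨P, p1, p2, p3⟩ := hP.inf
  obtain rfl := p3 o ho
  have m0 : m ≠ 0 := fun c => by
    rw [c, ord_zero] at ho
    exact lt_irrefl _ ho
  have w0 : w ≠ 0 := fun c => by
    rw [c, ord_zero] at p2
    omega
  have y2 : ord o m⁻¹ = 2 := by rw [ord_inv, p1, neg_neg]
  have x1 : ord o (w / m ^ 4) = 1 := by
    rw [div_eq_mul_inv, ord_mul o w0 (inv_ne_zero (pow_ne_zero _ m0)), ord_inv, ord_pow, p1, p2]
    norm_num
  have n0 := mul_ne_zero (pow_ne_zero (d + 4) (inv_ne_zero m0)) h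
  have e : ord o (m⁻¹ ^ (d + 4) * (aeval m A + aeval m B * w)) =
      2 * d + 8 + ord o (aeval m A + aeval m B * w) := by
    rw [ord_mul o (pow_ne_zero _ (inv_ne_zero m0)) h, ord_pow, y2]
    push_cast
    ring
  have i : m⁻¹ ^ (d + 4) * (aeval m A + aeval m B * w) ∈ Mge o 0 := by
    rw [← refl_fn w m0 hA hB]
    exact add_mem (aeval_mem_zero (by omega) _)
      (m01 (aeval_mem_zero (by omega) _) (Or.inr (by omega)))
  obtain ⟨n, hn⟩ := Int.eq_ofNat_of_zero_le (i.resolve_left n0)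
  refine ⟨n, hn.symm.trans e, chart o _ _ _ (w / m ^ 4) m⁻¹ _ n (by simpa using x1)
    (Or.inr (by simp [y2])) (refl_sq hH m0) ?_ ?_⟩
  · rw [← coeff_zero_eq_eval_zero, coeff_derivative, coeff_reflect, revAt_le (by norm_num)]
    have := leadingCoeff_ne_zero.2 hH.sep.ne_zero
    rw [leadingCoeff, hH.deg] at this
    simpa using this
  · rw [refl_fn w m0 hA hB]
    exact Or.inr hn.ge

end Vale.Agent.P027M.FA.Be
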