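import Vale.Agent.P025.R2.H816.J05
import Vale.Agent.P025.R2.H492.Ext3
import Vale.Agent.P027M.B.AJ

/-! # P027, route M, block FAITH : the positive form on the divisors of the hyperelliptic curve

Points are pairs `(μ, s)` with `s ^ 2 = F μ`. Owner helper61. -/

open Polynomial Vale.Agent.P019P P025H492 Vale.Agent.P027M.B

noncomputable section

namespace Vale.Agent.P027M.FA.Be

open scoped Classical

/-- the equation -/
structure GF {k : Type*} [Field k] (F : k[X]) : Prop where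
  two : (2 : k) ≠ 0
  deg : F.natDegree = 7
  sep : F.Separable

/-- the point lies on the curve -/
def On {k L : Type*} [Field k] [Field L] [Algebra k L] (F : k[X]) (P : L × L) : Prop :=
  P.2 ^ 2 = aeval P.1 F

/-- the involution -/
def ng {L : Type*} [Field L] (P : L × L) : L × L := (P.1, -P.2)

/-- `A + B w` vanishes to order `n` at `(μ, s)`, parameter `m` -/
def Va {L : Type*} [Field L] (F A B : L[X]) (p : L × L) (n : ℕ) : Prop :=
  ∀ V : L[X], (X - C p.1) ^ n ∣ V ^ 2 - F → V.eval p.1 = p.2 → (X - C p.1) ^ n ∣ A + B * V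

/-- `A + B w` vanishes to order `n` at `(μ, s)`, parameter `w` -/
def Vb {L : Type*} [Field L] (F A B : L[X]) (p : L × L) (n : ℕ) : Prop :=
  ∀ V : L[X], (X - C p.2) ^ n ∣ F.comp V - X ^ 2 → V.eval p.2 = p.1 →
    (X - C p.2) ^ n ∣ A.comp V + B.comp V * X

/-- the zeros of `A + B w` on `w ^ 2 = F m`; the chart at infinity is `m' = 1 / m`,
`w' = w / m ^ 4`, `w' ^ 2 = (reflect 8 F) m'` -/
structure Zer {L : Type*} [Field L] (F A B : L[X]) (s : Finset (L × L)) (n : L × L → ℕ) :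
    Prop where
  on : ∀ p ∈ s, p.2 ^ 2 = F.eval p.1
  val : ∀ p ∈ s, A.eval p.1 + B.eval p.1 * p.2 = 0
  nrm : ∃ c : L, c ≠ 0 ∧ A ^ 2 - B ^ 2 * F = C c * ∏ p ∈ s, (X - C p.1) ^ n p
  va : ∀ p ∈ s, p.2 ≠ 0 → Va F A B p (n p)
  vb : ∀ p ∈ s, F.derivative.eval p.1 ≠ 0 → Vb F A B p (n p)
  vc : ∃ d e : ℕ, A.natDegree ≤ d + 4 ∧ B.natDegree ≤ d ∧ ∑ p ∈ s, n p + e = 2 * d + 8 ∧
    Vb (reflect 8 F) (reflect (d + 4) A) (reflect d B) (0, 0) e ∧
    ∀ p ∈ s, p.1 ≠ 0 → (reflect 8 F).derivative.eval p.1⁻¹ ≠ 0 →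
      Vb (reflect 8 F) (reflect (d + 4) A) (reflect d B) (p.1⁻¹, p.2 / p.1 ^ 4) (n p)

section loc

variable {k L : Type*} [Field k] [Field L] [Algebra k L] [CFF k L]

/-- the local intersection number -/
def ii (v : Plk k L) (P Q : L × L) : ℤ :=
  if ord v P.1 < 0 ∧ ord v Q.1 < 0 then ord v (P.2 / P.1 ^ 4 - Q.2 / Q.1 ^ 4)
  else if 0 ≤ ord v P.1 ∧ 0 ≤ ord v Q.1 ∧ vl v P.1 = vl v Q.1 ∧ vl v P.2 = vl v Q.2 then
    (if vl v P.2 = 0 then ord v (P.2 - Q.2) else ord v (P.1 - Q.1))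
  else 0

variable (k) in
/-- the height -/
def ht (x : L) : ℤ := dg (pol k x)

variable (k) in
/-- the pairing of two points, not normalised -/
def bL (P Q : L × L) : ℤ :=
  if P.1 = Q.1 then (if P.2 = Q.2 then 6 else -6) * ht k P.1
  else ∑ᶠ v : Plk k L, (ii v P (ng Q) - ii v P Q)

/-- integral coefficients -/
def Itg (v : Plk k L) (A : L[X]) : Prop := ∀ i, A.coeff i ∈ Mge v 0

/-- the point lies in the residue disc of `(a, b)` -/
def Dsc (v : Plk k L) (a b : k) (p : L × L) : Prop :=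
  p.1 - algebraMap k L a ∈ Mge v 1 ∧ p.2 - algebraMap k L b ∈ Mge v 1

end loc

/-! ### local rows -/

/-- [FA.iloc] -/
def ILOC : Prop := ∀ (k L : Type) [Field k] [Field L] [Algebra k L] [CFF k L] (F : k[X])
  (v : Plk k L) (P Q : L × L), GF F → On F P → On F Q → P.1 ≠ Q.1 →
  0 ≤ ii v P Q ∧ ii v P Q = ii v Q P ∧ ii v (ng P) (ng Q) = ii v P Q ∧
    ii v P Q + ii v P (ng Q) = ord v (P.1 - Q.1) + max 0 (-ord v P.1) + max 0 (-ord v Q.1)

/-- [FA.lb] the lower bound, parameter `m` -/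
def LBa : Prop := ∀ (k L : Type) [Field k] [Field L] [Algebra k L] [CFF k L] (F : k[X])
  (v : Plk k L) (A B : L[X]) (s : Finset (L × L)) (n : L × L → ℕ) (a b : k) (R : L × L),
  (2 : k) ≠ 0 → b ≠ 0 → Itg v A → Itg v B → On F R → Dsc v a b R →
  (∀ p ∈ s, On F p ∧ Dsc v a b p ∧ p.1 ≠ R.1 ∧ Va (F.map (algebraMap k L)) A B p (n p)) →
  A.eval R.1 + B.eval R.1 * R.2 ∈ Mge v (∑ p ∈ s, n p * ord v (R.1 - p.1))

/-- [FA.lb] the lower bound, parameter `w` -/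
def LBb : Prop := ∀ (k L : Type) [Field k] [Field L] [Algebra k L] [CFF k L] (F : k[X])
  (v : Plk k L) (A B : L[X]) (s : Finset (L × L)) (n : L × L → ℕ) (a b : k) (R : L × L),
  F.derivative.eval a ≠ 0 → Itg v A → Itg v B → On F R → Dsc v a b R →
  (∀ p ∈ s, On F p ∧ Dsc v a b p ∧ p.1 ≠ R.1 ∧ Vb (F.map (algebraMap k L)) A B p (n p)) →
  A.eval R.1 + B.eval R.1 * R.2 ∈ Mge v (∑ p ∈ s, n p * ord v (R.2 - p.2))

/-- [FA.gauss] after scaling, the order of the norm at an integral point is the sum over the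
roots in its residue class; `F` has a simple root `e` -/
def GAUSS : Prop := ∀ (k L : Type) [Field k] [Field L] [Algebra k L] [CFF k L] (F : k[X])
  (v : Plk k L) (A B : L[X]) (s : Finset (L × L)) (n : L × L → ℕ) (c : L) (e : k),
  F.eval e = 0 → F.derivative.eval e ≠ 0 → c ≠ 0 →
  A ^ 2 - B ^ 2 * F.map (algebraMap k L) = C c * ∏ p ∈ s, (X - C p.1) ^ n p →
  ∃ u : L, u ≠ 0 ∧ Itg v (C u * A) ∧ Itg v (C u * B) ∧ ∀ (x : L) (a : k),
    x - algebraMap k L a ∈ Mge v 1 → (∀ p ∈ s, p.1 ≠ x) →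
    ord v (u ^ 2 * (c * ∏ p ∈ s, (x - p.1) ^ n p)) =
      ∑ p ∈ s with p.1 - algebraMap k L a ∈ Mge v 1, n p * ord v (x - p.1)

/-- [FA.eq] from `LBa GAUSS` -/
def EQa : Prop := ∀ (k L : Type) [Field k] [Field L] [Algebra k L] [CFF k L] (F : k[X])
  (v : Plk k L) (A B : L[X]) (s : Finset (L × L)) (n : L × L → ℕ) (c : L) (e a b : k) (R : L × L),
  F.eval e = 0 → F.derivative.eval e ≠ 0 → c ≠ 0 →
  A ^ 2 - B ^ 2 * F.map (algebraMap k L) = C c * ∏ p ∈ s, (X - C p.1) ^ n p →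
  (2 : k) ≠ 0 → b ≠ 0 → On F R → Dsc v a b R →
  (∀ p ∈ s, On F p ∧ p.1 ≠ R.1 ∧ (p.2 ≠ 0 → Va (F.map (algebraMap k L)) A B p (n p))) →
  ord v (A.eval R.1 - B.eval R.1 * R.2) - ord v (A.eval R.1 + B.eval R.1 * R.2) =
    ∑ p ∈ s with Dsc v a (-b) p, n p * ord v (R.1 - p.1) -
      ∑ p ∈ s with Dsc v a b p, n p * ord v (R.1 - p.1)

/-- [FA.eq] from `LBb GAUSS` -/
def EQb : Prop := ∀ (k L : Type) [Field k] [Field L] [Algebra k L] [CFF k L] (F : k[X])
  (v : Plk k L) (A B : L[X]) (s : Finset (L × L)) (n : L × L → ℕ) (c : L) (e : k) (R : L × L),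
  F.eval e = 0 → F.derivative.eval e ≠ 0 → c ≠ 0 →
  A ^ 2 - B ^ 2 * F.map (algebraMap k L) = C c * ∏ p ∈ s, (X - C p.1) ^ n p →
  On F R → Dsc v e 0 R →
  (∀ p ∈ s, On F p ∧ p.1 ≠ R.1 ∧ (Dsc v e 0 p → Vb (F.map (algebraMap k L)) A B p (n p))) →
  ord v (A.eval R.1 - B.eval R.1 * R.2) - ord v (A.eval R.1 + B.eval R.1 * R.2) =
    ∑ p ∈ s with Dsc v e 0 p, n p * (ord v (R.2 + p.2) - ord v (R.2 - p.2))

/-- [FA.loc] from `EQa EQb` -/
def LOC : Prop := ∀ (k L : Type) [Field k] [Field L] [Algebra k L] [CFF k L] (F : k[X])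
  (v : Plk k L) (A B : L[X]) (s : Finset (L × L)) (n : L × L → ℕ) (R : L × L), GF F →
  Zer (F.map (algebraMap k L)) A B s n → On F R → (∀ p ∈ s, p.1 ≠ R.1) →
  ord v (A.eval R.1 - B.eval R.1 * R.2) - ord v (A.eval R.1 + B.eval R.1 * R.2) =
    ∑ p ∈ s, n p * (ii v p (ng R) - ii v p R)

/-- [FA.gloc] the function `w - s`; from `ILOC` -/
def GLOC : Prop := ∀ (k L : Type) [Field k] [Field L] [Algebra k L] [CFF k L] (F : k[X])
  (s : Finset (L × L)) (n : L × L → ℕ) (c : L) (R : L × L), GF F → On F R →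
  (∀ p ∈ s, On F p ∧ p.2 = R.2) →
  F.map (algebraMap k L) - C (R.2 ^ 2) = C c * ∏ p ∈ s, (X - C p.1) ^ n p →
  ∑ p ∈ s, n p * bL k p R = 0

/-- [FA.bl] the properties at one level; from `ILOC LOC` -/
def BL : Prop := ∀ (k L : Type) [Field k] [Field L] [Algebra k L] [CFF k L] (F : k[X]), GF F →
  (∀ x : L, 0 ≤ ht k x ∧ (ht k x = 0 ↔ ∃ a : k, algebraMap k L a = x)) ∧
  (∀ P Q : L × L, On F P → On F Q → bL k P Q = bL k Q P ∧ bL k P (ng Q) = -bL k P Q ∧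
    (P.1 ≠ Q.1 → -(ht k P.1 + ht k Q.1) ≤ bL k P Q ∧ bL k P Q ≤ ht k P.1 + ht k Q.1)) ∧
  ∀ (A B : L[X]) (s : Finset (L × L)) (n : L × L → ℕ) (R : L × L),
    Zer (F.map (algebraMap k L)) A B s n → On F R → (∀ p ∈ s, p.1 ≠ R.1) →
    ∑ p ∈ s, n p * bL k p R = 0

/-- [FA.hom] change of the level; from `ILOC` -/
def HOM : Prop := ∀ (k L L' : Type) [Field k] [Field L] [Field L'] [Algebra k L] [Algebra k L']
  [Algebra L L'] [IsScalarTower k L L'] [CFF k L] [CFF k L'] [FiniteDimensional L L'] (F : k[X]),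
  GF F → (∀ x : L, ht k (algebraMap L L' x) = Module.finrank L L' * ht k x) ∧
    ∀ P Q : L × L, On F P → On F Q →
      bL k (algebraMap L L' P.1, algebraMap L L' P.2) (algebraMap L L' Q.1, algebraMap L L' Q.2) =
        Module.finrank L L' * bL k P Q

/-! ### the pairing of points over the algebraic closure -/

/-- the normalised pairing and height -/
structure Beta {k Om : Type*} (K : Type*) [Field k] [Field K] [Field Om] [Algebra k Om]
    [Algebra K Om] (F : k[X]) (β : Om × Om → Om × Om → ℚ) (η : Om → ℚ) : Prop where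
  η0 : ∀ x, 0 ≤ η x
  η1 : ∀ x, η x = 0 ↔ ∃ a : k, algebraMap k Om a = x
  symm : ∀ P Q, On F P → On F Q → β P Q = β Q P
  odd : ∀ P Q, On F P → On F Q → β P (ng Q) = -β P Q
  diag : ∀ P, On F P → β P P = 6 * η P.1
  low : ∀ P Q, On F P → On F Q → P.1 ≠ Q.1 → -(η P.1 + η Q.1) ≤ β P Q ∧ β P Q ≤ η P.1 + η Q.1
  den : ∀ (L : IntermediateField K Om) [FiniteDimensional K L] (P Q : Om × Om), On F P → On F Q →
    P.1 ∈ L → P.2 ∈ L → Q.1 ∈ L → Q.2 ∈ L → ∃ z : ℤ, β P Q * Module.finrank K L = z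
  zer : ∀ (A B : Om[X]) (s : Finset (Om × Om)) (n : Om × Om → ℕ) (R : Om × Om),
    Zer (F.map (algebraMap k Om)) A B s n → On F R → (∀ p ∈ s, p.1 ≠ R.1) →
    ∑ p ∈ s, n p * β p R = 0
  gg : ∀ (s : Finset (Om × Om)) (n : Om × Om → ℕ) (c : Om) (R : Om × Om), On F R →
    (∀ p ∈ s, On F p ∧ p.2 = R.2) →
    F.map (algebraMap k Om) - C (R.2 ^ 2) = C c * ∏ p ∈ s, (X - C p.1) ^ n p →
    ∑ p ∈ s, n p * β p R = 0

/-- the values at finite levels -/
def IsBe {k Om : Type} (K : Type) [Field k] [Field K] [Field Om] [Algebra k K] [Algebra k Om]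
    [Algebra K Om] [IsScalarTower k K Om] (F : k[X]) (β : Om × Om → Om × Om → ℚ) (η : Om → ℚ) :
    Prop :=
  ∀ (L : IntermediateField K Om) [FiniteDimensional K L] [CFF k L],
    (∀ x : L, η x * Module.finrank K L = ht k x) ∧ ∀ P Q : L × L, On F P → On F Q →
      β ((P.1 : Om), (P.2 : Om)) ((Q.1 : Om), (Q.2 : Om)) * Module.finrank K L = bL k P Q

/-- [FA.lev] from `HOM` -/
def LEV : Prop := ∀ (k K Om : Type) [Field k] [Field K] [Field Om] [Algebra k K] [Algebra k Om]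
  [Algebra K Om] [IsScalarTower k K Om] [CFF k K] [Algebra.IsAlgebraic K Om] (F : k[X]), GF F →
  ∃ (β : Om × Om → Om × Om → ℚ) (η : Om → ℚ), IsBe K F β η

/-- [FA.beta] from `BL GLOC` -/
def BETA : Prop := ∀ (k K Om : Type) [Field k] [Field K] [Field Om] [Algebra k K] [Algebra k Om]
  [Algebra K Om] [IsScalarTower k K Om] [CFF k K] [Algebra.IsAlgebraic K Om] (F : k[X])
  (β : Om × Om → Om × Om → ℚ) (η : Om → ℚ), GF F → IsBe K F β η → Beta K F β η

/-! ### divisors -/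

section glob

variable {Om E : Type*} [Field Om] [Field E] [Algebra Om E] [CFF Om E]

/-- the coordinates of a place -/
def co (m w : E) (P : Plk Om E) : Om × Om := (vl P m, vl P w)

/-- the pairing of two places -/
def b0 (β : Om × Om → Om × Om → ℚ) (m w : E) (P Q : Plk Om E) : ℚ :=
  if 0 ≤ ord P m ∧ 0 ≤ ord Q m then β (co m w P) (co m w Q) else 0

/-- the pairing of two divisors -/
def bb (β : Om × Om → Om × Om → ℚ) (m w : E) :
    (Plk Om E →₀ ℤ) →+ (Plk Om E →₀ ℤ) →+ ℚ :=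
  Finsupp.liftAddHom fun P => zmultiplesHom _
    (Finsupp.liftAddHom fun Q => zmultiplesHom ℚ (b0 β m w P Q))

/-- the effective divisor of least degree in its class modulo `∞` -/
def Mn (o : Plk Om E) (D : Plk Om E →₀ ℤ) : Prop :=
  0 ≤ D ∧ LL Om (D - Finsupp.single o 1) = ⊥

/-- a divisor supported on constant points -/
def Cst (k : Type*) [Field k] [Algebra k Om] (m : E) (D : Plk Om E →₀ ℤ) : Prop :=
  ∀ P, D P ≠ 0 → 0 ≤ ord P m → ∃ a : k, algebraMap k Om a = vl P m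

end glob

/-- [FA.zer] the zeros of a function without affine poles -/
def ZER : Prop := ∀ (Om E : Type) [Field Om] [Field E] [Algebra Om E] [CFF Om E] (F : Om[X])
  (m w : E) (A B : Om[X]), Hyp F m w → Pts F m w → aeval m A + aeval m B * w ≠ 0 →
  ∃ (s : Finset (Om × Om)) (n : Om × Om → ℕ), Zer F A B s n ∧
    ∀ P : Plk Om E, 0 ≤ ord P m →
      ord P (aeval m A + aeval m B * w) = if co m w P ∈ s then (n (co m w P) : ℤ) else 0

/-- [FA.inv] principal divisors are in the kernel; from `ZER` -/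
def INV : Prop := ∀ (k K Om E : Type) [Field k] [Field K] [Field Om] [Field E] [Algebra k Om]
  [Algebra K Om] [Algebra Om E] [CFF Om E] (F : k[X]) (m w : E) (β : Om × Om → Om × Om → ℚ)
  (η : Om → ℚ), Hyp (F.map (algebraMap k Om)) m w → Pts (F.map (algebraMap k Om)) m w →
  Beta K F β η → ∀ φ : E, φ ≠ 0 → bb β m w (dv Om φ) = 0

/-- [FA.red] reduced divisors -/
def RED : Prop := ∀ (Om E : Type) [Field Om] [Field E] [Algebra Om E] [CFF Om E]
  (o : Plk Om E),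
  (∀ D : Plk Om E →₀ ℤ, ∃ (D₀ : Plk Om E →₀ ℤ) (j : ℤ), Mn o D₀ ∧
    D - (D₀ + Finsupp.single o j) ∈ prn Om E) ∧
  (∀ (D D' : Plk Om E →₀ ℤ) (j : ℤ), Mn o D → Mn o D' →
    D - (D' + Finsupp.single o j) ∈ prn Om E → D = D') ∧
  (∀ D, Mn o D → D o = 0 ∧ dg D ≤ gen Om E) ∧
  ∀ (F : Om[X]) (m w : E), Hyp F m w → Pts F m w → ord o m < 0 → ∀ D, Mn o D →
    ∀ P Q, D P ≠ 0 → D Q ≠ 0 → vl P m = vl Q m → P = Q ∧ (vl P w = 0 → D P = 1)

/-- [FA.pos] positivity on reduced divisors -/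
def POS : Prop := ∀ (k K Om E : Type) [Field k] [Field K] [Field Om] [Field E] [Algebra k Om]
  [Algebra K Om] [Algebra Om E] [CFF Om E] (F : k[X]) (m w : E) (β : Om × Om → Om × Om → ℚ)
  (η : Om → ℚ), Pts (F.map (algebraMap k Om)) m w → Beta K F β η →
  (∀ D D', bb β m w D D' = bb β m w D' D) ∧ (∀ D, Cst k m D → bb β m w D D = 0) ∧
  ∀ D : Plk Om E →₀ ℤ, 0 ≤ D → dg D ≤ 3 → (∀ P, D P ≠ 0 → 0 ≤ ord P m) →
    (∀ P Q, D P ≠ 0 → D Q ≠ 0 → vl P m = vl Q m → P = Q) →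
    0 ≤ bb β m w D D ∧ (bb β m w D D = 0 → Cst k m D)

/-- [FA.fin] a small stable set of points lies in a small field -/
def FIN : Prop := ∀ (K Om : Type) [Field K] [Field Om] [Algebra K Om] [IsAlgClosure K Om] (p : ℕ)
  [ExpChar K p] (S : Finset (Om × Om)), S.card ≤ 3 →
  (∀ s : Om ≃ₐ[K] Om, ∀ P ∈ S, (s P.1, s P.2) ∈ S) →
  ∃ (L : IntermediateField K Om) (a : ℕ), FiniteDimensional K L ∧
    Module.finrank K L ∣ Nat.factorial 27 * p ^ a ∧ ∀ P ∈ S, P.1 ∈ L ∧ P.2 ∈ L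

end Vale.Agent.P027M.FA.Be
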