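import Vale.Agent.P027M.FA.BeDef

/-! # P027, route M, block FAITH, row FA.be.fin : a small stable set of points lies in a small
field -/

set_option linter.all false

noncomputable section

namespace Vale.Agent.P027M.FA.Be

/-- row FA.be.fin -/
theorem fin : FIN := by
  intro K Om _ _ _ _ p _ S hS hs
  classical
  haveI : Algebra.IsAlgebraic K Om := IsAlgClosure.isAlgebraic
  haveI : IsAlgClosed Om := IsAlgClosure.isAlgClosed K
  let T : Set Om := Prod.fst '' (S : Set (Om × Om)) ∪ Prod.snd '' (S : Set (Om × Om))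
  haveI : Finite T := ((S.finite_toSet.image _).union (S.finite_toSet.image _)).to_subtype
  haveI fd : FiniteDimensional K (IntermediateField.adjoin K T) :=
    IntermediateField.finiteDimensional_adjoin fun x _ => Algebra.IsIntegral.isIntegral x
  have m1 : ∀ P ∈ S, P.1 ∈ IntermediateField.adjoin K T := fun P h =>
    IntermediateField.subset_adjoin _ _ (Or.inl ⟨P, h, rfl⟩)
  have m2 : ∀ P ∈ S, P.2 ∈ IntermediateField.adjoin K T := fun P h =>
    IntermediateField.subset_adjoin _ _ (Or.inr ⟨P, h, rfl⟩)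
  have st : ∀ (φ : IntermediateField.adjoin K T →ₐ[K] Om) (P : S),
      (φ ⟨P.1.1, m1 _ P.2⟩, φ ⟨P.1.2, m2 _ P.2⟩) ∈ S := fun φ P => by
    have := hs (AlgEquiv.ofBijective (φ.liftNormal Om)
      (Algebra.IsAlgebraic.algHom_bijective _)) P.1 P.2
    have e : ∀ x : IntermediateField.adjoin K T, φ.liftNormal Om (x : Om) = φ x :=
      fun x => φ.liftNormal_commutes Om x
    rw [← e, ← e]
    exact this
  have inj : Function.Injective fun (φ : IntermediateField.adjoin K T →ₐ[K] Om) (P : S) =>
      (⟨_, st φ P⟩ : S) := fun φ ψ h => by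
    refine IntermediateField.adjoin_algHom_ext K ?_
    rintro _ (⟨P, hP, rfl⟩ | ⟨P, hP, rfl⟩)
    · exact congrArg (fun Q : S => Q.1.1) (congrFun h ⟨P, hP⟩)
    · exact congrArg (fun Q : S => Q.1.2) (congrFun h ⟨P, hP⟩)
  have le : Field.finSepDegree K (IntermediateField.adjoin K T) ≤ 27 := by
    rw [Field.finSepDegree_eq_of_isAlgClosed K _ Om]
    refine (Nat.card_le_card_of_injective _ inj).trans ?_
    rw [Nat.card_fun, Nat.card_eq_fintype_card, Fintype.card_coe]
    generalize S.card = n at hS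
    interval_cases n <;> norm_num
  obtain ⟨a, ha⟩ := finInsepDegree_eq_pow K (IntermediateField.adjoin K T) p
  refine ⟨_, a, fd, ?_, fun P h => ⟨m1 P h, m2 P h⟩⟩
  rw [← Field.finSepDegree_mul_finInsepDegree, ha]
  exact Nat.mul_dvd_mul_right (Nat.dvd_factorial (NeZero.pos _) le) _

end Vale.Agent.P027M.FA.Be
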