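import Vale.Agent.P027M.FA.BeDef

/-! # P027, route M, block FAITH : a small stable set of points lies in a small field -/

set_option linter.all false

open Polynomial IntermediateField

noncomputable section

namespace Vale.Agent.P027M.FA.Be

open scoped Classical

theorem fin2 : FIN := by
  intro K Om _ _ _ _ p _ S hS st
  haveI : IsAlgClosed Om := IsAlgClosure.isAlgClosed K
  haveI : Algebra.IsAlgebraic K Om := IsAlgClosure.isAlgebraic
  set T : Finset Om := S.image Prod.fst ∪ S.image Prod.snd with hT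
  haveI fin : FiniteDimensional K (adjoin K (T : Set Om)) :=
    finiteDimensional_adjoin fun x _ => Algebra.IsIntegral.isIntegral x
  have m1 : ∀ P ∈ S, P.1 ∈ adjoin K (T : Set Om) := fun P h =>
    subset_adjoin _ _ (Finset.mem_coe.2 (Finset.mem_union_left _ (Finset.mem_image_of_mem _ h)))
  have m2 : ∀ P ∈ S, P.2 ∈ adjoin K (T : Set Om) := fun P h =>
    subset_adjoin _ _ (Finset.mem_coe.2 (Finset.mem_union_right _ (Finset.mem_image_of_mem _ h)))
  have mem : ∀ (f : adjoin K (T : Set Om) →ₐ[K] Om) (P : S),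
      (f ⟨P.1.1, m1 _ P.2⟩, f ⟨P.1.2, m2 _ P.2⟩) ∈ S := fun f P => by
    have := st (AlgEquiv.ofBijective (f.liftNormal Om) (Algebra.IsAlgebraic.algHom_bijective _))
      P.1 P.2
    have e1 : f.liftNormal Om P.1.1 = f ⟨P.1.1, m1 _ P.2⟩ :=
      f.liftNormal_commutes Om ⟨P.1.1, m1 _ P.2⟩
    have e2 : f.liftNormal Om P.1.2 = f ⟨P.1.2, m2 _ P.2⟩ :=
      f.liftNormal_commutes Om ⟨P.1.2, m2 _ P.2⟩
    rw [← e1, ← e2]
    exact this
  have inj : Function.Injective fun (f : adjoin K (T : Set Om) →ₐ[K] Om) (P : S) =>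
      (⟨_, mem f P⟩ : S) := fun f g e => by
    refine adjoin_algHom_ext K fun x hx => ?_
    rcases Finset.mem_union.1 (Finset.mem_coe.1 hx) with h | h
    · obtain ⟨P, hP, rfl⟩ := Finset.mem_image.1 h
      exact congrArg (fun z : S => z.1.1) (congrFun e ⟨P, hP⟩)
    · obtain ⟨P, hP, rfl⟩ := Finset.mem_image.1 h
      exact congrArg (fun z : S => z.1.2) (congrFun e ⟨P, hP⟩)
  have le : Field.finSepDegree K (adjoin K (T : Set Om)) ≤ 27 := by
    rw [Field.finSepDegree_eq_of_isAlgClosed K _ Om]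
    refine (Nat.card_le_card_of_injective _ inj).trans ?_
    rw [Nat.card_fun, Nat.card_eq_fintype_card, Fintype.card_coe]
    generalize S.card = c at hS
    interval_cases c <;> norm_num
  obtain ⟨a, ha⟩ := finInsepDegree_eq_pow K (adjoin K (T : Set Om)) p
  refine ⟨adjoin K (T : Set Om), a, fin, ?_, fun P h => ⟨m1 P h, m2 P h⟩⟩
  rw [← Field.finSepDegree_mul_finInsepDegree, ha]
  exact Nat.mul_dvd_mul_right (Nat.dvd_factorial (NeZero.pos _) le) _

end Vale.Agent.P027M.FA.Be
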