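import Vale.Agent.P027M.FA.BeDef
import Vale.Agent.P027M.FA.Kum1
import Vale.Agent.P027M.FA.Pti

/-! # P027, route M, block FAITH : the reduced divisor of an invariant class (helper10) -/

set_option linter.all false

open Polynomial Vale.Agent.P019P P025H492 P025H816 Vale.Agent.P027M.B

noncomputable section

namespace Vale.Agent.P027M.FA.Be

open scoped Classical

namespace Stab

variable {Om L : Type} [Field Om] [Field L] [Algebra Om L] [CFF Om L]
  {s : L ≃+* L} {s₀ : Om ≃+* Om} (hs : ∀ a, s (algebraMap Om L a) = algebraMap Om L (s₀ a))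

theorem mn_map {o : Plk Om L} (ho : plEquiv s s₀ hs o = o) {D : Plk Om L →₀ ℤ} (h : Mn o D) :
    Mn o (D.mapDomain (plEquiv s s₀ hs)) := by
  refine ⟨fun Q => ?_, (Submodule.eq_bot_iff _).2 fun z hz => ?_⟩
  · obtain ⟨P, rfl⟩ := (plEquiv s s₀ hs).surjective Q
    rw [Finsupp.mapDomain_apply (plEquiv s s₀ hs).injective]
    exact h.1 P
  · obtain ⟨y, rfl⟩ := s.surjective z
    have hy : y ∈ LL Om (D - Finsupp.single o 1) := by
      rcases hz with e | e
      · exact Or.inl ((map_eq_zero_iff s s.injective).1 e)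
      · refine Or.inr fun P => ?_
        have := e (plEquiv s s₀ hs P)
        rw [ord_plEquiv, Finsupp.sub_apply, Finsupp.mapDomain_apply (plEquiv s s₀ hs).injective,
          ← ho, ← Finsupp.mapDomain_single (f := plEquiv s s₀ hs),
          Finsupp.mapDomain_apply (plEquiv s s₀ hs).injective] at this
        rwa [Finsupp.sub_apply]
    rw [h.2] at hy
    rw [(Submodule.mem_bot _).1 hy, map_zero]

theorem prn_map {D : Plk Om L →₀ ℤ} (h : D ∈ prn Om L) :
    D.mapDomain (plEquiv s s₀ hs) ∈ prn Om L := by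
  obtain ⟨z, hz, rfl⟩ := h
  exact ⟨s z, (map_ne_zero_iff s s.injective).2 hz, (dv_plEquiv s s₀ hs z).symm⟩

end Stab

open Stab

/-- the support of the reduced divisor of an invariant class is stable -/
theorem stab (red : RED) {k K Om L : Type} [Field k] [Field K] [Field Om] [Field L] [Algebra k K]
    [Algebra K Om] [Algebra k Om] [IsScalarTower k K Om] [Algebra Om L] [CFF Om L] {F : k[X]}
    {m w : L} (H : Hyp (F.map (algebraMap k Om)) m w) {o : Plk Om L} (ho : ord o m < 0)
    {D D₀ : Plk Om L →₀ ℤ} {j : ℤ} (hD : D ∈ Inv K m w) (h0 : Mn o D₀)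
    (h1 : D - (D₀ + Finsupp.single o j) ∈ prn Om L) (σ : Om ≃ₐ[K] Om) :
    ∀ p ∈ D₀.support.image (co m w), (σ p.1, σ p.2) ∈ D₀.support.image (co m w) := by
  have hF : (F.map (algebraMap k Om)).map ((σ : Om ≃+* Om) : Om →+* Om) =
      F.map (algebraMap k Om) := by
    rw [Polynomial.map_map]
    congr 1
    ext a
    show σ (algebraMap k Om a) = _
    rw [IsScalarTower.algebraMap_apply k K Om, σ.commutes]
  obtain ⟨s, hs, e1, e2⟩ := Kum.ex_aut H (σ : Om ≃+* Om) hF
  have hP := H.pts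
  have fo : plEquiv s _ hs o = o := PtiAux.fix hs hP e1 e2 fun c => absurd c (not_le.2 ho)
  obtain ⟨φ, p0, e⟩ := hD s _ hs (fun a => σ.commutes a) e1 e2
  have h2 := prn_map hs h1
  have h3 : (D - (D₀ + Finsupp.single o j)).mapDomain (plEquiv s _ hs) =
      D + dv Om φ - (D₀.mapDomain (plEquiv s _ hs) + Finsupp.single o j) := by
    have := map_sub (Finsupp.mapDomain.addMonoidHom (plEquiv s _ hs)) D (D₀ + Finsupp.single o j)
    simp only [Finsupp.mapDomain.addMonoidHom_apply] at this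
    rw [this, e, Finsupp.mapDomain_add, Finsupp.mapDomain_single, fo]
  rw [h3] at h2
  have h4 : D₀.mapDomain (plEquiv s _ hs) = D₀ := by
    refine (red Om L o).2.1 _ _ 0 (mn_map hs fo h0) h0 ?_
    have h5 := sub_mem (add_mem h1 (show dv Om φ ∈ prn Om L from ⟨φ, p0, rfl⟩)) h2
    convert h5 using 1
    rw [Finsupp.single_zero]
    abel
  intro p hp
  obtain ⟨P, hP1, rfl⟩ := Finset.mem_image.1 hp
  have a0 : P ≠ o := fun c => Finsupp.mem_support_iff.1 hP1 (c ▸ ((red Om L o).2.2.1 _ h0).1)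
  have a1 : 0 ≤ ord P m := by
    obtain ⟨Q, -, -, q⟩ := hP.inf
    exact not_lt.1 fun c => a0 ((q _ c).trans (q _ ho).symm)
  refine Finset.mem_image.2 ⟨plEquiv s _ hs P, Finsupp.mem_support_iff.2 ?_, ?_⟩
  · rw [← h4, Finsupp.mapDomain_apply (plEquiv s _ hs).injective]
    exact Finsupp.mem_support_iff.1 hP1
  · have b1 := PtiAux.vl_pl hs a1
    have b2 := PtiAux.vl_pl hs (hP.pt P a1).1
    rw [e1] at b1
    rw [e2] at b2
    exact Prod.ext b1 b2

end Vale.Agent.P027M.FA.Be
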