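import Vale.Agent.P027M.FA.Spec

/-! # P027, route M, block FAITH : the Cartier-Manin matrix (statements, owner helper78) -/

set_option linter.all false

open Polynomial NumberField Vale.Agent.P022

noncomputable section

namespace Vale.Agent.P027M.FA

open B F

open Classical in
/-- a map of `K`, extended by zero to `Om` -/
def dd {K : Type} (Om : Type) [Field K] [Field Om] [Algebra K Om] (d : K → K) (z : Om) : Om :=
  if h : ∃ a : K, algebraMap K Om a = z then algebraMap K Om (d h.choose) else 0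

theorem dd_map {K : Type} (Om : Type) [Field K] [Field Om] [Algebra K Om] (d : K → K) (a : K) :
    dd Om d (algebraMap K Om a) = algebraMap K Om (d a) := by
  have h : ∃ b : K, algebraMap K Om b = algebraMap K Om a := ⟨a, rfl⟩
  rw [dd, dif_pos h, (algebraMap K Om).injective h.choose_spec]

theorem dd_not {K : Type} {Om : Type} [Field K] [Field Om] [Algebra K Om] (d : K → K) {z : Om}
    (h : ¬ ∃ a : K, algebraMap K Om a = z) : dd Om d z = 0 := dif_neg h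

open Classical in
/-- [FA.poly] Abel's theorem when the zeros are rational over `K` or `p`-th roots of such points -/
def POLY : Prop := ∀ (K Om : Type) [Field K] [Field Om] [Algebra K Om] [IsAlgClosed Om] (p : ℕ)
  [CharP K p] (d : Derivation ℤ K K) (F : K[X]) (a b V N : Om[X]), p.Prime → (2 : K) ≠ 0 →
  F.natDegree = 7 → F.Separable → (∀ i, d (F.coeff i) = 0) →
  a ^ 2 - b ^ 2 * F.map (algebraMap K Om) = N → N ≠ 0 → N ∣ a + b * V →
  N ∣ V ^ 2 - F.map (algebraMap K Om) →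
  (∀ μ, N.IsRoot μ → (∃ ν : K, algebraMap K Om ν = μ ^ p) ∧
    (∃ t : K, algebraMap K Om t = V.eval μ ^ p) ∧
    ((∃ x : K, algebraMap K Om x = μ) ∨ p ∣ N.rootMultiplicity μ)) →
  ∀ j < 3, ∑ μ ∈ N.roots.toFinset,
    ((N.rootMultiplicity μ : Om) * (μ ^ j * dd Om d μ / V.eval μ) +
      (N.rootMultiplicity μ / p : ℕ) *
        ((∑ i ∈ Finset.range 3, algebraMap K Om (cm F p j i) * (μ ^ p) ^ i) * dd Om d (μ ^ p) /
          V.eval μ ^ p)) = 0

section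
variable {k : Type} [Field k] (P : Par k)

/-- `e = e1 g0` -/
def ee (G : k) : k := (3 - P.g) / (P.g + 1) * G

/-- the ratio `l0 / l1` is `lam g0 g0'`, its conjugate is `lam g0' g0` -/
def lam (T : Tw P) (G G' : k) : k := -(2 * T.ν * P.g ^ 2 * G' / (3 * (P.g + 1) * T.x * G))

variable [IsAlgClosed k]

/-- the matrix identities for `p ≡ 1 mod 4` -/
def Mat1 (p : ℕ) (b0 b1 : ℤ) : Prop := ∀ j : Fin 3,
  cm P.fP p j 0 + ee P P.g0 * cm P.fP p j 2 = ![1, 0, ee P P.g0] j * (b0 + b1 * P.i) ∧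
  cm P.fP p j 1 = ![0, 1, 0] j * (b0 - b1 * P.i)

/-- the matrix identities for `p ≡ 3 mod 4` -/
def Mat3 (T : Tw P) (p : ℕ) (b0 b1 : ℤ) : Prop := ∀ j : Fin 3,
  (cm P.fP p j 0 + ee P T.g0' * cm P.fP p j 2) * lam P T T.g0' P.g0 =
    ![0, 1, 0] j * (b0 - b1 * P.i) ∧
  cm P.fP p j 1 = ![1, 0, ee P P.g0] j * lam P T P.g0 T.g0' * (3 * (b0 + b1 * P.i))

end

/-- [FA.ck1] -/
def CK1 : Prop := ∀ (k : Type) [Field k] [IsAlgClosed k] (P : Par k) (T : Tw P) (f : T.Sig)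
  (p : ℕ) (b0 b1 : ℤ), T.Fx f → (∀ d, DId P d p (T.rr f) false 1 b0 b1) → Mat1 P p b0 b1

/-- [FA.ck3] -/
def CK3 : Prop := ∀ (k : Type) [Field k] [IsAlgClosed k] (P : Par k) (T : Tw P) (f : T.Sig)
  (p : ℕ) (b0 b1 : ℤ), T.Sw f → (∀ d, DId P d p (T.rr f) true 1 b0 b1) → Mat3 P T p b0 b1

/-- the integral model of the curve and the three constants -/
structure ZM {g : ℚ} (X : Cfg g) where
  F : GaussianInt[X]
  n : ℕ
  s : ℕ
  l0 : GaussianInt
  l2 : GaussianInt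
  n_ne : n ≠ 0
  s_ne : s ≠ 0
  F_eq : ∀ j, gi (X.i : Qb) (F.coeff j) = (n : Qb) ^ 2 * X.P.fP.coeff j
  l0_eq : gi (X.i : Qb) l0 = lam X.P X.T X.P.g0 X.T.g0' * s
  l2_eq : gi (X.i : Qb) l2 = ee X.P X.P.g0 * gi (X.i : Qb) l0

/-- [FA.zex] -/
def ZEX : Prop := ∀ (g : ℚ) (X : Cfg g), Nonempty (ZM X)

/-- **[FA.cart]** from `CK1`, `CK3` -/
def CART : Prop := ∀ (g : ℚ) (X : Cfg g) (Z : ZM X) (S : Sys),
  (∃ B : ℕ, B ≠ 0 ∧ ∀ p : ℕ, p.Prime → ¬ p ∣ B → ∀ Q : Ideal (𝓞 Qb), Q.IsPrime →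
    (p : 𝓞 Qb) ∈ Q → ∃ (φ : GQ) (D : RedD X p Q φ),
      ∀ d, DId D.P d p (D.T.rr D.f) (p % 4 = 3) 1 (S.b p).re (S.b p).im) →
  CartF Z.F S Z.l0 Z.s Z.l2

end Vale.Agent.P027M.FA
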