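import Vale.Agent.P027M.FA.Ck0

/-! # P027, route M, FAITH : the matrix identities -/

set_option linter.all false

open Polynomial

noncomputable section

namespace Vale.Agent.P027M.FA

namespace Ck

open B F B.Crt

variable {k : Type} [Field k] [IsAlgClosed k] {P : Par k} (d : Derivation k P.FF P.FF)

theorem quad {x y z : k} (h : P.ι x * P.M1 ^ 2 + P.ι y * P.M1 + P.ι z = 0) :
    x = 0 ∧ y = 0 ∧ z = 0 := by
  have h1 : (C x * X ^ 2 + C y * X + C z : k[X]) = 0 := by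
    by_contra h0
    exact P.M1_tr' _ h0 (by simpa [eval₂_add, eval₂_mul, eval₂_pow] using h)
  have c2 := congrArg (coeff · 2) h1
  have c1 := congrArg (coeff · 1) h1
  have c0 := congrArg (coeff · 0) h1
  simp [coeff_X, coeff_C] at c2 c1 c0
  exact ⟨c2, c1, c0⟩

theorem ιc : P.ι P.c = P.ι P.g * (3 - P.ι P.g) / (P.ι P.g + 1) := by
  simp [Par.c, map_ofNat]

theorem ιe : P.ι (ee P P.g0) = (3 - P.ι P.g) / (P.ι P.g + 1) * P.ι P.g0 := by
  simp [ee, map_ofNat]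

theorem ιD : P.ι P.D = 4 * P.ι P.g ^ 3 / (P.ι P.g + 1) ^ 2 * P.ι P.g0 := by
  simp [Par.D, Par.b2, map_ofNat]

theorem tri : Tri P.M1 P.M2 P.M3 (P.ι P.g) (P.ι P.g0) := by
  have l1 : Lin P 1 := fun _ => rfl
  have l2 : Lin P P.rho := P.rho_c
  have l3 := l2.mul l2
  have s1 : ∀ a, P.M1 ^ 2 - P.ι a ≠ 0 := l1.sq_ne
  have s2 : ∀ a, P.M2 ^ 2 - P.ι a ≠ 0 := fun a => by rw [← P.rho_M1]; exact l2.sq_ne a
  have s3 : ∀ a, P.M3 ^ 2 - P.ι a ≠ 0 := fun a => by
    rw [← P.rho_M2, ← P.rho_M1]; exact l3.sq_ne a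
  refine ⟨by simpa using P.ι_ne P.hp1, by simpa using P.ι_ne P.hm1, P.ι_ne P.hg0, s1 _,
    by rw [← ιc, P.M2_add_M3], by rw [← ιc, P.M2_mul_M3], by rw [← ιe]; exact s1 _,
    by rw [← ιe]; exact s2 _, by rw [← ιe]; exact s3 _, by rw [← map_mul]; exact s1 _,
    by rw [← map_mul]; exact s2 _, by rw [← map_mul]; exact s3 _, fun h => ?_, fun h => ?_⟩
  · exact P.h4 (quad (P := P) (x := 4) (y := 0) (z := -((3 - P.g) * (P.g + 1) * P.g0))
      (by simp only [map_neg, map_mul, map_sub, map_add, map_ofNat, map_zero, map_one]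
          linear_combination h)).1
  · exact pow_ne_zero 2 P.hp1 (quad (P := P) (x := (P.g + 1) ^ 2) (y := 0) (z := -(4 * P.g * P.g0))
      (by simp only [map_neg, map_mul, map_pow, map_add, map_ofNat, map_zero, map_one]
          linear_combination h)).1

variable (P)

/-- `M ^ i / (M ^ 2 - x)` -/
def ph (x : P.FF) (i : ℕ) (M : P.FF) : P.FF := M ^ i / (M ^ 2 - x)
/-- `2 - ρ - ρ ^ 2` -/
def EE (x : P.FF) (i : ℕ) : P.FF := 2 * ph P x i P.M1 - (ph P x i P.M2 + ph P x i P.M3)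
/-- `ρ - ρ ^ 2` -/
def DD (x : P.FF) (i : ℕ) : P.FF := ph P x i P.M2 - ph P x i P.M3

variable {P}

theorem ph_two {x M : P.FF} (h : M ^ 2 - x ≠ 0) : ph P x 2 M = 1 + x * ph P x 0 M := by
  unfold ph; field_simp; ring

theorem EE_e : EE P (P.ι (ee P P.g0)) 2 = P.ι (ee P P.g0) * EE P (P.ι (ee P P.g0)) 0 := by
  have t := tri (P := P)
  rw [EE, EE, ιe, ph_two t.eA, ph_two t.eB, ph_two t.eC]; ring

theorem DD_e : DD P (P.ι (ee P P.g0)) 2 = P.ι (ee P P.g0) * DD P (P.ι (ee P P.g0)) 0 := by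
  have t := tri (P := P)
  rw [DD, DD, ιe, ph_two t.eB, ph_two t.eC]; ring

theorem EE_g : EE P (P.ι P.g * P.ι P.g0) 2 = P.ι P.g * P.ι P.g0 * EE P (P.ι P.g * P.ι P.g0) 0 := by
  have t := tri (P := P)
  rw [EE, EE, ph_two t.gA, ph_two t.gB, ph_two t.gC]; ring

theorem EE_ind {a b : k} (h : P.ι a * EE P (P.ι (ee P P.g0)) 0 + P.ι b * EE P (P.ι (ee P P.g0)) 1 = 0) :
    a = 0 ∧ b = 0 := by
  have t := tri (P := P)
  simp only [EE, ph, ιe, pow_zero, pow_one] at h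
  rw [t.s0, t.s1, ← ιe] at h
  have n := t.eA
  rw [← ιe] at n
  obtain ⟨h1, h2, -⟩ := quad (P := P) (x := -(a * ((P.g + 1) / ((P.g - 1) * P.g0)))) (y := 3 * b)
    (z := 3 * a + a * ((P.g + 1) / ((P.g - 1) * P.g0)) * ee P P.g0) (by
      simp only [map_neg, map_mul, map_div₀, map_add, map_sub, map_one, map_ofNat]
      generalize (P.ι P.g + 1) / ((P.ι P.g - 1) * P.ι P.g0) = s at *
      generalize hu : P.M1 ^ 2 - P.ι (ee P P.g0) = u at *
      field_simp at h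
      subst hu
      linear_combination h)
  exact ⟨(mul_eq_zero.1 (neg_eq_zero.1 h1)).resolve_right
    (div_ne_zero P.hp1 (mul_ne_zero P.hm1 P.hg0)), (mul_eq_zero.1 h2).resolve_left P.h3⟩

theorem DD_ind {a b : k} (h : P.ι a * DD P (P.ι (ee P P.g0)) 0 + P.ι b * DD P (P.ι (ee P P.g0)) 1 = 0) :
    a = 0 ∧ b = 0 := by
  have t := tri (P := P)
  simp only [DD, ph, ιe, pow_zero, pow_one] at h
  rw [dif0 _ t.eB t.eC, dif1 _ t.eB t.eC, ← ιe] at h
  have nB := t.eB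
  have nC := t.eC
  rw [← ιe] at nB nC
  have n := sub_ne_zero.2 P.M2_ne_M3
  have h0 : P.ι a * (P.M2 + P.M3) + P.ι b * (P.M2 * P.M3 + P.ι (ee P P.g0)) = 0 := by
    generalize P.M2 ^ 2 - P.ι (ee P P.g0) = u at *
    generalize P.M3 ^ 2 - P.ι (ee P P.g0) = v at *
    generalize P.M2 - P.M3 = z at *
    field_simp at h
    exact mul_left_cancel₀ n (by linear_combination -h)
  rw [P.M2_add_M3, P.M2_mul_M3] at h0
  have n1 := t.n1
  obtain ⟨h1, h2, -⟩ := quad (P := P) (x := b * (ee P P.g0 - P.g0)) (y := a * ((1 - P.c) * P.g0))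
    (z := b * (P.c * P.g0 ^ 2 - ee P P.g0 * P.g0)) (by
      simp only [map_mul, map_sub, map_one, map_pow]
      generalize hu : P.M1 ^ 2 - P.ι P.g0 = u at *
      field_simp at h0
      subst hu
      linear_combination h0)
  refine ⟨(mul_eq_zero.1 h2).resolve_right (mul_ne_zero (fun h => P.c_ne_one
    (by linear_combination -h)) P.hg0), (mul_eq_zero.1 h1).resolve_right fun h => ?_⟩
  have := P.hp1
  have := P.hg0
  rw [ee] at h
  field_simp at h
  exact mul_ne_zero (mul_ne_zero P.h2 P.hm1) P.hg0 (by linear_combination -h)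

theorem eta_ne (h : d P.M1 = 1) : d P.N / P.Y ≠ 0 := fun h0 => by
  have := Lin.om d (g := 1) (fun _ => rfl) 0
  rw [Par.one_ap, Par.one_ap, Par.one_ap, h0, om, Par.one_ap, Par.one_ap, h] at this
  exact P.W_ne (by simpa using this)

theorem ii (z : P.FF) : P.ι P.i * (P.ι P.i * z) = -z := by
  linear_combination z * P.ιi_sq

theorem sumE (i : ℕ) :
    ∑ a, (cs a : P.FF) * om P d i (gs P a) = 2 * EE P (P.ι (ee P P.g0)) i * (d P.N / P.Y) := by
  simp only [(lin_gs _).om d, Fin.sum_univ_six]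
  simp only [gs, cs, Matrix.cons_val, Par.mul_ap, Par.one_ap, P.rho_M1, P.rho_M2, P.rho_N, P.rho_Y,
    P.iota_M1, P.iota_M2, P.iota_M3, P.iota_N, P.iota_Y, P.iota_c, map_neg, map_mul, neg_neg,
    ii, div_neg, EE, ph]
  push_cast
  ring

theorem sumD (i : ℕ) :
    ∑ a, (cs a : P.FF) * ∑ b, (cc true b : P.FF) * om P d i (gs P a * hs P true b) =
      6 * ((-1) ^ i * P.ι P.i) * DD P (P.ι (ee P P.g0)) i * (d P.N / P.Y) := by
  have l2 : Lin P P.rho := P.rho_c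
  have e1 : ∀ a, gs P a * (P.iota * P.rho) = gs P a * P.rho * P.iota := fun a => by
    rw [P.iota_rho, mul_assoc]
  have e2 : ∀ a, gs P a * (P.iota * (P.rho * P.rho)) = gs P a * (P.rho * P.rho) * P.iota :=
    fun a => by rw [← mul_assoc P.iota, P.iota_rho, mul_assoc P.rho, P.iota_rho]; simp only [mul_assoc]
  simp only [hs, cc, if_true, Fin.sum_univ_two, Matrix.cons_val_zero, Matrix.cons_val_one, e1, e2,
    ((lin_gs _).mul l2).om_iota d, ((lin_gs _).mul (l2.mul l2)).om_iota d,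
    ((lin_gs _).mul l2).om d, ((lin_gs _).mul (l2.mul l2)).om d, Fin.sum_univ_six]
  simp only [gs, cs, Matrix.cons_val, Par.mul_ap, Par.one_ap, P.rho_M1, P.rho_M2, P.rho_M3, P.rho_N,
    P.rho_Y, P.iota_M1, P.iota_M2, P.iota_M3, P.iota_N, P.iota_Y, P.iota_c, map_neg, map_mul,
    neg_neg, ii, div_neg, DD, ph]
  push_cast
  ring

theorem sumS {T : Tw P} {f : T.Sig} (h : T.Sw f) {i : ℕ} (hi : i < 3) :
    ∑ a, (cs a : P.FF) * om P d i (gs P a * T.rr f) =
      2 * (2 * P.ι T.ν * P.ι P.g / (P.ι T.θ * P.ι T.g0') * P.ι T.ν ^ i) *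
        (EE P (P.ι P.g * P.ι P.g0) (2 - i) * ((P.N ^ 2 - P.ι P.D) / P.De)) * (d P.N / P.Y) := by
  simp only [(lin_gs _).om_sw d h hi, Fin.sum_univ_six]
  simp only [gs, cs, Matrix.cons_val, Par.mul_ap, Par.one_ap, P.rho_M1, P.rho_M2, P.rho_N, P.rho_Y,
    P.rho_De, P.iota_De,
    P.iota_M1, P.iota_M2, P.iota_M3, P.iota_N, P.iota_Y, P.iota_c, map_neg, map_mul, neg_neg,
    ii, div_neg, EE, ph]
  push_cast
  ring

theorem rhs (sw : Bool) (j : ℕ) (b0 b1 : ℤ) :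
    ∑ a, (cs a : P.FF) * ∑ b, (cc sw b : P.FF) * (b0 * om P d j (gs P a * hs P sw b) +
      b1 * om P d j (gs P a * hs P sw b * P.iota)) =
    (b0 + b1 * ((-1) ^ j * P.ι P.i)) *
      ∑ a, (cs a : P.FF) * ∑ b, (cc sw b : P.FF) * om P d j (gs P a * hs P sw b) := by
  simp only [((lin_gs _).mul (lin_hs _ _)).om_iota d, Finset.mul_sum]
  exact Finset.sum_congr rfl fun a _ => Finset.sum_congr rfl fun b _ => by ring

theorem lhs (c : ℕ → P.FF) (r : RingAut P.FF) :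
    ((1 : ℤ) : P.FF) * ∑ a, (cs a : P.FF) * ∑ i ∈ Finset.range 3, c i * om P d i (gs P a * r) =
    c 0 * ∑ a, (cs a : P.FF) * om P d 0 (gs P a * r) + c 1 * ∑ a, (cs a : P.FF) * om P d 1 (gs P a * r) +
      c 2 * ∑ a, (cs a : P.FF) * om P d 2 (gs P a * r) := by
  simp only [Finset.sum_range_succ, Finset.sum_range_zero, Finset.mul_sum, ← Finset.sum_add_distrib]
  exact Finset.sum_congr rfl fun a _ => by push_cast; ring

end Ck

open Ck B F

theorem ck1 (hI : IND) : CK1 := by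
  intro k _ _ P T f p b0 b1 h H j
  obtain ⟨d, hd, -⟩ := hI k P
  have e1 : ∀ i g, om P d i (g * T.rr f) = om P d i g := fun i g => by
    rw [om, om, Par.mul_ap, Par.mul_ap, Tw.rr_M1 h, Tw.rr_W h]
  have H1 := H d j j.2
  rw [rhs, lhs d fun i => P.ι (cm P.fP p j i)] at H1
  simp only [e1, hs, cc, Bool.false_eq_true, if_false, Fin.sum_univ_two, Matrix.cons_val_zero,
    Matrix.cons_val_one, mul_one, Int.cast_one, one_mul, Int.cast_zero, zero_mul, add_zero,
    sumE] at H1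
  have n := mul_ne_zero P.two_ne (eta_ne d hd)
  have := EE_ind (P := P)
    (a := cm P.fP p j 0 + ee P P.g0 * cm P.fP p j 2 - ![1, 0, ee P P.g0] j * (b0 + b1 * P.i))
    (b := cm P.fP p j 1 - ![0, 1, 0] j * (b0 - b1 * P.i)) (mul_left_cancel₀ n (by
      have h2 := EE_e (P := P)
      fin_cases j <;> simp only [Fin.zero_eta, Fin.mk_one, Fin.reduceFinMk, Fin.val_zero,
        Fin.val_one, Fin.val_two, Matrix.cons_val, map_sub, map_add, map_mul, map_intCast, map_one,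
        map_zero, h2] at H1 ⊢ <;> linear_combination H1))
  exact ⟨sub_eq_zero.1 this.1, sub_eq_zero.1 this.2⟩

theorem ck3 (hI : IND) : CK3 := by
  intro k _ _ P T f p b0 b1 h H j
  obtain ⟨d, hd, -⟩ := hI k P
  have H1 := H d j j.2
  rw [rhs, lhs d fun i => P.ι (cm P.fP p j i), sumD, sumS d h (by norm_num : 0 < 3),
    sumS d h (by norm_num : 1 < 3), sumS d h (by norm_num : 2 < 3)] at H1
  have t := tri (P := P)
  have hDe := P.De_ne
  have i1 : EE P (P.ι P.g * P.ι P.g0) 1 * ((P.N ^ 2 - P.ι P.D) / P.De) =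
      P.ι (3 / (P.g + 1)) * DD P (P.ι (ee P P.g0)) 0 := by
    have := t.i1
    rw [← ιD, ← ιe] at this
    simp only [EE, DD, ph, pow_one, pow_zero, map_div₀, map_add, map_one, map_ofNat]
    rw [← mul_div_assoc, div_eq_iff hDe, Par.N, Par.De]
    linear_combination this
  have i0 : EE P (P.ι P.g * P.ι P.g0) 0 * ((P.N ^ 2 - P.ι P.D) / P.De) =
      P.ι (-1 / ((P.g + 1) * P.g0)) * DD P (P.ι (ee P P.g0)) 1 := by
    have := t.i0
    rw [← ιD, ← ιe] at this
    simp only [EE, DD, ph, pow_one, pow_zero, map_div₀, map_add, map_one, map_neg, map_mul]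
    rw [← mul_div_assoc, div_eq_iff hDe, Par.N, Par.De]
    linear_combination this
  simp only [Nat.sub_zero, Nat.add_one_sub_one, Nat.sub_self] at H1
  rw [EE_g, mul_assoc _ (EE P _ 0), i0, i1] at H1
  have n := mul_ne_zero P.two_ne (eta_ne d hd)
  obtain ⟨κ, hκ⟩ : ∃ κ, κ = 2 * T.ν * P.g / (T.θ * T.g0') := ⟨_, rfl⟩
  have hκ' : 2 * P.ι T.ν * P.ι P.g / (P.ι T.θ * P.ι T.g0') = P.ι κ := by
    simp [hκ, map_ofNat]
  rw [hκ'] at H1
  obtain ⟨h1, h2⟩ := DD_ind (P := P)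
    (a := cm P.fP p j 1 * κ * T.ν * (3 / (P.g + 1)) -
      ![1, 0, ee P P.g0] j * (3 * P.i * (b0 + b1 * P.i)))
    (b := (cm P.fP p j 0 * (P.g * P.g0) + cm P.fP p j 2 * T.ν ^ 2) * κ * (-1 / ((P.g + 1) * P.g0)) +
      ![0, 1, 0] j * (3 * P.i * (b0 - b1 * P.i))) (mul_left_cancel₀ n (by
      have h2 := DD_e (P := P)
      generalize 3 / (P.g + 1) = u at *
      generalize -1 / ((P.g + 1) * P.g0) = v at *
      fin_cases j <;> simp only [Fin.zero_eta, Fin.mk_one, Fin.reduceFinMk, Fin.val_zero,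
        Fin.val_one, Fin.val_two, Matrix.cons_val, map_sub, map_add, map_mul, map_intCast, map_one,
        map_zero, map_pow, map_ofNat, h2] at H1 ⊢ <;> linear_combination H1))
  have := P.hp1
  have := P.hg0
  have := P.hg
  have := P.h2
  have := P.h3
  have := P.i_ne
  have := T.hg0'
  have := T.x_ne
  have := T.ν_ne
  have k1 : κ * (-1 / ((P.g + 1) * P.g0)) * (P.g * P.g0) = -(3 * P.i) * lam P T T.g0' P.g0 := by
    rw [hκ, lam, Tw.θ]; field_simp; linear_combination -P.hi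
  have k2 : T.ν ^ 2 = ee P T.g0' * (P.g * P.g0) := by rw [T.hν, ee, Par.c]; field_simp
  have k3 : κ * T.ν * (3 / (P.g + 1)) * lam P T P.g0 T.g0' = P.i := by
    have hx := T.hx
    rw [Par.b2] at hx
    rw [hκ, lam, Tw.θ]
    field_simp at hx ⊢
    linear_combination hx - T.x ^ 2 * (P.g + 1) ^ 2 * P.hi
  have k4 : κ * T.ν * (3 / (P.g + 1)) ≠ 0 := fun h => P.i_ne (by rw [← k3, h, zero_mul])
  constructor
  · refine mul_left_cancel₀ (mul_ne_zero P.h3 P.i_ne) ?_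
    rw [k2] at h2
    linear_combination (cm P.fP p j 0 + ee P T.g0' * cm P.fP p j 2) * k1 - h2
  · refine mul_left_cancel₀ k4 ?_
    linear_combination h1 - ![1, 0, ee P P.g0] j * (3 * (b0 + b1 * P.i)) * k3

end Vale.Agent.P027M.FA
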