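import Vale.Agent.P027M.FA.CartDef
import Vale.Agent.P027M.B.Crt1

/-! # P027, route M, FAITH : the differentials under the automorphisms of `FF` -/

set_option linter.all false

open Polynomial

noncomputable section

namespace Vale.Agent.P027M.FA.Ck

open B F B.Crt

/-- the differentials under an inversion -/
theorem inv_eq {k L : Type*} [Field L] [CommRing k] [Algebra k L] (d : Derivation k L L)
    {M N Y De c g e G G' D ν θ : L}
    (hc : d c = 0) (hG : d G = 0) (hd : d ν = 0) (h1 : g * e = c) (h2 : g + e = 3 - c)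
    (hν : ν ^ 2 = c * G * G') (hY : Y ^ 2 = N ^ 3 - D * N)
    (hN : N = M * (M ^ 2 - c * G) / (M ^ 2 - G)) (n0 : M ≠ 0) (n1 : M ^ 2 - G ≠ 0)
    (n2 : M ^ 2 - g * G ≠ 0) (n3 : M ^ 2 - e * G ≠ 0) (n4 : Y ≠ 0) (n5 : M ^ 2 - c * G ≠ 0)
    (n6 : De ≠ 0) (n7 : θ ≠ 0) (n8 : G' ≠ 0) (n9 : g ≠ 0) (two : (2 : L) ≠ 0) {i : ℕ} (hi : i < 3) :
    (ν / M) ^ i * d (ν / M) /
      (θ * De / (2 * N * Y) * ((ν / M) ^ 2 - G') ^ 2 / ((ν / M) ^ 2 - g * G')) =
    2 * ν * g / (θ * G') * ν ^ i * (M ^ (2 - i) / (M ^ 2 - g * G)) * ((N ^ 2 - D) / De) *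
      (d N / Y) := by
  have h3 := om_eq d hc hG h1 h2 hN rfl n1 n2 n3 n4 0
  have h4 : d (ν / M) = -(ν * d M / M ^ 2) := by
    rw [Derivation.leibniz_div, hd]; simp only [smul_eq_mul]; field_simp; ring
  have h5 : (ν / M) ^ 2 - G' = -(G' * (M ^ 2 - c * G) / M ^ 2) := by
    rw [div_pow, hν]; field_simp; ring
  have h6 : (ν / M) ^ 2 - g * G' = -(g * G' * (M ^ 2 - e * G) / M ^ 2) := by
    rw [div_pow, hν, ← h1]; field_simp; ring
  have n10 : N ≠ 0 := by rw [hN]; exact div_ne_zero (mul_ne_zero n0 n5) n1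
  have h7 : N ^ 2 - D = Y ^ 2 / N := by rw [hY]; field_simp
  rw [h4, h5, h6, h7]
  generalize d N = dN at *
  generalize d M = dM at *
  generalize M ^ 2 - G = u at *
  generalize M ^ 2 - g * G = v at *
  generalize M ^ 2 - e * G = z at *
  generalize M ^ 2 - c * G = t at *
  have h8 : dM = u ^ 2 * dN / (v * z) := by
    field_simp at h3 ⊢
    linear_combination h3
  rw [h8, hN]
  interval_cases i <;> field_simp <;> ring

variable {k : Type} [Field k] [IsAlgClosed k] (P : Par k) (d : Derivation k P.FF P.FF)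

/-- linear automorphisms -/
def Lin (g : RingAut P.FF) : Prop := ∀ a, g (P.ι a) = P.ι a

variable {P}

theorem Lin.mul {g h : RingAut P.FF} (hg : Lin P g) (hh : Lin P h) : Lin P (g * h) :=
  fun a => by rw [Par.mul_ap, hh, hg]

theorem lin_gs (a : Fin 6) : Lin P (gs P a) := by
  have h1 : Lin P P.rho := P.rho_c
  have h2 : Lin P P.iota := P.iota_c
  fin_cases a
  exacts [fun _ => rfl, h1, h1.mul h1, h2.mul h2, (h2.mul h2).mul h1, (h2.mul h2).mul (h1.mul h1)]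

theorem lin_hs (sw : Bool) (b : Fin 2) : Lin P (hs P sw b) := by
  have h1 : Lin P P.rho := P.rho_c
  have h2 : Lin P P.iota := P.iota_c
  cases sw <;> fin_cases b
  exacts [fun _ => rfl, fun _ => rfl, h2.mul h1, h2.mul (h1.mul h1)]

theorem Lin.sq_ne {g : RingAut P.FF} (hg : Lin P g) (a : k) : g P.M1 ^ 2 - P.ι a ≠ 0 := by
  rw [← hg a, ← map_pow, ← map_sub]
  exact (map_ne_zero_iff g g.injective).2 (sq_sub_ne P.M1_tr' a)

theorem Lin.N {g : RingAut P.FF} (hg : Lin P g) :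
    g P.N = g P.M1 * (g P.M1 ^ 2 - P.ι P.c * P.ι P.g0) / (g P.M1 ^ 2 - P.ι P.g0) := by
  rw [P.N_eq]; simp only [map_div₀, map_mul g, map_sub g, map_pow g, hg _]

/-- `e1` -/
def e1 (P : Par k) : k := (3 - P.g) / (P.g + 1)

theorem g_e1 : P.ι P.g * P.ι (e1 P) = P.ι P.c := by
  rw [← map_mul, e1, Par.c, mul_div_assoc]

theorem g_e1' : P.ι P.g + P.ι (e1 P) = 3 - P.ι P.c := by
  have := P.hp1
  rw [← map_add, ← map_ofNat (algebraMap k P.FF) 3, ← map_sub]
  congr 1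
  rw [e1, Par.c]; field_simp; ring

theorem Lin.om {g : RingAut P.FF} (hg : Lin P g) (i : ℕ) :
    om P d i g = g P.M1 ^ i / (g P.M1 ^ 2 - P.ι (ee P P.g0)) * (d (g P.N) / g P.Y) := by
  have he : P.ι (ee P P.g0) = P.ι (e1 P) * P.ι P.g0 := map_mul _ _ _
  rw [he]
  refine om_eq d (d.map_algebraMap _) (d.map_algebraMap _) g_e1 g_e1' hg.N ?_ (hg.sq_ne _)
    (by rw [← map_mul]; exact hg.sq_ne _) (by rw [← map_mul]; exact hg.sq_ne _)
    ((map_ne_zero_iff g g.injective).2 P.Y_ne) i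
  rw [P.W_eq]
  simp only [map_div₀, map_mul g, map_sub g, map_pow g, hg _, map_mul (algebraMap k P.FF)]

theorem iota_W : P.iota P.W = P.ι P.i * P.W := by
  rw [P.W_eq]
  simp only [map_div₀, map_mul P.iota, map_sub, map_pow, P.iota_c, P.iota_Y, P.iota_M1, neg_sq]
  ring

theorem Lin.om_iota {g : RingAut P.FF} (hg : Lin P g) (i : ℕ) :
    FA.om P d i (g * P.iota) = (-1) ^ i * P.ι P.i * FA.om P d i g := by
  have h1 := P.ι_ne P.i_ne
  have h2 := (map_ne_zero_iff g g.injective).2 P.W_ne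
  simp only [FA.om, Par.mul_ap, iota_W, P.iota_M1, map_neg, map_mul g, hg _]
  rw [neg_pow]
  field_simp
  linear_combination -(g P.M1 ^ i * d (g P.M1)) * P.ιi_sq

theorem Lin.om_sw {T : Tw P} {f : T.Sig} (h : T.Sw f) {g : RingAut P.FF} (hg : Lin P g) {i : ℕ}
    (hi : i < 3) : FA.om P d i (g * T.rr f) =
      2 * P.ι T.ν * P.ι P.g / (P.ι T.θ * P.ι T.g0') * P.ι T.ν ^ i *
        (g P.M1 ^ (2 - i) / (g P.M1 ^ 2 - P.ι P.g * P.ι P.g0)) *
        ((g P.N ^ 2 - P.ι P.D) / g P.De) * (d (g P.N) / g P.Y) := by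
  have h1 : T.rr f P.M1 = _ := (Tw.rr_sw h).m1
  have h2 : T.rr f P.Y = _ := (Tw.rr_sw h).y
  have ne : ∀ {z : P.FF}, z ≠ 0 → g z ≠ 0 := fun h => (map_ne_zero_iff g g.injective).2 h
  rw [← inv_eq d (d.map_algebraMap _) (d.map_algebraMap _) (d.map_algebraMap _) g_e1 g_e1'
    (by rw [← map_mul, ← map_mul, ← map_pow, T.hν])
    (by rw [← hg, ← map_pow, P.Y_sq, map_sub, map_pow, map_mul]) hg.N (ne P.M1_ne) (hg.sq_ne _)
    (by rw [← map_mul]; exact hg.sq_ne _) (by rw [← map_mul]; exact hg.sq_ne _) (ne P.Y_ne)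
    (by rw [← map_mul]; exact hg.sq_ne _) (ne P.De_ne) (P.ι_ne T.θ_ne) (P.ι_ne T.hg0')
    (P.ι_ne P.hg) P.two_ne hi]
  rw [FA.om, Par.mul_ap, Par.mul_ap, P.W_eq]
  simp only [map_div₀, map_mul (T.rr f), map_sub (T.rr f), map_pow (T.rr f), Tw.rr_c, h1, h2,
    map_mul (f : RingAut k), h.2.1, f.2.1, map_mul g, map_sub g, map_pow g, hg _, map_ofNat,
    map_mul (algebraMap k P.FF)]

end Vale.Agent.P027M.FA.Ck
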