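import Vale.Agent.P027M.FA.Defs
import Vale.Agent.P027M.K.Fun

/-! # P027, route M, block FAITH : the correspondences on the curve over the closure of `FF` -/

set_option linter.all false

open Polynomial Vale.Agent.P019P P025H492 P025H816 _root_.P027M.K

noncomputable section

namespace Vale.Agent.P027M.FA

open B

section alg
variable {A : Type} [AddCommGroup A] {Z : AddSubgroup A} {p : ℕ} {y x0 x1 : A}

theorem desc_pow (sat : ∀ (N : ℤ) (D : A), N ≠ 0 → N • D ∈ Z → D ∈ Z) (hp : p ≠ 0)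
    (H : ∀ u b0 b1 : ℤ, (p : ℤ) ∣ u → u • y - b0 • x0 - b1 • x1 ∈ Z → (p : ℤ) ∣ b0 ∧ (p : ℤ) ∣ b1)
    (a : ℕ) : ∀ c u0 u1 : ℤ, ((p : ℤ) ^ a * c) • y - u0 • x0 - u1 • x1 ∈ Z →
      (p : ℤ) ^ a ∣ u0 ∧ (p : ℤ) ^ a ∣ u1 := by
  induction a with
  | zero => intro c u0 u1 _; simp
  | succ a ih =>
    intro c u0 u1 h
    obtain ⟨⟨v0, rfl⟩, v1, rfl⟩ := H _ u0 u1 ⟨p ^ a * c, by ring⟩ h
    have := ih c v0 v1 (sat p _ (by exact_mod_cast hp) (by convert h using 1; module))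
    rw [pow_succ']
    exact ⟨mul_dvd_mul_left _ this.1, mul_dvd_mul_left _ this.2⟩

theorem desc_ind (sat : ∀ (N : ℤ) (D : A), N ≠ 0 → N • D ∈ Z → D ∈ Z) (hp : 1 < p)
    (H : ∀ u b0 b1 : ℤ, (p : ℤ) ∣ u → u • y - b0 • x0 - b1 • x1 ∈ Z → (p : ℤ) ∣ b0 ∧ (p : ℤ) ∣ b1)
    (a b : ℤ) (h : a • x0 + b • x1 ∈ Z) : a = 0 ∧ b = 0 := by
  have key : ∀ n : ℕ, (p : ℤ) ^ n ∣ a ∧ (p : ℤ) ^ n ∣ b := fun n =>
    desc_pow sat (by omega) H n 0 a b (by convert Z.neg_mem h using 1; module)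
  have z : ∀ c : ℤ, (∀ n : ℕ, (p : ℤ) ^ n ∣ c) → c = 0 := fun c hc =>
    Int.eq_zero_of_abs_lt_dvd (hc c.natAbs) (by
      rw [Int.abs_eq_natAbs]; exact_mod_cast Nat.lt_pow_self hp)
  exact ⟨z a fun n => (key n).1, z b fun n => (key n).2⟩

end alg

theorem mem_of_fx {K Om : Type} [Field K] [Field Om] [Algebra K Om] [IsAlgClosure K Om] {n : ℕ}
    (hn : (n : K) ≠ 0) {y : Om} {z : K} (hy : Fx K y) (h : algebraMap K Om z = y ^ n) :
    ∃ u : K, z = u ^ n := by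
  have n0 : n ≠ 0 := by rintro rfl; simp at hn
  rcases eq_or_ne z 0 with rfl | hz
  · exact ⟨0, by simp [n0]⟩
  have hs : IsSeparable K y := (separable_X_pow_sub_C z hn hz).of_dvd (minpoly.dvd K y (by simp [h]))
  let S := separableClosure K Om
  have hm : y ∈ S := mem_separableClosure_iff.2 hs
  obtain ⟨u, hu⟩ := (InfiniteGalois.mem_range_algebraMap_iff_fixed (k := K) (⟨y, hm⟩ : S)).2
    fun σ => Subtype.ext (((σ.liftNormal_commutes Om ⟨y, hm⟩).symm).trans (hy _))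
  refine ⟨u, (algebraMap K Om).injective ?_⟩
  rw [h, map_pow, show algebraMap K Om u = y from congrArg Subtype.val hu]

section
variable {k : Type} [Field k] [IsAlgClosed k] (P : F.Par k) {Om L : Type} [Field Om] [Field L]
  [Algebra P.FF Om] [Algebra k Om] [IsScalarTower k P.FF Om] [Algebra Om L] [CFF Om L] (m w : L)

/-- `z ↦ θ (g z)` is linear over the constants and has invariant values -/
def Good (g : RingAut P.FF) (θ : RingAut Om) : Prop :=
  (∀ a, θ (algebraMap P.FF Om (g (P.ι a))) = algebraMap k Om a) ∧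
    ∀ z, Fx P.FF (θ (algebraMap P.FF Om z))

/-- the embedding of `FC` -/
def em {g : RingAut P.FF} {θ : RingAut Om} (h : Good P g θ) : P.FC →ₐ[k] Om :=
  { (θ : Om →+* Om).comp ((algebraMap P.FF Om).comp
      ((g : P.FF →+* P.FF).comp (algebraMap P.FC P.FF))) with commutes' := h.1 }

theorem em_apply {g : RingAut P.FF} {θ : RingAut Om} (h : Good P g θ) (z : P.FC) :
    em P h z = θ (algebraMap P.FF Om (g z)) := rfl

theorem good_pt {g : RingAut P.FF} {θ : RingAut Om} (h : Good P g θ) :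
    θ (algebraMap P.FF Om (g P.W)) ^ 2 = aeval (θ (algebraMap P.FF Om (g P.M1))) P.fP ∧
      Transcendental k (θ (algebraMap P.FF Om (g P.M1))) := by
  constructor
  · have := congrArg (em P h) P.wC_sq
    rwa [map_pow, ← aeval_algHom_apply] at this
  · exact fun c => P.tr_sub (x := P.mC) P.M1_tr
      ((isAlgebraic_algHom_iff (em P h) (em P h).injective).1 c)

theorem pt_down {μ s : P.FF} (h : algebraMap P.FF Om s ^ 2 = aeval (algebraMap P.FF Om μ) P.fP ∧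
    Transcendental k (algebraMap P.FF Om μ)) : s ^ 2 = aeval μ P.fP ∧ Transcendental k μ :=
  ⟨(algebraMap P.FF Om).injective (by rw [map_pow, h.1, aeval_algebraMap_apply]),
    (transcendental_algebraMap_iff (algebraMap P.FF Om).injective).1 h.2⟩

theorem good_one {g : RingAut P.FF} (h : ∀ a, g (P.ι a) = P.ι a) : Good P g (1 : RingAut Om) :=
  ⟨fun a => by rw [h]; exact (IsScalarTower.algebraMap_apply k P.FF Om a).symm,
    fun z s => s.commutes z⟩

theorem gs_c (a : Fin 6) (c : k) : gs P a (P.ι c) = P.ι c := by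
  fin_cases a <;> simp [gs, P.mul_ap, P.one_ap, P.rho_c, P.iota_c]

theorem hs_c (sw : Bool) (b : Fin 2) (c : k) : hs P sw b (P.ι c) = P.ι c := by
  cases sw <;> fin_cases b <;> simp [hs, P.mul_ap, P.one_ap, P.rho_c, P.iota_c]

theorem iota_pow_c (e : ℕ) (c : k) : (P.iota ^ e) (P.ι c) = P.ι c := by
  induction e with
  | zero => rfl
  | succ e ih => rw [pow_succ, P.mul_ap, P.iota_c, ih]

variable {q : ℕ} {Ψ : RingAut Om} {r : RingAut P.FF}

theorem good_V (hΨ : ∀ x, Ψ x = x ^ q) (hr : ∀ a, r (P.ι a) = P.ι (a ^ q)) {g : RingAut P.FF}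
    (h : ∀ a, g (P.ι a) = P.ι a) : Good P (g * r) Ψ⁻¹ := by
  refine ⟨fun a => ?_, fun z s => ?_⟩
  · rw [P.mul_ap, hr, h, ← IsScalarTower.algebraMap_apply, map_pow, ← hΨ]
    exact Ψ.symm_apply_apply _
  · apply Ψ.injective
    rw [hΨ, ← map_pow, ← hΨ, show Ψ (Ψ⁻¹ (algebraMap P.FF Om z)) = _ from Ψ.apply_symm_apply _,
      s.commutes]

theorem good_F (hq : 0 < q) (hΨ : ∀ x, Ψ x = x ^ q) (hr : ∀ a, r (P.ι a) = P.ι (a ^ q))
    {g : RingAut P.FF} (h : ∀ a, g (P.ι a) = P.ι a) : Good P (g * r⁻¹) Ψ := by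
  refine ⟨fun a => ?_, fun z s => by rw [hΨ, map_pow, s.commutes]⟩
  obtain ⟨c, rfl⟩ := IsAlgClosed.exists_pow_nat_eq a hq
  rw [P.mul_ap, ← hr, show r⁻¹ (r (P.ι c)) = _ from r.symm_apply_apply _, h,
    ← IsScalarTower.algebraMap_apply, hΨ, map_pow]

/-- the divisor of the point `θ (g M, g W)` -/
def dp (g : RingAut P.FF) (θ : RingAut Om) : Plk Om L →₀ ℤ :=
  pt m w (θ (algebraMap P.FF Om (g P.M1))) (θ (algebraMap P.FF Om (g P.W)))

/-- the correspondence `e' (V + ι ^ e F)` -/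
def yy (q e : ℕ) (Ψ : RingAut Om) (r : RingAut P.FF) : Plk Om L →₀ ℤ :=
  ∑ a, cs a • ((q : ℤ) • dp P m w (gs P a * r) Ψ⁻¹ + dp P m w (gs P a * P.iota ^ e * r⁻¹) Ψ)

/-- the correspondence `e' c g` -/
def xx (sw : Bool) (g : RingAut P.FF) : Plk Om L →₀ ℤ :=
  ∑ a, cs a • ∑ b, cc sw b • dp P m w (gs P a * hs P sw b * g) (1 : RingAut Om)

/-- the product in `Kill` -/
def kp (r : RingAut P.FF) (sw : Bool) (q e : ℕ) (a0 a1 : ℤ) (h : P.FF) : P.FF :=
  ∏ a, ((gs P a * r) h * (gs P a * P.iota ^ e * r⁻¹) h ^ q *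
    ∏ b, ((gs P a * hs P sw b) h ^ a0 * (gs P a * hs P sw b * P.iota) h ^ a1) ^ (-cc sw b)) ^ cs a

theorem exists_fam (hq : 0 < q) (hΨ : ∀ x, Ψ x = x ^ q) (hr : ∀ a, r (P.ι a) = P.ι (a ^ q))
    (sw : Bool) (e : ℕ) (a0 a1 : ℤ) :
    ∃ (α : Fin 6 × Fin 6 → P.FC →ₐ[k] Om) (c : Fin 6 × Fin 6 → ℤ), ∑ a, c a = 0 ∧
      (∀ a z, Fx P.FF (α a z)) ∧
      ∑ a, c a • pt m w (α a P.mC) (α a P.wC) =
        yy P m w q e Ψ r - a0 • xx P m w sw 1 - a1 • xx P m w sw P.iota ∧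
      ∀ h : P.FC, ∏ a, α a h ^ c a = algebraMap P.FF Om (kp P r sw q e a0 a1 h) := by
  let G : Fin 6 → Fin 6 → RingAut P.FF := fun a => ![gs P a * r, gs P a * P.iota ^ e * r⁻¹,
    gs P a * hs P sw 0, gs P a * hs P sw 0 * P.iota, gs P a * hs P sw 1,
    gs P a * hs P sw 1 * P.iota]
  let T : Fin 6 → RingAut Om := ![Ψ⁻¹, Ψ, 1, 1, 1, 1]
  let C : Fin 6 → ℤ := ![q, 1, a0 * -cc sw 0, a1 * -cc sw 0, a0 * -cc sw 1, a1 * -cc sw 1]
  have hg : ∀ a : Fin 6 × Fin 6, Good P (G a.1 a.2) (T a.2) := by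
    rintro ⟨a, t⟩
    fin_cases t
    · exact good_V P hΨ hr (gs_c P a)
    · exact good_F P hq hΨ hr fun c => by rw [P.mul_ap, iota_pow_c, gs_c]
    all_goals exact good_one P fun c => by simp only [G]; simp [P.mul_ap, gs_c, hs_c, P.iota_c]
  refine ⟨fun a => em P (hg a), fun a => C a.2 * cs a.1, ?_, fun a z => (hg a).2 _, ?_, fun h => ?_⟩
  · rw [Fintype.sum_prod_type_right]
    refine Finset.sum_eq_zero fun t _ => ?_
    simp [← Finset.mul_sum, cs, Fin.sum_univ_succ]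
  · rw [Fintype.sum_prod_type, yy, xx, xx, Finset.smul_sum, Finset.smul_sum,
      ← Finset.sum_sub_distrib, ← Finset.sum_sub_distrib]
    refine Finset.sum_congr rfl fun a _ => ?_
    show ∑ t, (C t * cs a) • dp P m w (G a t) (T t) = _
    simp only [Fin.sum_univ_succ, Fin.sum_univ_zero, G, T, C, Matrix.cons_val_zero,
      Matrix.cons_val_succ, mul_one, Fin.succ_zero_eq_one]
    module
  · rw [Fintype.prod_prod_type, kp, map_prod]
    refine Finset.prod_congr rfl fun a _ => ?_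
    show ∏ t, (T t (algebraMap P.FF Om (G a t h))) ^ (C t * cs a) = _
    have e1 : ∀ x : Om, Ψ⁻¹ x ^ q = x := fun x => by rw [← hΨ]; exact Ψ.apply_symm_apply _
    have e2 : ∀ x : Om, (1 : RingAut Om) x = x := fun _ => rfl
    simp only [zpow_mul, Finset.prod_zpow, map_zpow₀]
    congr 1
    simp only [Fin.prod_univ_succ, Fin.prod_univ_zero, G, T, C, Matrix.cons_val_zero,
      Matrix.cons_val_succ, mul_one, Fin.succ_zero_eq_one, zpow_natCast, e1, e2, hΨ, zpow_one,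
      map_mul, map_pow, map_zpow₀, zpow_mul, mul_zpow, mul_assoc]

end

end Vale.Agent.P027M.FA
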