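import Vale.Agent.P027M.FA.Defs
import Vale.Agent.P027M.G.Sub

/-! # P027, route M, block FAITH : transfer of `Kill` along a good reduction (abstract part) -/

set_option linter.all false

open Vale.Agent.P019P P025H492 P025H816 P025H746

noncomputable section

namespace Vale.Agent.P027M.FA

open Gs

/-- the function which is the `n`-th power in `Kill` -/
def kex {k : Type} [Field k] [IsAlgClosed k] (P : F.Par k) (r : RingAut P.FF) (sw : Bool)
    (q e : ℕ) (a0 a1 : ℤ) (h : P.FF) : P.FF :=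
  ∏ a, ((gs P a * r) h * (gs P a * P.iota ^ e * r⁻¹) h ^ q *
    ∏ b, ((gs P a * hs P sw b) h ^ a0 * (gs P a * hs P sw b * P.iota) h ^ a1) ^ (-cc sw b)) ^ cs a

theorem kill_iff {k : Type} [Field k] [IsAlgClosed k] (P : F.Par k) (r : RingAut P.FF) (sw : Bool)
    (q e n : ℕ) (a0 a1 : ℤ) : Kill P r sw q e n a0 a1 ↔
      ∀ h ∈ divU k P.FF n, ∃ y : P.FF, kex P r sw q e a0 a1 (h : P.FF) = y ^ n := Iff.rfl

namespace Tr

variable {C K L : Type} [NontriviallyNormedField C] [IsUltrametricDist C] [IsAlgClosed C]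
  [Field K] [Algebra C K] [Field L] {w : NV C K} (e : L ≃+* kap w)

/-- `x` is a unit with reduction `y` -/
def Rl (x : K) (y : L) : Prop := w x = 1 ∧ w.red x = e y

/-- `f` keeps the valuation and induces `g` -/
def Cmp (f : RingAut K) (g : RingAut L) : Prop :=
  ∀ x, w (f x) = w x ∧ (w x ≤ 1 → w.red (f x) = e (g (e.symm (w.red x))))

variable {e}

theorem Rl.one : Rl e 1 1 := ⟨map_one _, by rw [NV.red_one, map_one]⟩

theorem Rl.mul {x x' : K} {y y' : L} (h : Rl e x y) (h' : Rl e x' y') : Rl e (x * x') (y * y') :=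
  ⟨by rw [map_mul, h.1, h'.1, mul_one], by rw [NV.red_mul h.1.le h'.1.le, h.2, h'.2, map_mul]⟩

theorem Rl.pow {x : K} {y : L} (h : Rl e x y) (n : ℕ) : Rl e (x ^ n) (y ^ n) :=
  ⟨by rw [map_pow, h.1, one_pow], by rw [NV.red_pow h.1.le, h.2, map_pow]⟩

theorem Rl.zpow {x : K} {y : L} (h : Rl e x y) (n : ℤ) : Rl e (x ^ n) (y ^ n) :=
  ⟨(red_zpow h.1 n).1, by rw [(red_zpow h.1 n).2, h.2, map_zpow₀]⟩

theorem Rl.prod {ι : Type*} (s : Finset ι) {x : ι → K} {y : ι → L} (h : ∀ i, Rl e (x i) (y i)) :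
    Rl e (∏ i ∈ s, x i) (∏ i ∈ s, y i) := by
  classical
  induction s using Finset.induction_on with
  | empty => simpa using Rl.one
  | insert a s ha ih => rw [Finset.prod_insert ha, Finset.prod_insert ha]; exact (h a).mul ih

theorem Rl.of {x : K} (h : w x = 1) : Rl e x (e.symm (w.red x)) := ⟨h, (e.apply_symm_apply _).symm⟩

theorem Rl.root {x : K} {y : L} {n : ℕ} (hn : n ≠ 0) (h : Rl e (x ^ n) y) :
    y = e.symm (w.red x) ^ n := by
  have h1 : w x = 1 :=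
    (pow_eq_one_iff_of_nonneg (w.av.nonneg x) hn).1 (by rw [← h.1, map_pow])
  exact e.injective (h.2.symm.trans ((Rl.of h1).pow n).2)

theorem Cmp.rl {f : RingAut K} {g : RingAut L} (h : Cmp e f g) {x : K} {y : L} (hx : Rl e x y) :
    Rl e (f x) (g y) :=
  ⟨(h x).1.trans hx.1, by rw [(h x).2 hx.1.le, hx.2, e.symm_apply_apply]⟩

theorem Cmp.one : Cmp e 1 1 := fun x => ⟨rfl, fun _ => (e.apply_symm_apply _).symm⟩

theorem Cmp.mul {f f' : RingAut K} {g g' : RingAut L} (h : Cmp e f g) (h' : Cmp e f' g') :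
    Cmp e (f * f') (g * g') := fun x =>
  ⟨(h (f' x)).1.trans (h' x).1, fun hx => by
    have h1 := (h (f' x)).2 ((h' x).1 ▸ hx)
    rw [(h' x).2 hx, e.symm_apply_apply] at h1
    exact h1⟩

theorem Cmp.inv {f : RingAut K} {g : RingAut L} (h : Cmp e f g) : Cmp e f⁻¹ g⁻¹ := fun x => by
  have h0 : f (f⁻¹ x) = x := f.apply_symm_apply x
  have h1 := h (f⁻¹ x)
  rw [h0] at h1
  refine ⟨h1.1.symm, fun hx => ?_⟩
  rw [h1.2 (h1.1 ▸ hx), e.symm_apply_apply]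
  have h2 : ∀ z, g⁻¹ (g z) = z := g.symm_apply_apply
  rw [h2, e.apply_symm_apply]

theorem Cmp.pow {f : RingAut K} {g : RingAut L} (h : Cmp e f g) : ∀ n : ℕ, Cmp e (f ^ n) (g ^ n)
  | 0 => by rw [pow_zero, pow_zero]; exact Cmp.one
  | n + 1 => by rw [pow_succ, pow_succ]; exact (Cmp.pow h n).mul h

/-- every function whose divisor is divisible by `n` lifts -/
theorem lift [CFF C K] [CFF (kC C) (kap w)] {T : K} (h : Gd w T) {n : ℕ} (hn : (n : kC C) ≠ 0)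
    {g : (kap w)ˣ} (hg : g ∈ divU (kC C) (kap w) n) :
    ∃ f ∈ divU C K n, w (f : K) = 1 ∧ w.red (f : K) = g := by
  have hn0 : n ≠ 0 := by rintro rfl; simp at hn
  obtain ⟨ρ, hρ, -, h2⟩ := h.exists_red hn
  obtain ⟨s, hs⟩ := h.exists_sp
  obtain ⟨a, ha⟩ := h2 (QuotientGroup.mk ⟨g, hg⟩)
  obtain ⟨f, h3, rfl⟩ := h.toFull.exists_rep hn0 a
  rw [hρ f ⟨Units.mk0 _ (NV.red_ne_zero h3), hs.dvd h3 f.2⟩ h3 rfl, QuotientGroup.eq,
    ← QuotientGroup.eq_one_iff, mk_eq_one] at ha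
  obtain ⟨y, hy⟩ := ha
  have hy' : y ^ n = (w.red ((f : Kˣ) : K))⁻¹ * g := by simpa using hy
  have h4 : y ≠ 0 := by
    rintro rfl
    rw [zero_pow hn0] at hy'
    exact mul_ne_zero (inv_ne_zero (NV.red_ne_zero h3)) g.ne_zero hy'.symm
  obtain ⟨z, h5, rfl⟩ := NV.red_surj y
  have h6 := w_eq_one h5 h4
  refine ⟨f * Units.mk0 z (ne_of_w h6) ^ n, mul_mem f.2 fun P => ?_, ?_, ?_⟩
  · rw [Units.val_pow_eq_pow_val, ord_pow]
    exact Dvd.intro _ rfl
  · rw [Units.val_mul, Units.val_pow_eq_pow_val, Units.val_mk0, map_mul, map_pow, h3, h6, one_pow,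
      mul_one]
  · rw [Units.val_mul, Units.val_pow_eq_pow_val, Units.val_mk0,
      NV.red_mul h3.le (NV.pow_le_one' h5 n), NV.red_pow h5, hy',
      mul_inv_cancel_left₀ (NV.red_ne_zero h3)]

end Tr

open Tr

section

variable {C : Type} [NontriviallyNormedField C] [IsUltrametricDist C] [IsAlgClosed C]
  {k : Type} [Field k] [IsAlgClosed k] {P : F.Par C} {Pk : F.Par k} {w : NV C P.FF}
  {e : Pk.FF ≃+* kap w}

theorem Tr.cmp_gs (h1 : Cmp e P.rho Pk.rho) (h2 : Cmp e P.iota Pk.iota) (a : Fin 6) :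
    Cmp e (gs P a) (gs Pk a) := by
  fin_cases a
  exacts [Cmp.one, h1, h1.mul h1, h2.mul h2, (h2.mul h2).mul h1, (h2.mul h2).mul (h1.mul h1)]

theorem Tr.cmp_hs (h1 : Cmp e P.rho Pk.rho) (h2 : Cmp e P.iota Pk.iota) (sw : Bool) (b : Fin 2) :
    Cmp e (hs P sw b) (hs Pk sw b) := by
  cases sw <;> fin_cases b
  exacts [Cmp.one, Cmp.one, h2.mul h1, h2.mul (h1.mul h1)]

theorem Tr.rl_kex (h1 : Cmp e P.rho Pk.rho) (h2 : Cmp e P.iota Pk.iota) {r : RingAut P.FF}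
    {rk : RingAut Pk.FF} (h3 : Cmp e r rk) (sw : Bool) (q d : ℕ) (a0 a1 : ℤ) {x : P.FF} {y : Pk.FF}
    (h : Rl e x y) : Rl e (kex P r sw q d a0 a1 x) (kex Pk rk sw q d a0 a1 y) :=
  Rl.prod _ fun a => (((((cmp_gs h1 h2 a).mul h3).rl h).mul
    (((((cmp_gs h1 h2 a).mul (h2.pow d)).mul h3.inv).rl h).pow q)).mul (Rl.prod _ fun b =>
      (((((cmp_gs h1 h2 a).mul (cmp_hs h1 h2 sw b)).rl h).zpow a0).mul
        (((((cmp_gs h1 h2 a).mul (cmp_hs h1 h2 sw b)).mul h2).rl h).zpow a1)).zpow _)).zpow _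

/-- **transfer** of `Kill` to the special fibre -/
theorem Tr.kill [CFF (kC C) (kap w)] {T : P.FF} (hg : Gd w T) (e0 : k ≃+* kC C)
    (he : ∀ a, e (algebraMap k Pk.FF a) = algebraMap (kC C) (kap w) (e0 a))
    (h1 : Cmp e P.rho Pk.rho) (h2 : Cmp e P.iota Pk.iota) {r : RingAut P.FF}
    {rk : RingAut Pk.FF} (h3 : Cmp e r rk) {sw : Bool} {q d n : ℕ} {a0 a1 : ℤ}
    (hn : (n : kC C) ≠ 0) (h : Kill P r sw q d n a0 a1) : Kill Pk rk sw q d n a0 a1 := by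
  have hn0 : n ≠ 0 := by rintro rfl; simp at hn
  rw [kill_iff] at h ⊢
  intro g hg'
  obtain ⟨f, h4, h5, h6⟩ := lift hg hn (_root_.P027M.K.mU_mem he hg')
  obtain ⟨y, hy⟩ := h f h4
  have h7 := rl_kex h1 h2 h3 sw q d a0 a1 (show Rl e (f : P.FF) (g : Pk.FF) from ⟨h5, h6⟩)
  rw [hy] at h7
  exact ⟨_, h7.root hn0⟩

end

end Vale.Agent.P027M.FA
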