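import Vale.Agent.P027M.FA.TrAbs
import Vale.Agent.P027M.R.Defs

/-! # P027, route M, block FAITH : transfer of `Kill` along a good reduction `Rdn` -/

set_option linter.all false

open Vale.Agent.P019P P025H492 P025H816 P027M.K

noncomputable section

namespace Vale.Agent.P027M.FA

open R

namespace Tq

variable {C k : Type} [Field C] [Field k] {O : ValuationSubring C} {res : O →+* k}

section gen

variable {K L : Type} [Field K] [Field L] [Algebra C K] [Algebra k L] [CFF C K] [CFF k L]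
  (R : Rdn res K L)

/-- `x` is a unit with reduction `y` -/
def Ru (x : K) (y : L) : Prop := R.rd x y ∧ y ≠ 0

variable {R}

theorem Ru.one : Ru R 1 1 := ⟨R.one, one_ne_zero⟩

theorem Ru.mul {x x' : K} {y y' : L} (h : Ru R x y) (h' : Ru R x' y') : Ru R (x * x') (y * y') :=
  ⟨R.mul h.1 h'.1, mul_ne_zero h.2 h'.2⟩

theorem Ru.pow {x : K} {y : L} (h : Ru R x y) (n : ℕ) : Ru R (x ^ n) (y ^ n) :=
  ⟨Rdn.pow h.1 n, pow_ne_zero n h.2⟩

theorem Ru.zpow {x : K} {y : L} (h : Ru R x y) : ∀ n : ℤ, Ru R (x ^ n) (y ^ n)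
  | (n : ℕ) => by rw [zpow_natCast, zpow_natCast]; exact h.pow n
  | Int.negSucc n => by
    rw [zpow_negSucc, zpow_negSucc]
    exact ⟨R.inv (h.pow _).1 (h.pow _).2, inv_ne_zero (h.pow _).2⟩

theorem Ru.prod {ι : Type*} (s : Finset ι) {x : ι → K} {y : ι → L} (h : ∀ i, Ru R (x i) (y i)) :
    Ru R (∏ i ∈ s, x i) (∏ i ∈ s, y i) := by
  classical
  induction s using Finset.induction_on with
  | empty => simpa using Ru.one
  | insert a s ha ih => rw [Finset.prod_insert ha, Finset.prod_insert ha]; exact (h a).mul ih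

theorem Ru.lf {f : RingAut K} {g : RingAut L} (h : R.Lf f g) {x : K} {y : L} (hx : Ru R x y) :
    Ru R (f x) (g y) := ⟨h _ _ hx.1, (map_ne_zero g).2 hx.2⟩

/-- the reduction of an `n`-th power is an `n`-th power -/
theorem Ru.root {x : K} {y : L} {n : ℕ} (hn : n ≠ 0) (h : Ru R (x ^ n) y) : ∃ z, y = z ^ n := by
  have h1 : Units.mk0 _ (Rdn.ne h.1 h.2) ∈ powU K n := mem_powU'.2 ⟨x, rfl⟩
  have h2 := powU_le (k := C) n h1
  have h3 := R.sp_tP (g := Units.mk0 y h.2) hn h2 h.1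
  rw [(tP_eq_zero_iff hn h2).2 h1, map_zero, eq_comm,
    tP_eq_zero_iff hn (R.mem (g := Units.mk0 y h.2) h2 h.1), mem_powU'] at h3
  obtain ⟨z, hz⟩ := h3
  exact ⟨z, hz.symm⟩

/-- a unit whose divisor is divisible by `n` and whose reduction is an `n`-th power -/
theorem Ru.up {x : Kˣ} {y : L} {n : ℕ} (hn : (n : k) ≠ 0) (hx : x ∈ divU C K n)
    (h : Ru R (x : K) (y ^ n)) : ∃ z, (x : K) = z ^ n := by
  have hn0 := ne_zero_of_cast hn
  have h1 : Units.mk0 _ h.2 ∈ powU L n := mem_powU'.2 ⟨y, rfl⟩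
  have h3 := R.sp_tP (g := Units.mk0 _ h.2) hn0 hx h.1
  rw [(tP_eq_zero_iff hn0 (powU_le n h1)).2 h1] at h3
  obtain ⟨z, hz⟩ := mem_powU'.1 ((tP_eq_zero_iff hn0 hx).1 (R.inj hn (nsmul_tP hn0 hx) h3))
  exact ⟨z, hz.symm⟩

variable (R)

/-- every function whose divisor is divisible by `n` lifts -/
theorem lift {n : ℕ} (hn : (n : k) ≠ 0) {g : Lˣ} (hg : g ∈ divU k L n) :
    ∃ f ∈ divU C K n, Ru R (f : K) (g : L) := by
  have hn0 := ne_zero_of_cast hn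
  obtain ⟨x, h1, h2⟩ := R.sp_surj hn (nsmul_tP hn0 hg)
  obtain ⟨f, g', h3, h4, rfl⟩ := R.exists_rep hn0 h1
  rw [R.sp_tP hn0 h3 h4, tP_eq_iff hn0 (R.mem h3 h4) hg, mem_powU'] at h2
  obtain ⟨y, hy⟩ := h2
  have h5 : y ≠ 0 := by
    rintro rfl
    rw [zero_pow hn0] at hy
    exact Units.ne_zero _ hy.symm
  obtain ⟨z, hz⟩ := R.surj y
  refine ⟨f * Units.mk0 z (Rdn.ne hz h5) ^ n,
    mul_mem h3 (powU_le n (mem_powU'.2 ⟨z, by simp⟩)), ?_, g.ne_zero⟩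
  have h6 := R.mul h4 (Rdn.pow hz n)
  rw [hy, ← Units.val_mul, mul_inv_cancel_left] at h6
  simpa using h6

end gen

variable [IsAlgClosed C] [IsAlgClosed k] {P : F.Par C} {Q : F.Par k} {R : Rdn res P.FF Q.FF}

theorem lf_gs (h1 : R.Lf P.rho Q.rho) (h2 : R.Lf P.iota Q.iota) (a : Fin 6) :
    R.Lf (gs P a) (gs Q a) := by
  fin_cases a
  exacts [R.lf_one, h1, h1.mul h1, h2.mul h2, (h2.mul h2).mul h1, (h2.mul h2).mul (h1.mul h1)]

theorem lf_hs (h1 : R.Lf P.rho Q.rho) (h2 : R.Lf P.iota Q.iota) (sw : Bool) (b : Fin 2) :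
    R.Lf (hs P sw b) (hs Q sw b) := by
  cases sw <;> fin_cases b
  exacts [R.lf_one, R.lf_one, h2.mul h1, h2.mul (h1.mul h1)]

theorem ru_kex (h1 : R.Lf P.rho Q.rho) (h2 : R.Lf P.iota Q.iota) {r : RingAut P.FF}
    {s : RingAut Q.FF} (h3 : R.Lf r s) (h4 : R.Lf r⁻¹ s⁻¹) (sw : Bool) (q d : ℕ) (a0 a1 : ℤ)
    {x : P.FF} {y : Q.FF} (h : Ru R x y) :
    Ru R (kex P r sw q d a0 a1 x) (kex Q s sw q d a0 a1 y) :=
  Ru.prod _ fun a => (((h.lf ((lf_gs h1 h2 a).mul h3)).mul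
    ((h.lf (((lf_gs h1 h2 a).mul (h2.pow d)).mul h4)).pow q)).mul (Ru.prod _ fun b =>
      (((h.lf ((lf_gs h1 h2 a).mul (lf_hs h1 h2 sw b))).zpow a0).mul
        ((h.lf (((lf_gs h1 h2 a).mul (lf_hs h1 h2 sw b)).mul h2)).zpow a1)).zpow _)).zpow _

/-- **transfer** of `Kill` to the special fibre -/
theorem kill (h1 : R.Lf P.rho Q.rho) (h2 : R.Lf P.iota Q.iota) {r : RingAut P.FF}
    {s : RingAut Q.FF} (h3 : R.Lf r s) (h4 : R.Lf r⁻¹ s⁻¹) {sw : Bool} {q d n : ℕ} {a0 a1 : ℤ}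
    (hn : (n : k) ≠ 0) (h : Kill P r sw q d n a0 a1) : Kill Q s sw q d n a0 a1 := by
  rw [kill_iff] at h ⊢
  intro g hg
  obtain ⟨f, h5, h6⟩ := lift R hn hg
  obtain ⟨y, hy⟩ := h f h5
  have h7 := ru_kex h1 h2 h3 h4 sw q d a0 a1 h6
  rw [hy] at h7
  exact h7.root (ne_zero_of_cast hn)

end Tq

end Vale.Agent.P027M.FA
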